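import Vale.Agent.P239.Ball

/-! Task Amenable: Folner sets kill harmonic functions of finite energy (trace argument).
For a harmonic `u` of finite energy, an edge `(x0, s0)` and a finite set `F`, consider the square
matrix `N g x = u (x0 * g⁻¹ * x * s0) - u (x0 * g⁻¹ * x)` indexed by `F`. Its trace is
`card F * (u (x0 * s0) - u x0)`, the sum of the squares of its entries is at most
`card F * energy`, and its rows lie in a space of dimension at most `ncard (edgeBd F)` by the
maximum principle. The inequality `trace ^ 2 ≤ rank * (sum of squares)` finishes the proof.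
-/

noncomputable section

open Classical MeasureTheory Filter Topology Set
open scoped Pointwise

namespace Vale.Agent.P239

universe u
variable {G : Type u} [Group G] {S : Finset G}

theorem am_trace {ι : Type*} [Fintype ι] (W : Submodule ℝ (EuclideanSpace ℝ ι))
    (r : ι → EuclideanSpace ℝ ι) (hr : ∀ g, r g ∈ W) :
    (∑ g, r g g) ^ 2 ≤ (∑ g, ∑ x, r g x ^ 2) * (Module.finrank ℝ W : ℝ) := by
  set b := stdOrthonormalBasis ℝ W with hb
  have h1 : ∀ g, r g g = ∑ i, inner ℝ (b i) (⟨r g, hr g⟩ : W) * (b i : EuclideanSpace ℝ ι) g := by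
    intro g
    have h := b.sum_repr' (⟨r g, hr g⟩ : W)
    have h2 := congrArg (fun w : W => (w : EuclideanSpace ℝ ι) g) h
    simp only [Submodule.coe_sum, Submodule.coe_smul, WithLp.ofLp_sum, WithLp.ofLp_smul,
      Finset.sum_apply, Pi.smul_apply, smul_eq_mul] at h2
    exact h2.symm
  have h2 : ∀ g, ∑ i, inner ℝ (b i) (⟨r g, hr g⟩ : W) ^ 2 = ∑ x, r g x ^ 2 := by
    intro g
    have h := b.sum_sq_inner_right (⟨r g, hr g⟩ : W)
    rw [h, ← EuclideanSpace.real_norm_sq_eq]
    rfl
  have h3 : ∀ i, ∑ g, (b i : EuclideanSpace ℝ ι) g ^ 2 = 1 := by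
    intro i
    rw [← EuclideanSpace.real_norm_sq_eq]
    have : ‖(b i : EuclideanSpace ℝ ι)‖ = 1 := b.orthonormal.1 i
    rw [this, one_pow]
  have h4 := Finset.sum_mul_sq_le_sq_mul_sq (Finset.univ : Finset (ι × Fin (Module.finrank ℝ W)))
    (fun p => inner ℝ (b p.2) (⟨r p.1, hr p.1⟩ : W)) (fun p => (b p.2 : EuclideanSpace ℝ ι) p.1)
  rw [Fintype.sum_prod_type, Fintype.sum_prod_type, Fintype.sum_prod_type_right] at h4
  simp only [h2, h3, ← h1, Finset.sum_const, Finset.card_univ, Fintype.card_fin, nsmul_eq_mul,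
    mul_one] at h4
  exact h4

theorem am_finrank {V A B : Type*} [AddCommGroup V] [Module ℝ V] [AddCommGroup A] [Module ℝ A]
    [AddCommGroup B] [Module ℝ B] [FiniteDimensional ℝ A] (f : V →ₗ[ℝ] A) (g : V →ₗ[ℝ] B)
    (h : LinearMap.ker f ≤ LinearMap.ker g) :
    Module.finrank ℝ (LinearMap.range g) ≤ Module.finrank ℝ A := by
  let φ : LinearMap.range f →ₗ[ℝ] B :=
    ((LinearMap.ker f).liftQ g h).comp (f.quotKerEquivRange.symm : LinearMap.range f →ₗ[ℝ] _)
  have h1 : LinearMap.range φ = LinearMap.range g := by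
    rw [LinearMap.range_comp_of_range_eq_top _ (LinearEquiv.range _), Submodule.range_liftQ]
  rw [← h1]
  exact (LinearMap.finrank_range_le φ).trans (Submodule.finrank_le _)

theorem am_max (hS : Cay S) (F : Finset G) {v : G → ℝ} (hv : Harm S v)
    (h0 : ∀ x ∈ F, ∀ s ∈ S, x * s ∉ F → v (x * s) = 0) : ∀ x ∈ F, v x ≤ 0 := by
  intro x hx
  obtain ⟨y, hy, hmax⟩ := F.exists_max_image v ⟨x, hx⟩
  by_contra hpos
  have hM : 0 < v y := (not_le.1 hpos).trans_le (hmax x hx)
  have hc : (0 : ℝ) < S.card := by exact_mod_cast hS.card_pos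
  have step : ∀ z, (z ∈ F ∧ v z = v y) → ∀ s ∈ S, (z * s ∈ F ∧ v (z * s) = v y) := by
    rintro z ⟨hz, hvz⟩
    have hle : ∀ s ∈ S, v (z * s) ≤ v y := by
      intro s hs
      by_cases h : z * s ∈ F
      · exact hmax _ h
      · rw [h0 z hz s hs h]; exact hM.le
    have hsum : ∑ s ∈ S, v (z * s) = ∑ _s ∈ S, v y := by
      have h1 := hv z
      unfold avg at h1
      rw [div_eq_iff hc.ne', hvz] at h1
      rw [h1, Finset.sum_const, nsmul_eq_mul, mul_comm]
    have heq := (Finset.sum_eq_sum_iff_of_le hle).1 hsum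
    intro s hs
    refine ⟨?_, heq s hs⟩
    by_contra h
    have h1 := heq s hs
    rw [h0 z hz s hs h] at h1
    exact hM.ne h1
  have hall : ∀ z, (z ∈ F ∧ v z = v y) := by
    intro z
    have h := hS.const_of_edges (fun z => (z ∈ F ∧ v z = v y)) (fun z s hs => propext
      ⟨fun h => by simpa using step _ h _ (hS.symm s hs), fun h => step _ h s hs⟩) z y
    exact h.mpr ⟨hy, rfl⟩
  have := hS.inf
  exact Set.infinite_univ (α := G) (F.finite_toSet.subset fun z _ => (hall z).1)

/-- The space of harmonic functions. -/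
def amHarm (S : Finset G) : Submodule ℝ (G → ℝ) where
  carrier := {v | Harm S v}
  zero_mem' := fun x => by simp [avg]
  add_mem' := fun {v w} hv hw x => by
    have h1 := hv x
    have h2 := hw x
    unfold avg at h1 h2 ⊢
    simp only [Pi.add_apply, Finset.sum_add_distrib, add_div, h1, h2]
  smul_mem' := fun c v hv x => by
    have h1 := hv x
    unfold avg at h1 ⊢
    simp only [Pi.smul_apply, smul_eq_mul, ← Finset.mul_sum, mul_div_assoc, h1]

theorem am_key (hS : Cay S) (F : Finset G) {u : G → ℝ} (hE : FinEn S u) (hu : Harm S u) (x0 : G)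
    {s0 : G} (hs0 : s0 ∈ S) :
    ((F.card : ℝ) * (u (x0 * s0) - u x0)) ^ 2 ≤
      (F.card : ℝ) * energy S u * ((edgeBd S (F : Set G)).ncard : ℝ) := by
  have hfin : (edgeBd S (F : Set G)).Finite := edgeBd_finite_of_finite F.finite_toSet
  set O : Finset G := hfin.toFinset.image fun e => e.1 * e.2 with hO
  have hOc : O.card ≤ (edgeBd S (F : Set G)).ncard := by
    rw [Set.ncard_eq_toFinset_card _ hfin]
    exact Finset.card_image_le
  have hOm : ∀ x ∈ F, ∀ s ∈ S, x * s ∉ F → x * s ∈ O := by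
    intro x hx s hs h
    refine Finset.mem_image.2 ⟨(x, s), ?_, rfl⟩
    rw [Set.Finite.mem_toFinset]
    exact ⟨hs, fun h' => h (h'.1 hx)⟩
  let f : amHarm S →ₗ[ℝ] (O → ℝ) :=
    { toFun := fun v y => v.1 y
      map_add' := fun _ _ => rfl
      map_smul' := fun _ _ => rfl }
  let g : amHarm S →ₗ[ℝ] EuclideanSpace ℝ F :=
    { toFun := fun v => WithLp.toLp 2 fun x => v.1 (x * s0) - v.1 x
      map_add' := fun v w => by
        ext x
        simp only [Submodule.coe_add, Pi.add_apply, PiLp.add_apply]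
        ring
      map_smul' := fun c v => by
        ext x
        simp only [Submodule.coe_smul, Pi.smul_apply, PiLp.smul_apply, smul_eq_mul,
          RingHom.id_apply]
        ring }
  have hker : LinearMap.ker f ≤ LinearMap.ker g := by
    intro v hv
    have h0 : ∀ x ∈ F, ∀ s ∈ S, x * s ∉ F → v.1 (x * s) = 0 := fun x hx s hs h =>
      congrFun (LinearMap.mem_ker.1 hv) ⟨_, hOm x hx s hs h⟩
    have h1 : ∀ x ∈ F, v.1 x = 0 := by
      intro x hx
      have h2 := am_max hS F v.2 h0 x hx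
      have h3 := am_max hS F (-v).2 (fun x hx s hs h => by simp [h0 x hx s hs h]) x hx
      simp only [Submodule.coe_neg, Pi.neg_apply, neg_nonpos] at h3
      exact le_antisymm h2 h3
    rw [LinearMap.mem_ker]
    ext x
    change v.1 (x * s0) - v.1 x = 0
    rw [h1 x x.2, sub_zero]
    by_cases h : (x : G) * s0 ∈ F
    · exact h1 _ h
    · exact h0 x x.2 s0 hs0 h
  have hrk : (Module.finrank ℝ (LinearMap.range g) : ℝ) ≤ (edgeBd S (F : Set G)).ncard := by
    have h := am_finrank f g hker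
    rw [Module.finrank_fintype_fun_eq_card, Fintype.card_coe] at h
    exact_mod_cast h.trans hOc
  have htr : ∀ a : G, (fun x => u (a * x)) ∈ amHarm S := by
    intro a x
    have h := hu (a * x)
    unfold avg at h ⊢
    simpa only [mul_assoc] using h
  have h := am_trace (LinearMap.range g) (fun y : F => g ⟨_, htr (x0 * (y : G)⁻¹)⟩)
    fun y => LinearMap.mem_range_self _ _
  have e1 : ∀ y : F, (g ⟨_, htr (x0 * (y : G)⁻¹)⟩) y = u (x0 * s0) - u x0 := by
    intro y
    change u (x0 * (y : G)⁻¹ * (y * s0)) - u (x0 * (y : G)⁻¹ * y) = _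
    simp [mul_assoc]
  have e2 : ∀ y : F, ∑ x : F, (g ⟨_, htr (x0 * (y : G)⁻¹)⟩) x ^ 2 ≤ energy S u := by
    intro y
    obtain ⟨h1, h2⟩ := hE.translate (x0 * (y : G)⁻¹)
    rw [← h2]
    refine le_trans ?_ (h1.sum_le_tsum F fun x _ => grad2_nonneg _ x)
    rw [← Finset.sum_coe_sort F]
    refine Finset.sum_le_sum fun x _ => ?_
    exact Finset.single_le_sum (f := fun s => (u (x0 * (y : G)⁻¹ * (x * s)) -
      u (x0 * (y : G)⁻¹ * x)) ^ 2) (fun s _ => sq_nonneg _) hs0
  simp only [e1, Finset.sum_const, Finset.card_univ, Fintype.card_coe, nsmul_eq_mul] at h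
  refine h.trans (mul_le_mul ?_ hrk (Nat.cast_nonneg _)
    (mul_nonneg (Nat.cast_nonneg _) (energy_nonneg u)))
  refine (Finset.sum_le_sum fun y _ => e2 y).trans ?_
  simp

theorem Cay.harmVanish_of_folner (hS : Cay S) (hF : Folner S) : HarmVanish S := by
  intro u hE hu x s hs
  have hE0 := energy_nonneg (S := S) u
  have h : ∀ ε : ℝ, 0 < ε → (u (x * s) - u x) ^ 2 ≤ ε * energy S u := by
    intro ε hε
    obtain ⟨F, hne, hFb⟩ := hF ε hε
    have hc : (0 : ℝ) < F.card := by exact_mod_cast hne.card_pos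
    have h1 := (am_key hS F hE hu x hs).trans
      (mul_le_mul_of_nonneg_left hFb (mul_nonneg hc.le hE0))
    have h2 : (F.card : ℝ) ^ 2 * (u (x * s) - u x) ^ 2 ≤ (F.card : ℝ) ^ 2 * (ε * energy S u) := by
      nlinarith
    exact le_of_mul_le_mul_left h2 (by positivity)
  have h0 : (u (x * s) - u x) ^ 2 ≤ 0 := by
    refine le_of_forall_pos_le_add fun δ hδ => ?_
    have h1 := h (δ / (energy S u + 1)) (by positivity)
    have h2 : δ / (energy S u + 1) * energy S u ≤ δ := by
      rw [div_mul_eq_mul_div, div_le_iff₀ (by positivity)]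
      nlinarith
    linarith
  have := pow_eq_zero_iff (two_ne_zero) |>.1 (le_antisymm h0 (sq_nonneg _))
  linarith

end Vale.Agent.P239
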