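import Vale.Agent.P239.DFun

/-! Task GoodSet: monotone limits, good events, invariance.
`hat_H_of_mono`: `H (ψ n) ≤ H φ` so `hat (H φ) ≥ hat (H (ψ n)) = ψ n` a.e. (`hat_mono`), hence `hat (H φ) ≥ φ` a.e.;
`∫ hat (H φ) dμ 1 = H φ 1 = ∫ φ dμ 1` by `H_hat_of_harm`; so equality a.e.
`isD_of_mono`: `H (ψ n) → H φ` pointwise by dominated convergence, `finEn_of_tendsto`, and `hat_H_of_mono`.
`Good.union`: `h (A ∪ A') ≥ max (h A) (h A')`, so `hat (h (A ∪ A')) ≥ indicator` a.e., equal integrals.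
`good_of_split`: the indicator of `M` is the increasing limit of `min 1 (n * indicator M (f - 1/n)^+)` (index shifted by one).
`Good.infinite_deep`: if `U = {x | θ < h A x}` is finite, a.e. `ξ ∉ hatSet U`, but a.e. on `A`, `hat (h A) = 1 > θ`
(`mem_hatSet_of_lt`).
-/

noncomputable section

open Classical MeasureTheory Filter Topology Set
open scoped Pointwise

namespace Vale.Agent.P239

universe u
variable {G : Type u} [Group G] {S : Finset G} {l : ℕ}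

namespace Bdry
variable {B : Bdry S}

theorem gs_repro (hS : Cay S) {φ : Bd G → ℝ} (hm : Measurable φ) (hb : Bdd φ)
    (h : φ ≤ᵐ[B.μ 1] hat (B.H φ)) : hat (B.H φ) =ᵐ[B.μ 1] φ := by
  have hb2 := B.H_bdd hb
  have h1 : ∫ ξ, φ ξ ∂B.μ 1 = ∫ ξ, hat (B.H φ) ξ ∂B.μ 1 :=
    (congrFun (B.H_hat_of_harm hb2 (B.H_harm hS hm hb)) 1).symm
  exact ((integral_eq_iff_of_ae_le (B.integrable hm hb 1)
    (B.integrable hb2.measurable_hat hb2.bdd_hat 1) h).1 h1).symm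

theorem gs_bdd_ind (A : Set (Bd G)) : Bdd (A.indicator fun _ => (1 : ℝ)) := by
  refine ⟨1, fun ξ => ?_⟩
  by_cases h : ξ ∈ A
  · rw [indicator_of_mem h, abs_one]
  · rw [indicator_of_notMem h, abs_zero]
    exact zero_le_one

theorem gs_good (hS : Cay S) {A : Set (Bd G)} (hA : MeasurableSet A)
    (h : ∀ᵐ ξ ∂B.μ 1, ξ ∈ A → 1 ≤ hat (B.h A) ξ) : B.Good A := by
  refine ⟨hA, ?_⟩
  rw [B.h_eq_H hA]
  refine gs_repro hS (measurable_const.indicator hA) (gs_bdd_ind A) ?_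
  rw [← B.h_eq_H hA]
  filter_upwards [h] with ξ hξ
  by_cases h1 : ξ ∈ A
  · rw [indicator_of_mem h1]
    exact hξ h1
  · rw [indicator_of_notMem h1, ← hat_const (G := G) 0 ξ]
    exact hat_mono ⟨0, fun _ => by simp⟩ (B.h_bdd A) (Eventually.of_forall fun x => B.h_nonneg A x)

theorem gs_up (hS : Cay S) {A A' : Set (Bd G)} (h : B.Good A) (hs : A ⊆ A') :
    ∀ᵐ ξ ∂B.μ 1, ξ ∈ A → 1 ≤ hat (B.h A') ξ := by
  filter_upwards [h.2] with ξ hξ hA
  rw [indicator_of_mem hA] at hξ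
  rw [← hξ]
  refine hat_mono (B.h_bdd A) (B.h_bdd A') (Eventually.of_forall fun x => B.h_mono hS ?_ x)
  exact (B.sub_iff A A').2 (Eventually.of_forall fun _ h => hs h)

theorem gs_approx (hS : Cay S) (hg : Gap S) {A : Set (Bd G)} (hA : MeasurableSet A)
    {ψ : ℕ → Bd G → ℝ} (hD : ∀ n, B.IsD (ψ n))
    (hle : ∀ n ξ, ψ n ξ ≤ A.indicator (fun _ => (1 : ℝ)) ξ)
    (h1 : ∀ ξ ∈ A, ∃ n, 1 ≤ ψ n ξ) : B.Good A := by
  refine gs_good hS hA ?_
  filter_upwards [ae_all_iff.2 fun n => (hD n).hat_H hS hg] with ξ hξ hA'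
  obtain ⟨n, hn⟩ := h1 ξ hA'
  rw [← hξ n] at hn
  refine hn.trans (hat_mono (B.H_bdd (hD n).2.1) (B.h_bdd A) (Eventually.of_forall fun x => ?_))
  rw [B.h_eq_H hA]
  exact B.H_mono hS (hD n).1 (hD n).2.1 (measurable_const.indicator hA) (gs_bdd_ind A)
    (Eventually.of_forall (hle n)) x

theorem hat_H_of_mono (hS : Cay S) {ψ : ℕ → Bd G → ℝ} {φ : Bd G → ℝ}
    (hm : ∀ n, Measurable (ψ n)) (hb : ∀ n, Bdd (ψ n)) (hm' : Measurable φ) (hb' : Bdd φ)
    (hr : ∀ n, hat (B.H (ψ n)) =ᵐ[B.μ 1] ψ n)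
    (hl : ∀ᵐ ξ ∂B.μ 1, Monotone (fun n => ψ n ξ) ∧ Tendsto (fun n => ψ n ξ) atTop (𝓝 (φ ξ))) :
    hat (B.H φ) =ᵐ[B.μ 1] φ := by
  refine gs_repro hS hm' hb' ?_
  filter_upwards [hl, ae_all_iff.2 hr] with ξ hξ hξ'
  refine le_of_tendsto' hξ.2 fun n => ?_
  rw [← hξ' n]
  refine hat_mono (B.H_bdd (hb n)) (B.H_bdd hb') (Eventually.of_forall fun x => ?_)
  refine B.H_mono hS (hm n) (hb n) hm' hb' ?_ x
  filter_upwards [hl] with ζ hζ
  exact hζ.1.ge_of_tendsto hζ.2 n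

theorem isD_of_mono (hS : Cay S) (hg : Gap S) {ψ : ℕ → Bd G → ℝ} {φ : Bd G → ℝ} {K : ℝ}
    (hD : ∀ n, B.IsD (ψ n)) (hK : ∀ n, energy S (B.H (ψ n)) ≤ K) (hm' : Measurable φ)
    (hb' : Bdd φ)
    (hl : ∀ᵐ ξ ∂B.μ 1, Monotone (fun n => ψ n ξ) ∧ Tendsto (fun n => ψ n ξ) atTop (𝓝 (φ ξ))) :
    B.IsD φ := by
  have h1 : ∀ x, Tendsto (fun n => B.H (ψ n) x) atTop (𝓝 (B.H φ x)) := by
    intro x
    have hl' : ∀ᵐ ξ ∂B.μ x, Monotone (fun n => ψ n ξ) ∧
        Tendsto (fun n => ψ n ξ) atTop (𝓝 (φ ξ)) := by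
      rw [B.ae_eq_ae hS x]
      exact hl
    exact integral_tendsto_of_tendsto_of_monotone
      (fun n => B.integrable (hD n).1 (hD n).2.1 x) (B.integrable hm' hb' x)
      (hl'.mono fun _ h => h.1) (hl'.mono fun _ h => h.2)
  have h2 := (finEn_of_tendsto (fun n => (hD n).finEn hS hg) hK h1).1
  have h3 := hat_H_of_mono hS (fun n => (hD n).1) (fun n => (hD n).2.1) hm' hb'
    (fun n => (hD n).hat_H hS hg) hl
  exact ⟨hm', hb', B.H φ, B.H_bdd hb', h2, h3.symm⟩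

theorem Good.compl {A : Set (Bd G)} (h : B.Good A) : B.Good Aᶜ := by
  refine ⟨h.1.compl, ?_⟩
  filter_upwards [h.2] with ξ hξ
  have h1 : B.h Aᶜ = fun x => 1 - B.h A x := funext fun x => B.h_compl h.1 x
  have h2 : hat (B.h Aᶜ) ξ = 1 - hat (B.h A) ξ := by
    rw [h1]
    exact hat_eq_of_tendsto (tendsto_const_nhds.sub ((B.h_bdd A).tendsto_hat ξ))
  rw [h2, hξ]
  by_cases h3 : ξ ∈ A
  · rw [indicator_of_mem h3, indicator_of_notMem (fun h4 : ξ ∈ Aᶜ => h4 h3), sub_self]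
  · rw [indicator_of_notMem h3, indicator_of_mem (show ξ ∈ Aᶜ from h3), sub_zero]

theorem Good.union (hS : Cay S) {A A' : Set (Bd G)} (h : B.Good A) (h' : B.Good A') :
    B.Good (A ∪ A') := by
  refine gs_good hS (h.1.union h'.1) ?_
  filter_upwards [gs_up hS h (subset_union_left (t := A')),
    gs_up hS h' (subset_union_right (s := A))] with ξ h1 h2 h3
  exact h3.elim h1 h2

theorem Good.inter (hS : Cay S) {A A' : Set (Bd G)} (h : B.Good A) (h' : B.Good A') :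
    B.Good (A ∩ A') := by
  have h1 := (h.compl.union hS h'.compl).compl
  rwa [compl_union, compl_compl, compl_compl] at h1

theorem good_iUnion (hS : Cay S) {ι : Type} [Countable ι] {A : ι → Set (Bd G)}
    (h : ∀ i, B.Good (A i)) : B.Good (⋃ i, A i) := by
  refine gs_good hS (MeasurableSet.iUnion fun i => (h i).1) ?_
  filter_upwards [ae_all_iff.2 fun i => gs_up hS (h i) (subset_iUnion A i)] with ξ h1 h2
  obtain ⟨i, hi⟩ := mem_iUnion.1 h2
  exact h1 i hi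

theorem good_iInter (hS : Cay S) {ι : Type} [Countable ι] {A : ι → Set (Bd G)}
    (h : ∀ i, B.Good (A i)) : B.Good (⋂ i, A i) := by
  have h1 := (good_iUnion hS fun i => (h i).compl).compl
  rw [compl_iUnion] at h1
  simpa only [compl_compl] using h1

theorem Good.smul (hS : Cay S) {A : Set (Bd G)} (h : B.Good A) (g : G) : B.Good (g • A) := by
  refine ⟨measurableSet_smul_bd g h.1, ?_⟩
  have h1 : B.h (g • A) = fun x => B.h A (g⁻¹ * x) := by
    funext x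
    rw [← B.h_smul g (g⁻¹ * x) A, mul_inv_cancel_left]
  filter_upwards [B.ae_smul hS g⁻¹ h.2] with ξ hξ
  rw [h1, ← hat_smul, hξ]
  by_cases h2 : g⁻¹ • ξ ∈ A
  · rw [indicator_of_mem h2, indicator_of_mem (mem_smul_set_iff_inv_smul_mem.2 h2)]
  · rw [indicator_of_notMem h2,
      indicator_of_notMem fun h3 => h2 (mem_smul_set_iff_inv_smul_mem.1 h3)]

theorem good_gt (hS : Cay S) (hg : Gap S) {f : Bd G → ℝ} (hf : B.IsD f) (a : ℝ) :
    B.Good {ξ | a < f ξ} := by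
  have hA : MeasurableSet {ξ | a < f ξ} := measurableSet_lt measurable_const hf.1
  refine gs_approx hS hg hA (ψ := fun n ξ => min 1 ((n : ℝ) * (f ξ - a)))
    (fun n => (isD_const 1).min ((hf.sub (isD_const a)).const_mul n)) (fun n ξ => ?_) fun ξ hξ => ?_
  · by_cases h : ξ ∈ {ξ | a < f ξ}
    · rw [indicator_of_mem h]
      exact min_le_left _ _
    · rw [indicator_of_notMem h]
      have h1 : f ξ - a ≤ 0 := sub_nonpos.2 (not_lt.1 h)
      exact (min_le_right _ _).trans (mul_nonpos_of_nonneg_of_nonpos (Nat.cast_nonneg n) h1)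
  · have h1 : 0 < f ξ - a := sub_pos.2 hξ
    obtain ⟨n, hn⟩ := exists_nat_ge (1 / (f ξ - a))
    exact ⟨n, le_min le_rfl ((div_le_iff₀ h1).1 hn)⟩

theorem good_of_split (hS : Cay S) (hg : Gap S) {f : Bd G → ℝ} {M : Set (Bd G)}
    (hM : B.Split f M) (hpos : ∀ ξ ∈ M, 0 < f ξ) : B.Good M := by
  refine gs_approx hS hg hM.1 (ψ := fun n ξ => min 1 (((n : ℝ) + 1) *
      M.indicator (fun ξ => max (f ξ - 1 / ((n : ℝ) + 1)) 0) ξ))
    (fun n => (isD_const 1).min ((hM.2 _ (by positivity)).const_mul _)) (fun n ξ => ?_)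
    fun ξ hξ => ?_
  · by_cases h : ξ ∈ M
    · rw [indicator_of_mem h (fun _ => (1 : ℝ))]
      exact min_le_left _ _
    · rw [indicator_of_notMem h, indicator_of_notMem h, mul_zero]
      exact min_le_right _ _
  · have h1 := hpos ξ hξ
    obtain ⟨n, hn⟩ := exists_nat_ge (2 / f ξ)
    refine ⟨n, le_min le_rfl ?_⟩
    rw [indicator_of_mem hξ]
    have h2 : 2 ≤ n * f ξ := (div_le_iff₀ h1).1 hn
    have h3 : (0 : ℝ) < (n : ℝ) + 1 := by positivity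
    refine le_trans ?_ (mul_le_mul_of_nonneg_left (le_max_left _ _) h3.le)
    rw [mul_sub, mul_one_div_cancel h3.ne']
    linarith

theorem Good.infinite_deep (hS : Cay S) {A : Set (Bd G)} (h : B.Good A) (hA : ¬ B.Null A)
    {θ : ℝ} (hθ : θ < 1) : {x | θ < B.h A x}.Infinite := by
  intro hfin
  apply hA
  rw [B.null_iff_ae]
  filter_upwards [h.2, (B.null_iff_ae _).1 (B.null_hatSet_of_finite hS hfin)] with ξ h1 h2 h3
  rw [indicator_of_mem h3] at h1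
  exact h2 (mem_hatSet_of_lt (B.h_bdd A) (h1.symm ▸ hθ))

theorem Sep.symm {A A' : Set (Bd G)} (h : B.Sep A A') : B.Sep A' A := by
  obtain ⟨θ, ⟨h1, h2⟩, h3, h4⟩ := h
  refine ⟨fun ξ => 1 - θ ξ, ⟨(isD_const 1).sub h1, fun ξ => ?_⟩, ?_, ?_⟩
  · have := h2 ξ
    constructor <;> linarith [this.1, this.2]
  · filter_upwards [h4] with ξ h5 h6
    rw [h5 h6, sub_self]
  · filter_upwards [h3] with ξ h5 h6
    rw [h5 h6, sub_zero]

theorem Sep.mono {A A' A₁ A₁' : Set (Bd G)} (h : B.Sep A A') (h1 : B.Sub A₁ A)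
    (h2 : B.Sub A₁' A') : B.Sep A₁ A₁' := by
  obtain ⟨θ, h0, h3, h4⟩ := h
  refine ⟨θ, h0, ?_, ?_⟩
  · filter_upwards [h3, (B.sub_iff _ _).1 h1] with ξ h5 h6 h7
    exact h5 (h6 h7)
  · filter_upwards [h4, (B.sub_iff _ _).1 h2] with ξ h5 h6 h7
    exact h5 (h6 h7)

theorem Sep.null_inter {A A' : Set (Bd G)} (h : B.Sep A A') : B.Null (A ∩ A') := by
  obtain ⟨θ, -, h3, h4⟩ := h
  rw [B.null_iff_ae]
  filter_upwards [h3, h4] with ξ h5 h6 h7
  exact zero_ne_one ((h5 h7.1).symm.trans (h6 h7.2))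

theorem Sep.smul (hS : Cay S) {A A' : Set (Bd G)} (h : B.Sep A A') (g : G) :
    B.Sep (g • A) (g • A') := by
  obtain ⟨θ, ⟨h1, h2⟩, h3, h4⟩ := h
  refine ⟨fun ξ => θ (g⁻¹ • ξ), ⟨h1.smul hS g⁻¹, fun ξ => h2 _⟩, ?_, ?_⟩
  · filter_upwards [B.ae_smul hS g⁻¹ h3] with ξ h5 h6
    exact h5 (mem_smul_set_iff_inv_smul_mem.1 h6)
  · filter_upwards [B.ae_smul hS g⁻¹ h4] with ξ h5 h6
    exact h5 (mem_smul_set_iff_inv_smul_mem.1 h6)

theorem Irr.smul (hS : Cay S) {A : Set (Bd G)} (h : B.Irr A) (g : G) : B.Irr (g • A) := by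
  intro θ h1 h2
  have h3 : ∀ᵐ ξ ∂B.μ 1, ξ ∈ A → θ (g • ξ) = 0 ∨ θ (g • ξ) = 1 := by
    filter_upwards [B.ae_smul hS g h2] with ξ h4 h5
    exact h4 (smul_mem_smul_set h5)
  refine (h (fun ξ => θ (g • ξ)) (h1.smul hS g) h3).imp (fun h4 => ?_) fun h4 => ?_
  · filter_upwards [B.ae_smul hS g⁻¹ h4] with ξ h5 h6
    have h7 := h5 (mem_smul_set_iff_inv_smul_mem.1 h6)
    rwa [smul_inv_smul] at h7
  · filter_upwards [B.ae_smul hS g⁻¹ h4] with ξ h5 h6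
    have h7 := h5 (mem_smul_set_iff_inv_smul_mem.1 h6)
    rwa [smul_inv_smul] at h7

theorem Irr.congr {A A' : Set (Bd G)} (h : B.Irr A) (h1 : B.Sub A A') (h2 : B.Sub A' A) :
    B.Irr A' := by
  intro θ h3 h4
  have h5 : ∀ᵐ ξ ∂B.μ 1, ξ ∈ A → θ ξ = 0 ∨ θ ξ = 1 := by
    filter_upwards [h4, (B.sub_iff _ _).1 h1] with ξ h6 h7 h8
    exact h6 (h7 h8)
  refine (h θ h3 h5).imp (fun h6 => ?_) fun h6 => ?_
  · filter_upwards [h6, (B.sub_iff _ _).1 h2] with ξ h7 h8 h9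
    exact h7 (h8 h9)
  · filter_upwards [h6, (B.sub_iff _ _).1 h2] with ξ h7 h8 h9
    exact h7 (h8 h9)

theorem Sub.refl (A : Set (Bd G)) : B.Sub A A := by
  exact (B.sub_iff _ _).2 (Eventually.of_forall fun _ h => h)

theorem Sub.of_subset {A A' : Set (Bd G)} (h : A ⊆ A') : B.Sub A A' := by
  exact (B.sub_iff _ _).2 (Eventually.of_forall fun _ h1 => h h1)

theorem Sub.trans {A A' A'' : Set (Bd G)} (h : B.Sub A A') (h' : B.Sub A' A'') :
    B.Sub A A'' := by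
  refine (B.sub_iff _ _).2 ?_
  filter_upwards [(B.sub_iff _ _).1 h, (B.sub_iff _ _).1 h'] with ξ h1 h2 h3
  exact h2 (h1 h3)

theorem Sub.compl {A A' : Set (Bd G)} (h : B.Sub A A') : B.Sub A'ᶜ Aᶜ := by
  refine (B.sub_iff _ _).2 ?_
  filter_upwards [(B.sub_iff _ _).1 h] with ξ h1 h2 h3
  exact h2 (h1 h3)

theorem Null.of_sub {A A' : Set (Bd G)} (h : B.Null A') (h' : B.Sub A A') : B.Null A := by
  refine (B.null_iff_ae _).2 ?_
  filter_upwards [(B.null_iff_ae _).1 h, (B.sub_iff _ _).1 h'] with ξ h1 h2 h3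
  exact h1 (h2 h3)

end Bdry

end Vale.Agent.P239
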