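import Vale.Agent.P239.CapC
import Vale.Agent.P239.GoodSet

/-! Task Atom: the sigma-algebra of splittings, main atoms. Write `f_t = (f - t)^+`.
compl: `f_t - indicator E f_t`; inter: `min`; `iUnion`: finite unions `⋃ i ≤ n` are splittings, then `isD_of_mono` with the uniform
bound `split_bound`; `iInter` by complements.
`Split.irr_sub`: `θ = min 1 (indicator E f_(a/2) / (a/2))` is `IsD`, equal to the indicator of `E` a.e. on `R`.
`irr_of_atom`: for `θ` two-valued on `M` let `E = M ∩ {θ = 1}`; `indicator E f_t = θ * indicator M f_t` a.e. so `E` is a splitting (`IsD.congr`).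
`exists_main`: minimise `μ 1 E` over splittings `E` with `Sub Q E` (infimum attained by a countable intersection), intersect with
`{0 < f}`; for a splitting `E ⊆ M`, `Split.irr_sub` gives `Sub Q E` or `Sub Q Eᶜ`; then `E`, resp. `M ∩ Eᶜ`, is a competitor so `M \ E`, resp. `E`, is null.
-/

noncomputable section

open Classical MeasureTheory Filter Topology Set
open scoped Pointwise

namespace Vale.Agent.P239

universe u
variable {G : Type u} [Group G] {S : Finset G} {l : ℕ}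

namespace Bdry
variable {B : Bdry S}

theorem at_pos {f : Bd G → ℝ} (hf : B.IsD f) (t : ℝ) : B.IsD fun ξ => max (f ξ - t) 0 :=
  (hf.sub (isD_const t)).max (isD_const 0)

theorem at_eq {ψ φ : Bd G → ℝ} (h : B.IsD ψ) (he : ∀ ξ, φ ξ = ψ ξ) : B.IsD φ := by
  have : φ = ψ := funext he
  rw [this]; exact h

theorem at_acc {f : Bd G → ℝ} {E : ℕ → Set (Bd G)} (h : ∀ n, B.Split f (E n))
    (hu : ∀ A A' : Set (Bd G), B.Split f A → B.Split f A' → B.Split f (A ∪ A')) (n : ℕ) :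
    B.Split f (Set.accumulate E n) := by
  induction n with
  | zero => rw [Set.accumulate_zero_nat]; exact h 0
  | succ n ih => rw [Set.accumulate_succ]; exact hu _ _ ih (h (n + 1))

theorem split_univ (hH : Hyp S l) {f : Bd G → ℝ} (hf : B.IsD01 f) : B.Split f univ :=
⟨MeasurableSet.univ, fun t _ => at_eq (at_pos hf.1 t) fun ξ => by simp⟩

theorem split_pos (hH : Hyp S l) {f : Bd G → ℝ} (hf : B.IsD01 f) :
    B.Split f {ξ | 0 < f ξ} :=
by
  refine ⟨measurableSet_lt measurable_const hf.1.1, fun t ht => at_eq (at_pos hf.1 t) fun ξ => ?_⟩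
  by_cases h : 0 < f ξ
  · exact Set.indicator_of_mem (s := {ξ | 0 < f ξ}) h _
  · rw [Set.indicator_of_notMem (s := {ξ | 0 < f ξ}) h, max_eq_right]
    push Not at h; linarith

theorem Split.compl (hH : Hyp S l) {f : Bd G → ℝ} (hf : B.IsD01 f) {E : Set (Bd G)}
    (h : B.Split f E) : B.Split f Eᶜ :=
by
  refine ⟨h.1.compl, fun t ht => at_eq ((at_pos hf.1 t).sub (h.2 t ht)) fun ξ => ?_⟩
  by_cases hξ : ξ ∈ E <;> simp [hξ]

theorem Split.inter {f : Bd G → ℝ} {E E' : Set (Bd G)} (h : B.Split f E) (h' : B.Split f E') :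
    B.Split f (E ∩ E') :=
by
  refine ⟨h.1.inter h'.1, fun t ht => at_eq ((h.2 t ht).min (h'.2 t ht)) fun ξ => ?_⟩
  by_cases hξ : ξ ∈ E <;> by_cases hξ' : ξ ∈ E' <;> simp [hξ, hξ']

theorem Split.union {f : Bd G → ℝ} {E E' : Set (Bd G)} (h : B.Split f E) (h' : B.Split f E') :
    B.Split f (E ∪ E') :=
by
  refine ⟨h.1.union h'.1, fun t ht => at_eq ((h.2 t ht).max (h'.2 t ht)) fun ξ => ?_⟩
  by_cases hξ : ξ ∈ E <;> by_cases hξ' : ξ ∈ E' <;> simp [hξ, hξ']

theorem split_iUnion (hH : Hyp S l) {f : Bd G → ℝ} (hf : B.IsD01 f) {E : ℕ → Set (Bd G)}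
    (h : ∀ n, B.Split f (E n)) : B.Split f (⋃ n, E n) :=
by
  have hm : MeasurableSet (⋃ n, E n) := MeasurableSet.iUnion fun n => (h n).1
  refine ⟨hm, fun t ht => ?_⟩
  obtain ⟨K, hK⟩ := split_bound B hH hf ht
  have hU := at_acc h (fun _ _ h1 h2 => h1.union h2)
  have hp := at_pos hf.1 t
  refine isD_of_mono hH.cay hH.gap (K := K)
    (ψ := fun n => (Set.accumulate E n).indicator fun ξ => max (f ξ - t) 0)
    (fun n => (hU n).2 t ht) (fun n => hK _ (hU n)) (hp.1.indicator hm) ?_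
    (Eventually.of_forall fun ξ => ⟨?_, ?_⟩)
  · obtain ⟨C, hC⟩ := hp.2.1
    refine ⟨C, fun ξ => ?_⟩
    by_cases hξ : ξ ∈ ⋃ n, E n
    · rw [Set.indicator_of_mem hξ]; exact hC ξ
    · rw [Set.indicator_of_notMem hξ, abs_zero]; exact (abs_nonneg _).trans (hC ξ)
  · intro m n hmn
    exact Set.indicator_le_indicator_of_subset (Set.monotone_accumulate hmn)
      (fun _ => le_max_right _ _) ξ
  · by_cases hξ : ξ ∈ ⋃ n, E n
    · obtain ⟨N, hN⟩ := Set.mem_iUnion.1 hξ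
      rw [Set.indicator_of_mem hξ]
      refine tendsto_const_nhds.congr' ?_
      filter_upwards [eventually_ge_atTop N] with n hn
      rw [Set.indicator_of_mem (Set.mem_accumulate.2 ⟨N, hn, hN⟩)]
    · rw [Set.indicator_of_notMem hξ]
      refine tendsto_const_nhds.congr fun n => ?_
      rw [Set.indicator_of_notMem]
      intro hn
      obtain ⟨N, _, hN⟩ := Set.mem_accumulate.1 hn
      exact hξ (Set.mem_iUnion.2 ⟨N, hN⟩)

theorem split_iInter (hH : Hyp S l) {f : Bd G → ℝ} (hf : B.IsD01 f) {E : ℕ → Set (Bd G)}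
    (h : ∀ n, B.Split f (E n)) : B.Split f (⋂ n, E n) :=
by
  have h1 := (split_iUnion hH hf fun n => (h n).compl hH hf).compl hH hf
  rw [Set.compl_iUnion] at h1
  simpa only [compl_compl] using h1

theorem Split.irr_sub {f : Bd G → ℝ} {E R : Set (Bd G)} (hE : B.Split f E) (hR : B.Irr R)
    {a : ℝ} (ha : 0 < a) (hfa : ∀ᵐ ξ ∂B.μ 1, ξ ∈ R → a ≤ f ξ) : B.Sub R E ∨ B.Sub R Eᶜ :=
by
  have hθ := (isD_const (B := B) 1).min ((hE.2 (a / 2) (half_pos ha)).const_mul (2 / a))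
  have h1 : ∀ ξ, ξ ∉ E → min 1 (2 / a * E.indicator (fun ξ => max (f ξ - a / 2) 0) ξ) = 0 := by
    intro ξ hξ
    rw [Set.indicator_of_notMem hξ]; simp
  have h2 : ∀ ξ, ξ ∈ E → a ≤ f ξ →
      min 1 (2 / a * E.indicator (fun ξ => max (f ξ - a / 2) 0) ξ) = 1 := by
    intro ξ hξ hle
    rw [Set.indicator_of_mem hξ]
    refine min_eq_left ?_
    have e1 : a / 2 ≤ max (f ξ - a / 2) 0 := le_max_of_le_left (by linarith)
    have e2 : 2 / a * (a / 2) = 1 := by field_simp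
    calc (1 : ℝ) = 2 / a * (a / 2) := e2.symm
      _ ≤ _ := mul_le_mul_of_nonneg_left e1 (by positivity)
  rcases hR _ hθ (hfa.mono fun ξ hξ hr => by
    by_cases hξE : ξ ∈ E
    · exact Or.inr (h2 ξ hξE (hξ hr))
    · exact Or.inl (h1 ξ hξE)) with h | h
  · refine Or.inr ((B.sub_iff _ _).2 ?_)
    filter_upwards [h, hfa] with ξ h0 hle hr hξE
    have := (h0 hr).symm.trans (h2 ξ hξE (hle hr))
    norm_num at this
  · refine Or.inl ((B.sub_iff _ _).2 ?_)
    filter_upwards [h] with ξ h0 hr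
    by_contra hξE
    have := (h0 hr).symm.trans (h1 ξ hξE)
    norm_num at this

theorem irr_of_atom {f : Bd G → ℝ} {M : Set (Bd G)} (hM : B.Split f M)
    (hat : ∀ E, B.Split f E → E ⊆ M → B.Null E ∨ B.Null (M \ E)) : B.Irr M :=
by
  intro θ hθ h01
  have hT : MeasurableSet {ξ | θ ξ = 1} := measurableSet_eq_fun hθ.1 measurable_const
  have hE : B.Split f (M ∩ {ξ | θ ξ = 1}) := by
    refine ⟨hM.1.inter hT, fun t ht => ?_⟩
    have hI := hM.2 t ht
    have e : (M ∩ {ξ | θ ξ = 1}).indicator (fun ξ => max (f ξ - t) 0) =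
        {ξ | θ ξ = 1}.indicator (M.indicator fun ξ => max (f ξ - t) 0) := by
      rw [Set.indicator_indicator, Set.inter_comm]
    rw [e]
    refine (hθ.mul hI).congr (hI.1.indicator hT) ?_ ?_
    · obtain ⟨C, hC⟩ := hI.2.1
      refine ⟨C, fun ξ => ?_⟩
      by_cases hξ : ξ ∈ {ξ | θ ξ = 1}
      · rw [Set.indicator_of_mem hξ]; exact hC ξ
      · rw [Set.indicator_of_notMem hξ, abs_zero]; exact (abs_nonneg _).trans (hC ξ)
    · filter_upwards [h01] with ξ hξ
      by_cases h1 : ξ ∈ {ξ | θ ξ = 1}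
      · rw [Set.indicator_of_mem h1]
        have h1' : θ ξ = 1 := h1
        rw [h1', one_mul]
      · rw [Set.indicator_of_notMem h1]
        by_cases hm : ξ ∈ M
        · rcases hξ hm with h0 | h0
          · rw [h0, zero_mul]
          · exact absurd h0 h1
        · rw [Set.indicator_of_notMem hm, mul_zero]
  rcases hat _ hE Set.inter_subset_left with h | h
  · refine Or.inl ?_
    filter_upwards [(B.null_iff_ae _).1 h, h01] with ξ h0 h1 hm
    rcases h1 hm with h2 | h2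
    · exact h2
    · exact absurd ⟨hm, h2⟩ h0
  · refine Or.inr ?_
    filter_upwards [(B.null_iff_ae _).1 h] with ξ h0 hm
    by_contra h2
    exact h0 ⟨hm, fun h3 => h2 h3.2⟩

theorem exists_main (hH : Hyp S l) {f : Bd G → ℝ} (hf : B.IsD01 f) {Q : Set (Bd G)}
    (hQ : B.Irr Q) {a : ℝ} (ha : 0 < a) (hfa : ∀ᵐ ξ ∂B.μ 1, ξ ∈ Q → a ≤ f ξ) :
    ∃ M, B.Split f M ∧ B.Sub Q M ∧ (∀ ξ ∈ M, 0 < f ξ) ∧ B.Irr M :=
by
  let T : Set ENNReal := {x | ∃ E, B.Split f E ∧ B.Sub Q E ∧ B.μ 1 E = x}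
  have hT : T.Nonempty := ⟨_, univ, split_univ hH hf, Sub.of_subset (subset_univ _), rfl⟩
  obtain ⟨u, -, hu, huT⟩ := exists_seq_tendsto_sInf hT (OrderBot.bddBelow T)
  choose E hE hQE hEu using huT
  have hM : B.Split f ((⋂ n, E n) ∩ {ξ | 0 < f ξ}) :=
    (split_iInter hH hf hE).inter (split_pos hH hf)
  have hQM : B.Sub Q ((⋂ n, E n) ∩ {ξ | 0 < f ξ}) := by
    refine (B.sub_iff _ _).2 ?_
    have h1 : ∀ᵐ ξ ∂B.μ 1, ∀ n, ξ ∈ Q → ξ ∈ E n :=
      ae_all_iff.2 fun n => (B.sub_iff _ _).1 (hQE n)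
    filter_upwards [h1, hfa] with ξ h1 h2 hq
    exact ⟨Set.mem_iInter.2 fun n => h1 n hq, ha.trans_le (h2 hq)⟩
  have hpos : ∀ ξ ∈ (⋂ n, E n) ∩ {ξ | 0 < f ξ}, 0 < f ξ := fun ξ hξ => hξ.2
  have hmin : ∀ E', B.Split f E' → B.Sub Q E' →
      B.μ 1 ((⋂ n, E n) ∩ {ξ | 0 < f ξ}) ≤ B.μ 1 E' := by
    intro E' h1 h2
    refine le_trans (ge_of_tendsto' hu fun n => ?_) (sInf_le (s := T) ⟨E', h1, h2, rfl⟩)
    rw [← hEu n]
    exact measure_mono (Set.inter_subset_left.trans (Set.iInter_subset _ n))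
  generalize (⋂ n, E n) ∩ {ξ | 0 < f ξ} = M at hM hQM hpos hmin
  refine ⟨M, hM, hQM, hpos, irr_of_atom hM fun E' hE' hsub => ?_⟩
  have hadd := measure_inter_add_sdiff (μ := B.μ 1) M hE'.1
  rw [Set.inter_eq_self_of_subset_right hsub] at hadd
  rcases hE'.irr_sub hQ ha hfa with h | h
  · refine Or.inr ?_
    have h1 := hmin E' hE' h
    rw [← hadd] at h1
    have h2 : B.μ 1 E' + B.μ 1 (M \ E') ≤ B.μ 1 E' + 0 := by rwa [add_zero]
    exact le_antisymm ((ENNReal.add_le_add_iff_left (measure_ne_top _ _)).1 h2) bot_le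
  · refine Or.inl ?_
    have h0 : B.Sub Q (M ∩ E'ᶜ) := by
      refine (B.sub_iff _ _).2 ?_
      filter_upwards [(B.sub_iff _ _).1 hQM, (B.sub_iff _ _).1 h] with ξ h1 h2 hq
      exact ⟨h1 hq, h2 hq⟩
    have h1 := hmin _ (hM.inter (hE'.compl hH hf)) h0
    rw [← hadd, ← Set.sdiff_eq] at h1
    have h2 : B.μ 1 E' + B.μ 1 (M \ E') ≤ 0 + B.μ 1 (M \ E') := by rwa [zero_add]
    exact le_antisymm ((ENNReal.add_le_add_iff_right (measure_ne_top _ _)).1 h2) bot_le

end Bdry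

end Vale.Agent.P239
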