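import Vale.Agent.P239.Core

/-! Task FinePart: two general lemmas (no group theory).
`exists_signs`: induction on `s` (`Finset.induction_on`): given `t` for `s` and a new index `a`, with
`y j` the signed sum so far, `∑ (y j + v a j)^2 + ∑ (y j - v a j)^2 = 2 ∑ y j ^2 + 2 ∑ (v a j)^2`; pick the smaller.
`exists_fine_partition` (Sierpinski type exhaustion): (1) every `E ∈ 𝒮`, `E ⊆ X` of positive measure contains `E' ∈ 𝒮` with
`0 < ν E' ≤ η` (halve repeatedly). (2) Let `𝒫` be the members of `𝒮` inside `X` that are finite disjoint unions of cells of measure `≤ η`;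
let `m = sup ν` over `𝒫`; unions of two members of `𝒫` are in `𝒫` (disjointify), so an increasing sequence has union `Z ∈ 𝒮` with `ν Z = m`;
by (1) `X \ Z` is null (else add a cell and exceed `m`). Choose the member `Z_n` with `ν (X \ Z_n) ≤ η` and add the cell `X \ Z_n`.
-/

noncomputable section

open Classical MeasureTheory Filter Topology Set
open scoped Pointwise

namespace Vale.Agent.P239



theorem exists_signs {ι κ : Type*} [Fintype κ] (s : Finset ι) (v : ι → κ → ℝ) :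
    ∃ t ⊆ s, ∑ j, (∑ i ∈ t, v i j - ∑ i ∈ s \ t, v i j) ^ 2 ≤ ∑ i ∈ s, ∑ j, v i j ^ 2 := by
  classical
  induction s using Finset.induction_on with
  | empty => exact ⟨∅, Finset.Subset.refl _, by simp⟩
  | insert a s ha ih =>
    obtain ⟨t, hts, ht⟩ := ih
    have hat : a ∉ t := fun h => ha (hts h)
    set y : κ → ℝ := fun j => ∑ i ∈ t, v i j - ∑ i ∈ s \ t, v i j with hy
    have key : ∑ j, (y j + v a j) ^ 2 + ∑ j, (y j - v a j) ^ 2 =
        2 * ∑ j, y j ^ 2 + 2 * ∑ j, v a j ^ 2 := by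
      rw [← Finset.sum_add_distrib, Finset.mul_sum, Finset.mul_sum, ← Finset.sum_add_distrib]
      exact Finset.sum_congr rfl fun j _ => by ring
    rw [Finset.sum_insert ha]
    by_cases h : ∑ j, (y j + v a j) ^ 2 ≤ ∑ j, (y j - v a j) ^ 2
    · refine ⟨insert a t, Finset.insert_subset_insert a hts, ?_⟩
      have e : ∀ j, ∑ i ∈ insert a t, v i j - ∑ i ∈ insert a s \ insert a t, v i j
          = y j + v a j := by
        intro j
        have h2 : insert a s \ insert a t = s \ t := by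
          ext i
          simp only [Finset.mem_sdiff, Finset.mem_insert]
          constructor
          · rintro ⟨h1 | h1, h3⟩
            · exact absurd (Or.inl h1) h3
            · exact ⟨h1, fun h4 => h3 (Or.inr h4)⟩
          · rintro ⟨h1, h3⟩
            refine ⟨Or.inr h1, ?_⟩
            rintro (h4 | h4)
            · exact ha (h4 ▸ h1)
            · exact h3 h4
        rw [h2, Finset.sum_insert hat, hy]
        ring
      simp only [e]
      linarith
    · refine ⟨t, hts.trans (Finset.subset_insert a s), ?_⟩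
      have e : ∀ j, ∑ i ∈ t, v i j - ∑ i ∈ insert a s \ t, v i j = y j - v a j := by
        intro j
        have h2 : insert a s \ t = insert a (s \ t) := Finset.insert_sdiff_of_notMem s hat
        have h3 : a ∉ s \ t := fun h4 => ha (Finset.mem_sdiff.1 h4).1
        rw [h2, Finset.sum_insert h3, hy]
        ring
      simp only [e]
      linarith

theorem exists_fine_partition {Ω : Type*} [MeasurableSpace Ω] (ν : Measure Ω) [IsFiniteMeasure ν]
    (𝒮 : Set (Set Ω)) (hm : ∀ E ∈ 𝒮, MeasurableSet E) (hc : ∀ E ∈ 𝒮, Eᶜ ∈ 𝒮)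
    (hi : ∀ E ∈ 𝒮, ∀ E' ∈ 𝒮, E ∩ E' ∈ 𝒮)
    (hU : ∀ E : ℕ → Set Ω, (∀ n, E n ∈ 𝒮) → (⋃ n, E n) ∈ 𝒮) {X : Set Ω} (hX : X ∈ 𝒮)
    (hna : ∀ E ∈ 𝒮, E ⊆ X → ν E ≠ 0 → ∃ E' ∈ 𝒮, E' ⊆ E ∧ ν E' ≠ 0 ∧ ν (E \ E') ≠ 0)
    {η : ENNReal} (hη : η ≠ 0) :
    ∃ P : Finset (Set Ω), (∀ E ∈ P, E ∈ 𝒮 ∧ ν E ≤ η) ∧
      (P : Set (Set Ω)).PairwiseDisjoint id ∧ ⋃₀ (P : Set (Set Ω)) = X := by
  classical
  have hdiff : ∀ E ∈ 𝒮, ∀ E' ∈ 𝒮, E \ E' ∈ 𝒮 := fun E hE E' hE' => hi E hE _ (hc E' hE')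
  have hun : ∀ E ∈ 𝒮, ∀ E' ∈ 𝒮, E ∪ E' ∈ 𝒮 := by
    intro E hE E' hE'
    have := hc _ (hi _ (hc E hE) _ (hc E' hE'))
    rwa [Set.compl_inter, compl_compl, compl_compl] at this
  have hemp : (∅ : Set Ω) ∈ 𝒮 := by
    have := hdiff X hX X hX
    rwa [Set.sdiff_self] at this
  -- halving
  have half : ∀ n : ℕ, ∀ E ∈ 𝒮, E ⊆ X → ν E ≠ 0 →
      ∃ E' ∈ 𝒮, E' ⊆ E ∧ ν E' ≠ 0 ∧ 2 ^ n * ν E' ≤ ν E := by
    intro n E hE hEX hE0
    induction n with
    | zero => exact ⟨E, hE, Subset.rfl, hE0, by simp⟩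
    | succ n ih =>
      obtain ⟨E', hE', hsub, h0, hle⟩ := ih
      obtain ⟨E'', hE'', hsub', h1, h2⟩ := hna E' hE' (hsub.trans hEX) h0
      have hsum : ν E'' + ν (E' \ E'') = ν E' := by
        rw [← measure_union Set.disjoint_sdiff_right (hm _ (hdiff _ hE' _ hE'')),
          Set.union_sdiff_cancel hsub']
      rcases le_total (ν E'') (ν (E' \ E'')) with h | h
      · refine ⟨E'', hE'', hsub'.trans hsub, h1, ?_⟩
        calc 2 ^ (n + 1) * ν E'' = 2 ^ n * (ν E'' + ν E'') := by rw [pow_succ, ← two_mul, mul_assoc]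
          _ ≤ 2 ^ n * (ν E'' + ν (E' \ E'')) := by gcongr
          _ ≤ ν E := by rw [hsum]; exact hle
      · refine ⟨E' \ E'', hdiff _ hE' _ hE'', Set.sdiff_subset.trans hsub, h2, ?_⟩
        calc 2 ^ (n + 1) * ν (E' \ E'') = 2 ^ n * (ν (E' \ E'') + ν (E' \ E'')) := by
              rw [pow_succ, ← two_mul, mul_assoc]
          _ ≤ 2 ^ n * (ν E'' + ν (E' \ E'')) := by gcongr
          _ ≤ ν E := by rw [hsum]; exact hle
  have small : ∀ E ∈ 𝒮, E ⊆ X → ν E ≠ 0 → ∃ E' ∈ 𝒮, E' ⊆ E ∧ ν E' ≠ 0 ∧ ν E' ≤ η := by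
    intro E hE hEX hE0
    obtain ⟨n, hn⟩ := ENNReal.exists_nat_mul_gt hη (measure_ne_top ν E)
    obtain ⟨E', hE', hsub, h0, hle⟩ := half n E hE hEX hE0
    refine ⟨E', hE', hsub, h0, ?_⟩
    have hn2 : (n : ENNReal) ≤ 2 ^ n := by
      have : n ≤ 2 ^ n := Nat.lt_two_pow_self.le
      exact_mod_cast this
    have h3 : 2 ^ n * ν E' ≤ 2 ^ n * η :=
      hle.trans (hn.le.trans (mul_le_mul_left hn2 η))
    exact (ENNReal.mul_le_mul_iff_right (by positivity) (by finiteness)).1 h3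
  -- finite disjoint unions of cells
  let PP : Set (Set Ω) := {Z | Z ∈ 𝒮 ∧ Z ⊆ X ∧ ∃ P : Finset (Set Ω), (∀ E ∈ P, E ∈ 𝒮 ∧ ν E ≤ η) ∧
      (P : Set (Set Ω)).PairwiseDisjoint id ∧ ⋃₀ (P : Set (Set Ω)) = Z}
  have P0 : (∅ : Set Ω) ∈ PP := ⟨hemp, Set.empty_subset _, ∅, by simp, by simp, by simp⟩
  have Padd : ∀ Z ∈ PP, ∀ E ∈ 𝒮, E ⊆ X → ν E ≤ η → Z ∪ E ∈ PP := by
    rintro Z ⟨hZ, hZX, P, hP, hPd, hPu⟩ E hE hEX hEη
    refine ⟨hun _ hZ _ hE, Set.union_subset hZX hEX, insert (E \ Z) P, ?_, ?_, ?_⟩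
    · intro F hF
      rcases Finset.mem_insert.1 hF with rfl | hF
      · exact ⟨hdiff _ hE _ hZ, (measure_mono Set.sdiff_subset).trans hEη⟩
      · exact hP F hF
    · rw [Finset.coe_insert]
      refine hPd.insert ?_
      intro F hF _
      have hFZ : F ⊆ Z := hPu ▸ Set.subset_sUnion_of_mem hF
      exact Set.disjoint_of_subset_right hFZ Set.disjoint_sdiff_left
    · rw [Finset.coe_insert, Set.sUnion_insert, hPu, Set.sdiff_union_self, Set.union_comm]
  have Pun : ∀ Z ∈ PP, ∀ W ∈ PP, Z ∪ W ∈ PP := by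
    rintro Z hZ W ⟨hW, hWX, P, hP, -, hPu⟩
    subst hPu
    clear hW
    induction P using Finset.induction_on with
    | empty => simpa using hZ
    | insert F P hF ih =>
      rw [Finset.coe_insert, Set.sUnion_insert] at hWX ⊢
      have h1 := ih (fun E hE => hP E (Finset.mem_insert_of_mem hE))
        (Set.subset_union_right.trans hWX)
      have h2 := hP F (Finset.mem_insert_self _ _)
      have h3 := Padd _ h1 F h2.1 (Set.subset_union_left.trans hWX) h2.2
      rwa [Set.union_assoc, Set.union_comm _ F] at h3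
  obtain ⟨u, -, hu, huS⟩ := exists_seq_tendsto_sSup (S := ν '' PP) ⟨_, ∅, P0, rfl⟩
    (OrderTop.bddAbove _)
  choose W hW hWu using huS
  have hm_le : ∀ Z ∈ PP, ν Z ≤ sSup (ν '' PP) := fun Z hZ => le_sSup ⟨Z, hZ, rfl⟩
  have hm_fin : sSup (ν '' PP) ≠ ⊤ := by
    refine ne_top_of_le_ne_top (measure_ne_top ν X) (sSup_le ?_)
    rintro _ ⟨Z, hZ, rfl⟩
    exact measure_mono hZ.2.1
  have hWS : (⋃ n, W n) ∈ 𝒮 := hU W fun n => (hW n).1
  have hnull : ν (X \ ⋃ n, W n) = 0 := by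
    by_contra h0
    obtain ⟨E', hE', hsub, h1, h2⟩ := small _ (hdiff _ hX _ hWS) Set.sdiff_subset h0
    have h3 : ∀ n, u n + ν E' ≤ sSup (ν '' PP) := by
      intro n
      have h4 := hm_le _ (Padd _ (hW n) E' hE' (hsub.trans Set.sdiff_subset) h2)
      rw [measure_union _ (hm _ hE'), hWu] at h4
      · exact h4
      · exact Set.disjoint_of_subset (Set.subset_iUnion W n) hsub Set.disjoint_sdiff_right
    have h5 : sSup (ν '' PP) + ν E' ≤ sSup (ν '' PP) :=
      le_of_tendsto' (hu.add_const (ν E')) h3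
    exact absurd h5 (not_le.2 (ENNReal.lt_add_right hm_fin h1))
  have hacc : ∀ n, Set.accumulate W n ∈ PP := by
    intro n
    induction n with
    | zero => simpa using hW 0
    | succ n ih => rw [Set.accumulate_succ]; exact Pun _ ih _ (hW _)
  have hlim : Tendsto (fun n => ν (X \ Set.accumulate W n)) atTop
      (𝓝 (ν (⋂ n, X \ Set.accumulate W n))) := by
    refine tendsto_measure_iInter_atTop (s := fun n => X \ Set.accumulate W n)
      (fun n => (hm _ (hdiff _ hX _ (hacc n).1)).nullMeasurableSet) ?_ ⟨0, measure_ne_top _ _⟩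
    intro a b hab
    exact Set.sdiff_subset_sdiff_right (Set.monotone_accumulate hab)
  rw [← Set.sdiff_iUnion, Set.iUnion_accumulate, hnull] at hlim
  obtain ⟨n, hn⟩ := (hlim.eventually (ge_mem_nhds (pos_iff_ne_zero.2 hη))).exists
  have h6 := Padd _ (hacc n) _ (hdiff _ hX _ (hacc n).1) Set.sdiff_subset hn
  rw [Set.union_sdiff_cancel (hacc n).2.1] at h6
  exact h6.2.2

end Vale.Agent.P239
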