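import Vale.Agent.P239.DFun

/-! Task Visib: finite visibility and triviality of finite energy events.
`var_count`: let `u = H ψ` (values in `[0,1]`, `hat u = ψ` a.e.). `V x = H (ψ^2) x - (u x)^2` is the variance of `ψ`
under `μ x`. `u^2` is bounded with `energy (u^2) ≤ 4 energy u` (or any constant, `finEn_of_le`), and
`H (hat (u^2)) = H (ψ^2)`, so `V = -(u^2 - H (hat (u^2)))` is square summable (`sqSum_sub_H`), with
`energy V ≤ energy (u^2)` (`Cay.energy_add`) and `∑ V^2 ≤ C energy V` (`Gap`). If `ψ ≤ a` on `A`, `ψ ≥ a + δ` on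
`A'`, both of `μ x`-measure `≥ ε`, then `V x = ∫ (ψ - u x)^2 ≥ ε δ^2 / 4` (the mean `u x` is at distance
`≥ δ/2` from one of the two ranges). Conclude with `SqSum.ncard_le`. `A`, `A'` need not be measurable
(use `ε ≤ μ x A ≤ μ x {ψ ≤ a}`).
`trivial_of_isD`: `h = B.h A = H (indicator)`, `U = {x | 1/2 < h x}`. An edge of `edgeBd U` has either
`|h (x s) - h x| ≥ 1/4` (finitely many, `FinEn.finite_edges`) or an endpoint with `h ∈ [1/4,3/4]` (finitely many by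
`Sep.finite_vis` applied to `A`, `Aᶜ`). By `OneEnded`, `U` or `Uᶜ` is finite. If `U` is finite then a.e. `ξ ∉ hatSet U`
so `hat h ξ ≤ 1/2`, while `hat h = 1` a.e. on `A` (`IsD.hat_H`): `A` is null. Symmetric otherwise.
-/

noncomputable section

open Classical MeasureTheory Filter Topology Set
open scoped Pointwise

namespace Vale.Agent.P239

universe u
variable {G : Type u} [Group G] {S : Finset G} {l : ℕ}

namespace Bdry
variable {B : Bdry S}

private theorem visib_var {α : Type*} [MeasurableSpace α] (μ : Measure α) [IsProbabilityMeasure μ]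
    {ψ : α → ℝ} (h1 : Integrable ψ μ) (h2 : Integrable (fun ξ => ψ ξ ^ 2) μ) {M : Set α}
    (hM : MeasurableSet M) {k : ℝ} (hk : ∀ ξ ∈ M, k ≤ (ψ ξ - ∫ ξ, ψ ξ ∂μ) ^ 2) :
    k * μ.real M ≤ ∫ ξ, ψ ξ ^ 2 ∂μ - (∫ ξ, ψ ξ ∂μ) ^ 2 := by
  obtain ⟨m, hm⟩ : ∃ m, m = ∫ ξ, ψ ξ ∂μ := ⟨_, rfl⟩
  rw [← hm] at hk ⊢
  have e : (fun ξ => (ψ ξ - m) ^ 2) = fun ξ => ψ ξ ^ 2 - 2 * m * ψ ξ + m ^ 2 := by
    funext ξ
    ring
  have h3 : Integrable (fun ξ => ψ ξ ^ 2 - 2 * m * ψ ξ) μ := h2.sub (h1.const_mul _)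
  have h4 : Integrable (fun ξ => (ψ ξ - m) ^ 2) μ := by
    rw [e]
    exact h3.add (integrable_const _)
  have h5 : ∫ ξ, (ψ ξ - m) ^ 2 ∂μ = ∫ ξ, ψ ξ ^ 2 ∂μ - m ^ 2 := by
    rw [e, integral_add h3 (integrable_const _), integral_sub h2 (h1.const_mul _), integral_const_mul,
      integral_const, ← hm]
    simp only [probReal_univ, smul_eq_mul]
    ring
  rw [← h5]
  exact (setIntegral_ge_of_const_le_real hM (measure_ne_top _ _) hk h4.integrableOn).trans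
    (setIntegral_le_integral h4 (Eventually.of_forall fun ξ => sq_nonneg _))

theorem var_count (B : Bdry S) (hS : Cay S) (hg : Gap S) : ∃ C : ℝ, 0 ≤ C ∧
    ∀ ψ : Bd G → ℝ, B.IsD01 ψ → ∀ (A A' : Set (Bd G)) (a δ ε : ℝ), 0 < δ → 0 < ε →
      (∀ᵐ ξ ∂B.μ 1, ξ ∈ A → ψ ξ ≤ a) → (∀ᵐ ξ ∂B.μ 1, ξ ∈ A' → a + δ ≤ ψ ξ) →
      {x | ε ≤ B.h A x ∧ ε ≤ B.h A' x}.Finite ∧
        ({x | ε ≤ B.h A x ∧ ε ≤ B.h A' x}.ncard : ℝ) * (ε * δ ^ 2) ^ 2 ≤
          C * energy S (B.H ψ) := by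
  obtain ⟨C, hC0, hC⟩ := id hg
  refine ⟨64 * C, by positivity, ?_⟩
  rintro ψ ⟨hD, h01⟩ A A' a δ ε hδ hε hA hA'
  have hm : Measurable ψ := hD.1
  have hb : Bdd ψ := hD.2.1
  have hub : Bdd (B.H ψ) := B.H_bdd hb
  have huE : FinEn S (B.H ψ) := hD.finEn hS hg
  have hu01 := B.H_mem_Icc hS hm hb (Eventually.of_forall h01)
  have hsq : Continuous fun p : ℝ × ℝ => p.1 * p.2 := by fun_prop
  have hwb : Bdd fun x => B.H ψ x * B.H ψ x := hub.comp₂ hub (F := fun a b => a * b) hsq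
  obtain ⟨hwE, hwe⟩ := finEn_of_le (u := fun x => B.H ψ x * B.H ψ x) huE huE (L := 1) (M := 0)
    zero_le_one Set.finite_empty (fun e he => absurd he (Set.notMem_empty e)) (fun x s _ _ => by
      have h1 := hu01 x
      have h2 := hu01 (x * s)
      have e : B.H ψ (x * s) * B.H ψ (x * s) - B.H ψ x * B.H ψ x =
          (B.H ψ (x * s) + B.H ψ x) * (B.H ψ (x * s) - B.H ψ x) := by ring
      rw [e, abs_mul, abs_of_nonneg (by linarith [h1.1, h2.1])]
      nlinarith [abs_nonneg (B.H ψ (x * s) - B.H ψ x), h1.2, h2.2])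
  obtain ⟨hp, hhE, -, -⟩ := sqSum_sub_H (B := B) hS hg hwb hwE
  have hH : B.H (hat fun x => B.H ψ x * B.H ψ x) = B.H fun ξ => ψ ξ ^ 2 := by
    refine B.H_congr hS ?_
    filter_upwards [hD.hat_H hS hg] with ξ hξ
    rw [hat_comp₂ hub hub (F := fun a b => a * b) hsq, hξ, sq]
  have hharm := B.H_harm hS hwb.measurable_hat hwb.bdd_hat
  have hadd := hS.energy_add hhE hharm hp
  simp only [add_sub_cancel] at hadd
  have hE0 := energy_nonneg (S := S) (B.H (hat fun x => B.H ψ x * B.H ψ x))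
  have hsum := hC _ hp
  have hη : 0 < ε * δ ^ 2 / 4 := by positivity
  obtain ⟨hfin, hcard⟩ := hp.ncard_le hη
  have hm2 : Measurable fun ξ => ψ ξ ^ 2 := hm.pow_const 2
  have hb2 : Bdd fun ξ => ψ ξ ^ 2 := ⟨1, fun ξ => by
    rw [abs_of_nonneg (sq_nonneg _)]
    nlinarith [(h01 ξ).1, (h01 ξ).2]⟩
  have hsub : {x | ε ≤ B.h A x ∧ ε ≤ B.h A' x} ⊆
      {x | ε * δ ^ 2 / 4 ≤ |B.H ψ x * B.H ψ x - B.H (hat fun x => B.H ψ x * B.H ψ x) x|} := by
    rintro x ⟨hx, hx'⟩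
    rw [mem_setOf_eq, hH, abs_sub_comm]
    refine le_trans ?_ (le_abs_self _)
    have hi1 := B.integrable hm hb x
    have hi2 := B.integrable hm2 hb2 x
    have hk : 0 ≤ δ ^ 2 / 4 := by positivity
    rcases le_total (a + δ / 2) (B.H ψ x) with h | h
    · have h1 : B.h A x ≤ B.h {ξ | ψ ξ ≤ a} x := B.h_mono hS ((B.sub_iff _ _).2 hA) x
      have h2 := visib_var (B.μ x) hi1 hi2 (M := {ξ | ψ ξ ≤ a}) (measurableSet_le hm measurable_const)
        (k := δ ^ 2 / 4) (fun ξ hξ => by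
          have h3 : ψ ξ ≤ a := hξ
          have h4 : δ / 2 ≤ B.H ψ x - ψ ξ := by linarith
          change δ ^ 2 / 4 ≤ (ψ ξ - B.H ψ x) ^ 2
          nlinarith)
      have h3 := mul_le_mul_of_nonneg_left (hx.trans h1) hk
      change δ ^ 2 / 4 * B.h {ξ | ψ ξ ≤ a} x ≤ B.H (fun ξ => ψ ξ ^ 2) x - B.H ψ x ^ 2 at h2
      linarith
    · have h1 : B.h A' x ≤ B.h {ξ | a + δ ≤ ψ ξ} x := B.h_mono hS ((B.sub_iff _ _).2 hA') x
      have h2 := visib_var (B.μ x) hi1 hi2 (M := {ξ | a + δ ≤ ψ ξ})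
        (measurableSet_le measurable_const hm) (k := δ ^ 2 / 4) (fun ξ hξ => by
          have h3 : a + δ ≤ ψ ξ := hξ
          have h4 : δ / 2 ≤ ψ ξ - B.H ψ x := by linarith
          change δ ^ 2 / 4 ≤ (ψ ξ - B.H ψ x) ^ 2
          nlinarith)
      have h3 := mul_le_mul_of_nonneg_left (hx'.trans h1) hk
      change δ ^ 2 / 4 * B.h {ξ | a + δ ≤ ψ ξ} x ≤ B.H (fun ξ => ψ ξ ^ 2) x - B.H ψ x ^ 2 at h2
      linarith
  refine ⟨hfin.subset hsub, ?_⟩
  have h1 : ({x | ε ≤ B.h A x ∧ ε ≤ B.h A' x}.ncard : ℝ) ≤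
      ({x | ε * δ ^ 2 / 4 ≤
        |B.H ψ x * B.H ψ x - B.H (hat fun x => B.H ψ x * B.H ψ x) x|}.ncard : ℝ) := by
    exact_mod_cast Set.ncard_le_ncard hsub hfin
  have h2 := mul_le_mul_of_nonneg_right h1 (sq_nonneg (ε * δ ^ 2 / 4))
  have h3 : energy S (fun x => B.H ψ x * B.H ψ x - B.H (hat fun x => B.H ψ x * B.H ψ x) x) ≤
      4 * energy S (B.H ψ) := by linarith
  have h4 := mul_le_mul_of_nonneg_left h3 hC0
  linarith

theorem Sep.finite_vis (hS : Cay S) (hg : Gap S) {A A' : Set (Bd G)} (h : B.Sep A A') {ε : ℝ}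
    (hε : 0 < ε) : {x | ε ≤ B.h A x ∧ ε ≤ B.h A' x}.Finite := by
  obtain ⟨θ, hθ, h0, h1⟩ := h
  obtain ⟨C, -, hC⟩ := var_count B hS hg
  refine (hC θ hθ A A' 0 1 ε one_pos hε ?_ ?_).1
  · filter_upwards [h0] with ξ hξ hA using (hξ hA).le
  · filter_upwards [h1] with ξ hξ hA
    rw [hξ hA, zero_add]

theorem trivial_of_isD (hS : Cay S) (hg : Gap S) (h1 : OneEnded S) {A : Set (Bd G)}
    (hA : MeasurableSet A) (hD : B.IsD (A.indicator fun _ => (1 : ℝ))) :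
    B.Null A ∨ B.Null Aᶜ := by
  have hE : FinEn S (B.h A) := by
    rw [B.h_eq_H hA]
    exact hD.finEn hS hg
  have hhat : hat (B.h A) =ᵐ[B.μ 1] A.indicator fun _ => (1 : ℝ) := by
    rw [B.h_eq_H hA]
    exact hD.hat_H hS hg
  have hsep : B.Sep Aᶜ A := by
    refine ⟨A.indicator fun _ => (1 : ℝ), ⟨hD, fun ξ => ?_⟩, Eventually.of_forall fun ξ hξ => ?_,
      Eventually.of_forall fun ξ hξ => ?_⟩
    · by_cases hξ : ξ ∈ A <;> simp [hξ]
    · exact indicator_of_notMem hξ _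
    · exact indicator_of_mem hξ _
  have hq : (0 : ℝ) < 1 / 4 := by norm_num
  have hF := hsep.finite_vis hS hg hq
  have hedge : (edgeBd S {x | 1 / 2 < B.h A x}).Finite := by
    refine ((hE.finite_edges hq).union (hF.prod S.finite_toSet)).subset ?_
    rintro ⟨x, s⟩ ⟨hs, he⟩
    by_cases hx : 1 / 4 ≤ |B.h A (x * s) - B.h A x|
    · exact Or.inl ⟨hs, hx⟩
    · refine Or.inr ⟨?_, hs⟩
      rw [not_le, abs_lt] at hx
      change ¬ (1 / 2 < B.h A x ↔ 1 / 2 < B.h A (x * s)) at he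
      change 1 / 4 ≤ B.h Aᶜ x ∧ 1 / 4 ≤ B.h A x
      rw [B.h_compl hA]
      by_cases h2 : 1 / 2 < B.h A x
      · have h3 : ¬ 1 / 2 < B.h A (x * s) := fun h => he ⟨fun _ => h, fun _ => h2⟩
        constructor <;> linarith [hx.1, hx.2, not_lt.1 h3]
      · have h3 : 1 / 2 < B.h A (x * s) := by
          by_contra h
          exact he ⟨fun h' => absurd h' h2, fun h' => absurd h' h⟩
        constructor <;> linarith [hx.1, hx.2, not_lt.1 h2]
  rcases h1 _ hedge with hU | hU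
  · left
    rw [B.null_iff_ae]
    filter_upwards [hhat, (B.null_iff_ae _).1 (B.null_hatSet_of_finite hS hU)] with ξ h2 h3 h4
    refine h3 (mem_hatSet_of_lt (B.h_bdd A) ?_)
    rw [h2, indicator_of_mem h4]
    norm_num
  · right
    rw [B.null_iff_ae]
    filter_upwards [hhat, (B.null_iff_ae _).1 (B.null_hatSet_of_finite hS hU)] with ξ h2 h3 h4
    rw [hatSet_compl] at h3
    refine h3 (not_mem_hatSet_of_lt (B.h_bdd A) ?_)
    rw [h2, indicator_of_notMem h4]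
    norm_num

end Bdry

end Vale.Agent.P239
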