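import Vale.Agent.P239.Atom
import Vale.Agent.P239.Visib
import Vale.Agent.P239.FinePart

/-! Task Atom2: existence of a nonnull irreducible splitting.
Suppose not. By `irr_of_atom`, `hna` of `exists_fine_partition` holds for `𝒮 = {E | Split f E}`, `X = {0 < f}`, `ν = μ 1`.
Pick `δ > 0` with `Xδ = {2δ < f}` nonnull; it is `Good` (`good_gt`). Let `K` be the bound of `split_bound` at level `δ`, `C` from `var_count`,
and `m : ℕ` with `m * (δ^2/8)^2 > C * K`. By `Good.infinite_deep` choose a finset `T` of `m` points with `1/2 < h Xδ x`, inside some ball of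
radius `r`. Take a partition `P` with `η` so small that `h E x ≤ η' := 1 / (16 m)` for `E ∈ P`, `x ∈ T` (`harnack`). With
`v E x = h (E ∩ Xδ) x`: `∑_E v E x = h Xδ x ∈ (1/2, 1]`, `∑_E ∑_x (v E x)^2 ≤ m η' = 1/16`. `exists_signs` gives `t ⊆ P`; `E0 = ⋃₀ t` is a splitting (finite union),
and for every `x ∈ T`, `h (E0 ∩ Xδ) x ≥ 1/8` and `h E0ᶜ x ≥ 1/8`. Apply `var_count` to `ψ = indicator E0 (f - δ)^+` (`IsD01`), `A = E0ᶜ`, `a = 0`,
`A' = E0 ∩ Xδ`: `m * (δ^2/8)^2 ≤ C * K`, contradiction.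
-/

noncomputable section

open Classical MeasureTheory Filter Topology Set
open scoped Pointwise

namespace Vale.Agent.P239

universe u
variable {G : Type u} [Group G] {S : Finset G} {l : ℕ}

namespace Bdry
variable {B : Bdry S}

private theorem atom2_split_fin (hH : Hyp S l) {f : Bd G → ℝ} (hf : B.IsD01 f)
    (t : Finset (Set (Bd G))) (ht : ∀ E ∈ t, B.Split f E) : B.Split f (⋃ E ∈ t, E) := by
  induction t using Finset.induction_on with
  | empty =>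
    have h := (split_univ hH hf).compl hH hf
    simpa using h
  | insert a t _ ih =>
    rw [Finset.set_biUnion_insert]
    exact (ht a (Finset.mem_insert_self _ _)).union
      (ih fun E hE => ht E (Finset.mem_insert_of_mem hE))

private theorem atom2_sum {P t : Finset (Set (Bd G))} (htP : t ⊆ P)
    (hm : ∀ E ∈ P, MeasurableSet E) (hd : (P : Set (Set (Bd G))).PairwiseDisjoint id)
    {Y : Set (Bd G)} (hY : MeasurableSet Y) (x : G) :
    ∑ E ∈ t, B.h (E ∩ Y) x = B.h ((⋃ E ∈ t, E) ∩ Y) x := by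
  rw [iUnion₂_inter]
  refine (measureReal_biUnion_finset (μ := B.μ x) (f := fun E => E ∩ Y) ?_
    (fun E hE => (hm E (htP hE)).inter hY) (fun E _ => measure_ne_top _ _)).symm
  intro E hE E' hE' hne
  exact (hd (htP hE) (htP hE') hne).mono inter_subset_left inter_subset_left

theorem exists_atom (hH : Hyp S l) {f : Bd G → ℝ} (hf : B.IsD01 f)
    (hpos : ¬ B.Null {ξ | 0 < f ξ}) :
    ∃ M, B.Split f M ∧ ¬ B.Null M ∧ (∀ ξ ∈ M, 0 < f ξ) ∧ B.Irr M := by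
  have hS := hH.cay
  have hg := hH.gap
  by_contra hno
  have hna : ∀ E ∈ {E | B.Split f E}, E ⊆ {ξ | 0 < f ξ} → B.μ 1 E ≠ 0 →
      ∃ E' ∈ {E | B.Split f E}, E' ⊆ E ∧ B.μ 1 E' ≠ 0 ∧ B.μ 1 (E \ E') ≠ 0 := by
    intro E hE hEX hE0
    by_contra h
    refine hno ⟨E, hE, hE0, hEX, irr_of_atom hE fun E' hE' hsub => ?_⟩
    by_contra h'
    rw [not_or] at h'
    exact h ⟨E', hE', hsub, h'.1, h'.2⟩
  obtain ⟨δ, hδ, hY0⟩ : ∃ δ : ℝ, 0 < δ ∧ ¬ B.Null {ξ | 2 * δ < f ξ} := by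
    by_contra h
    apply hpos
    have h1 : ∀ n : ℕ, B.μ 1 {ξ | 2 * (1 / ((n : ℝ) + 1)) < f ξ} = 0 := fun n => by
      by_contra h2
      exact h ⟨1 / ((n : ℝ) + 1), by positivity, h2⟩
    refine measure_mono_null (fun ξ hξ => ?_) (measure_iUnion_null h1)
    have h2 : 0 < f ξ / 2 := half_pos hξ
    obtain ⟨n, hn⟩ := exists_nat_one_div_lt h2
    exact mem_iUnion.2 ⟨n, show 2 * (1 / ((n : ℝ) + 1)) < f ξ by linarith⟩
  obtain ⟨Y, hY⟩ : ∃ Y : Set (Bd G), Y = {ξ | 2 * δ < f ξ} := ⟨_, rfl⟩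
  have hYg : B.Good Y := by
    rw [hY]
    exact good_gt hS hg hf.1 _
  rw [← hY] at hY0
  have hYX : Y ⊆ {ξ | 0 < f ξ} := by
    intro ξ hξ
    rw [hY] at hξ
    have h1 : 2 * δ < f ξ := hξ
    change 0 < f ξ
    linarith
  obtain ⟨K, hK⟩ := B.split_bound hH hf hδ
  obtain ⟨C, hC0, hC⟩ := B.var_count hS hg
  have hq : 0 < (1 / 8 * δ ^ 2) ^ 2 := by positivity
  obtain ⟨m, hm⟩ := exists_nat_gt (max (C * K / (1 / 8 * δ ^ 2) ^ 2) 0)
  have hm0 : (0 : ℝ) < m := (le_max_right _ _).trans_lt hm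
  have hm1 : C * K < m * (1 / 8 * δ ^ 2) ^ 2 := (div_lt_iff₀ hq).1 ((le_max_left _ _).trans_lt hm)
  obtain ⟨T, hT, hTm⟩ :=
    (hYg.infinite_deep hS hY0 (θ := 1 / 2) (by norm_num)).exists_subset_card_eq m
  obtain ⟨r, hr⟩ := hS.finite_subset_ball T.finite_toSet
  have hc : (0 : ℝ) < (S.card : ℝ) ^ r := pow_pos (by exact_mod_cast hS.card_pos) r
  have hη : 0 < 1 / (16 * (m : ℝ)) / (S.card : ℝ) ^ r := by positivity
  obtain ⟨P, hP, hPd, hPX⟩ := exists_fine_partition (B.μ 1) {E | B.Split f E} (fun E hE => hE.1)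
    (fun E hE => Split.compl hH hf hE) (fun E hE E' hE' => Split.inter hE hE')
    (fun E hE => split_iUnion hH hf hE) (split_pos hH hf) hna
    (η := ENNReal.ofReal (1 / (16 * (m : ℝ)) / (S.card : ℝ) ^ r))
    (ENNReal.ofReal_pos.2 hη).ne'
  have hPm : ∀ E ∈ P, MeasurableSet E := fun E hE => (hP E hE).1.1
  have hsmall : ∀ E ∈ P, ∀ x ∈ T, B.h (E ∩ Y) x ≤ 1 / (16 * (m : ℝ)) := by
    intro E hE x hx
    have h1 := B.h_harnack hS 1 (hr x hx) (E ∩ Y)
    rw [one_mul] at h1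
    have h2 : B.h (E ∩ Y) 1 ≤ 1 / (16 * (m : ℝ)) / (S.card : ℝ) ^ r :=
      ENNReal.toReal_le_of_le_ofReal hη.le ((measure_mono inter_subset_left).trans (hP E hE).2)
    have h3 := h1.trans (mul_le_mul_of_nonneg_left h2 hc.le)
    rwa [mul_div_cancel₀ _ hc.ne'] at h3
  have htot : ∀ x, ∑ E ∈ P, B.h (E ∩ Y) x = B.h Y x := by
    intro x
    rw [atom2_sum Finset.Subset.rfl hPm hPd hYg.1 x]
    have h1 : (⋃ E ∈ P, E) = {ξ | 0 < f ξ} := by
      rw [← hPX, sUnion_eq_biUnion]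
      rfl
    rw [h1, inter_eq_right.2 hYX]
  obtain ⟨t, htP, ht⟩ := exists_signs (κ := T) P fun E x => B.h (E ∩ Y) x
  have hbound : ∑ E ∈ P, ∑ x : T, B.h (E ∩ Y) x ^ 2 ≤ 1 / 16 := by
    rw [Finset.sum_comm]
    have h1 : ∀ x : T, ∑ E ∈ P, B.h (E ∩ Y) x ^ 2 ≤ 1 / (16 * (m : ℝ)) := by
      intro x
      calc ∑ E ∈ P, B.h (E ∩ Y) x ^ 2 ≤ ∑ E ∈ P, 1 / (16 * (m : ℝ)) * B.h (E ∩ Y) x := by
            refine Finset.sum_le_sum fun E hE => ?_
            rw [sq]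
            exact mul_le_mul_of_nonneg_right (hsmall E hE x x.2) (B.h_nonneg _ _)
        _ = 1 / (16 * (m : ℝ)) * B.h Y x := by rw [← Finset.mul_sum, htot]
        _ ≤ 1 / (16 * (m : ℝ)) * 1 := mul_le_mul_of_nonneg_left (B.h_le_one _ _) (by positivity)
        _ = _ := mul_one _
    calc ∑ x : T, ∑ E ∈ P, B.h (E ∩ Y) x ^ 2 ≤ ∑ _x : T, 1 / (16 * (m : ℝ)) :=
          Finset.sum_le_sum fun x _ => h1 x
      _ = 1 / 16 := by
          rw [Finset.sum_const, Finset.card_univ, Fintype.card_coe, hTm, nsmul_eq_mul]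
          field_simp
  have hE0 : B.Split f (⋃ E ∈ t, E) := atom2_split_fin hH hf t fun E hE => (hP E (htP hE)).1
  obtain ⟨E0, hE0def⟩ : ∃ E0 : Set (Bd G), E0 = ⋃ E ∈ t, E := ⟨_, rfl⟩
  have hpt : ∀ x ∈ T, 1 / 8 ≤ B.h E0ᶜ x ∧ 1 / 8 ≤ B.h (E0 ∩ Y) x := by
    intro x hx
    have h1 := (Finset.single_le_sum (f := fun j : T =>
      (∑ E ∈ t, B.h (E ∩ Y) j - ∑ E ∈ P \ t, B.h (E ∩ Y) j) ^ 2) (fun _ _ => sq_nonneg _)
      (Finset.mem_univ ⟨x, hx⟩)).trans (ht.trans hbound)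
    have h2 := Finset.sum_sdiff (f := fun E => B.h (E ∩ Y) x) htP
    have h3 := atom2_sum (B := B) htP hPm hPd hYg.1 x
    rw [← hE0def] at h3
    rw [htot, h3] at h2
    simp only [h3] at h1
    have h4 : 1 / 2 < B.h Y x := hT hx
    have h5 : B.h (Y ∩ E0) x + B.h (Y \ E0) x = B.h Y x :=
      measureReal_inter_add_diff (by rw [hE0def]; exact hE0.1) (measure_ne_top _ _)
    have h6 : B.h (Y \ E0) x ≤ B.h E0ᶜ x :=
      measureReal_mono (fun ξ hξ => hξ.2) (measure_ne_top _ _)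
    rw [inter_comm] at h5
    have h7 := abs_le.1 (abs_le_of_sq_le_sq (b := 1 / 4) (h1.trans (by norm_num)) (by norm_num))
    constructor <;> linarith [h7.1, h7.2]
  rw [← hE0def] at hE0
  have hψ : B.IsD01 (E0.indicator fun ξ => max (f ξ - δ) 0) := by
    refine ⟨hE0.2 δ hδ, fun ξ => ?_⟩
    by_cases hξ : ξ ∈ E0
    · rw [indicator_of_mem hξ]
      exact ⟨le_max_right _ _, max_le (by linarith [(hf.2 ξ).2]) zero_le_one⟩
    · rw [indicator_of_notMem hξ]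
      exact ⟨le_rfl, zero_le_one⟩
  obtain ⟨hfin, hcard⟩ := hC _ hψ E0ᶜ (E0 ∩ Y) 0 δ (1 / 8) hδ (by norm_num)
    (Eventually.of_forall fun ξ hξ => (indicator_of_notMem hξ _).le)
    (Eventually.of_forall fun ξ hξ => by
      rw [indicator_of_mem hξ.1, zero_add]
      have h1 := hξ.2
      rw [hY] at h1
      have h2 : 2 * δ < f ξ := h1
      exact le_max_of_le_left (by linarith))
  have h1 : (m : ℝ) ≤ ({x | 1 / 8 ≤ B.h E0ᶜ x ∧ 1 / 8 ≤ B.h (E0 ∩ Y) x}.ncard : ℝ) := by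
    have h2 := Set.ncard_le_ncard (s := (T : Set G)) (fun x hx => hpt x hx) hfin
    rw [Set.ncard_coe_finset, hTm] at h2
    exact_mod_cast h2
  have h2 := mul_le_mul_of_nonneg_right h1 hq.le
  have h3 := mul_le_mul_of_nonneg_left (hK E0 hE0) hC0
  linarith

end Bdry

end Vale.Agent.P239
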