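import Vale.Agent.P239.Core

/-! Task Ball: elementary facts on word balls and energy. All proofs are routine.
`ball S r = (insert 1 S)^r` (pointwise power of finsets). Add any auxiliary lemma you like, keep the
statements below unchanged.
Hints: `osc_sq`: by induction on `r`, for `b ∈ ball S r` the function `y ↦ (F (y*b) - F y)^2` is
summable with sum `≤ r^2 * energy` or any constant (telescoping, `Equiv.mulRight` reindexing), then
Cauchy-Schwarz over the finite ball. `finEn_of_le`: split each `grad2` term into the edges in the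
finite set (finitely supported in `x`) and the rest.
-/

noncomputable section

open Classical MeasureTheory Filter Topology Set
open scoped Pointwise

namespace Vale.Agent.P239

universe u
variable {G : Type u} [Group G] {S : Finset G}

theorem mem_ball_zero {a : G} : a ∈ ball S 0 ↔ a = 1 := by
  simp [ball, Finset.mem_one]

theorem mem_ball_succ {r : ℕ} {a : G} :
    a ∈ ball S (r + 1) ↔ a ∈ ball S r ∨ ∃ b ∈ ball S r, ∃ s ∈ S, a = b * s := by
  unfold ball
  rw [pow_succ, Finset.mem_mul]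
  constructor
  · rintro ⟨b, hb, s, hs, rfl⟩
    rcases Finset.mem_insert.1 hs with rfl | hs
    · left; simpa using hb
    · exact Or.inr ⟨b, hb, s, hs, rfl⟩
  · rintro (h | ⟨b, hb, s, hs, rfl⟩)
    · exact ⟨a, h, 1, Finset.mem_insert_self _ _, mul_one a⟩
    · exact ⟨b, hb, s, Finset.mem_insert_of_mem hs, rfl⟩

theorem one_mem_ball (r : ℕ) : (1 : G) ∈ ball S r := by
  induction r with
  | zero => exact mem_ball_zero.2 rfl
  | succ r ih => exact mem_ball_succ.2 (Or.inl ih)

theorem ball_mono {r r' : ℕ} (h : r ≤ r') : ball S r ⊆ ball S r' := by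
  induction h with
  | refl => exact Finset.Subset.refl _
  | step _ ih => exact fun a ha => mem_ball_succ.2 (Or.inl (ih ha))

theorem mul_mem_ball {r r' : ℕ} {a b : G} (ha : a ∈ ball S r) (hb : b ∈ ball S r') :
    a * b ∈ ball S (r + r') := by
  unfold ball at *
  rw [pow_add]
  exact Finset.mul_mem_mul ha hb

theorem mem_ball_one {s : G} (hs : s ∈ S) : s ∈ ball S 1 :=
  mem_ball_succ.2 (Or.inr ⟨1, one_mem_ball 0, s, hs, (one_mul s).symm⟩)

theorem Cay.inv_mem_ball (hS : Cay S) {r : ℕ} {a : G} (ha : a ∈ ball S r) : a⁻¹ ∈ ball S r := by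
  induction r generalizing a with
  | zero => rw [mem_ball_zero.1 ha, inv_one]; exact one_mem_ball 0
  | succ r ih =>
    rcases mem_ball_succ.1 ha with h | ⟨b, hb, s, hs, rfl⟩
    · exact mem_ball_succ.2 (Or.inl (ih h))
    · rw [mul_inv_rev, add_comm]
      exact mul_mem_ball (mem_ball_one (hS.symm s hs)) (ih hb)

theorem Cay.exists_ball (hS : Cay S) (g : G) : ∃ r, g ∈ ball S r := by
  have hg : g ∈ Subgroup.closure (S : Set G) := by rw [hS.gen]; trivial
  induction hg using Subgroup.closure_induction with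
  | mem x hx => exact ⟨1, mem_ball_one hx⟩
  | one => exact ⟨0, one_mem_ball 0⟩
  | mul x y _ _ hx hy =>
    obtain ⟨r, hr⟩ := hx
    obtain ⟨r', hr'⟩ := hy
    exact ⟨r + r', mul_mem_ball hr hr'⟩
  | inv x _ hx =>
    obtain ⟨r, hr⟩ := hx
    exact ⟨r, hS.inv_mem_ball hr⟩

theorem Cay.countable (hS : Cay S) : Countable G := by
  refine Set.countable_univ_iff.1 (Set.Countable.mono ?_
    (Set.countable_iUnion fun r : ℕ => (ball S r).countable_toSet))
  intro g _
  obtain ⟨r, hr⟩ := hS.exists_ball g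
  exact Set.mem_iUnion.2 ⟨r, hr⟩

theorem Cay.card_pos (hS : Cay S) : 0 < S.card := by
  rw [Finset.card_pos]
  by_contra h
  rw [Finset.not_nonempty_iff_eq_empty] at h
  have h1 := hS.gen
  have := hS.inf
  obtain ⟨g, hg⟩ := exists_ne (1 : G)
  rw [h, Finset.coe_empty, Subgroup.closure_empty] at h1
  have h2 : g ∈ (⊥ : Subgroup G) := by rw [h1]; trivial
  exact hg (Subgroup.mem_bot.1 h2)

theorem Cay.finite_subset_ball (hS : Cay S) {K : Set G} (hK : K.Finite) :
    ∃ r, ∀ g ∈ K, g ∈ ball S r := by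
  choose ρ hρ using hS.exists_ball
  exact ⟨hK.toFinset.sup ρ, fun g hg =>
    ball_mono (Finset.le_sup (f := ρ) (hK.mem_toFinset.2 hg)) (hρ g)⟩

theorem const_on_ball {α : Type*} (φ : G → α) (y : G) (r : ℕ)
    (h : ∀ b ∈ ball S r, ∀ s ∈ S, φ (y * b * s) = φ (y * b)) :
    ∀ b ∈ ball S (r + 1), φ (y * b) = φ y := by
  have key : ∀ k, k ≤ r + 1 → ∀ b ∈ ball S k, φ (y * b) = φ y := by
    intro k
    induction k with
    | zero => intro _ b hb; rw [mem_ball_zero.1 hb, mul_one]
    | succ k ih =>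
      intro hk b hb
      rcases mem_ball_succ.1 hb with h1 | ⟨b', hb', s, hs, rfl⟩
      · exact ih (by omega) b h1
      · rw [← mul_assoc, h b' (ball_mono (by omega) hb') s hs]
        exact ih (by omega) b' hb'
  exact key _ le_rfl

theorem Cay.const_of_edges (hS : Cay S) {α : Type*} (φ : G → α)
    (h : ∀ x, ∀ s ∈ S, φ (x * s) = φ x) (x y : G) : φ x = φ y := by
  obtain ⟨r, hr⟩ := hS.exists_ball (y⁻¹ * x)
  have := const_on_ball φ y r (fun b _ s hs => h _ s hs) _ (ball_mono (Nat.le_succ r) hr)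
  simpa using this

theorem edgeBd_finite_of_finite {U : Set G} (hU : U.Finite) : (edgeBd S U).Finite := by
  have h1 : (U ×ˢ (S : Set G)).Finite := hU.prod S.finite_toSet
  refine (h1.union (h1.image fun e : G × G => (e.1 * e.2⁻¹, e.2))).subset ?_
  rintro ⟨x, s⟩ ⟨hs, he⟩
  by_cases hx : x ∈ U
  · exact Or.inl ⟨hx, hs⟩
  · refine Or.inr ⟨(x * s, s), ⟨?_, hs⟩, by simp⟩
    by_contra h
    exact he ⟨fun h' => absurd h' hx, fun h' => absurd h' h⟩

theorem grad2_nonneg (u : G → ℝ) (x : G) : 0 ≤ grad2 S u x :=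
  Finset.sum_nonneg fun _ _ => sq_nonneg _

theorem energy_nonneg (u : G → ℝ) : 0 ≤ energy S u := tsum_nonneg fun x => grad2_nonneg u x

theorem finEn_const (c : ℝ) : FinEn S (fun _ : G => c) := by
  have : grad2 S (fun _ : G => c) = fun _ => 0 := by
    funext x; simp [grad2]
  unfold FinEn
  rw [this]
  exact summable_zero

theorem ball_finEn_of_sum_le {u : G → ℝ} {K : ℝ} (h : ∀ W : Finset G, ∑ x ∈ W, grad2 S u x ≤ K) :
    FinEn S u ∧ energy S u ≤ K :=
  have h1 : FinEn S u := summable_of_sum_le (fun x => grad2_nonneg u x) h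
  ⟨h1, Summable.tsum_le_of_sum_le h1 h⟩

theorem ball_sum_le_energy {u : G → ℝ} (hu : FinEn S u) (W : Finset G) :
    ∑ x ∈ W, grad2 S u x ≤ energy S u :=
  Summable.sum_le_tsum W (fun x _ => grad2_nonneg u x) hu

/-- Domination by two finite energy functions outside a finite set `T` of edges on which the
increments are at most `M`. -/
theorem finEn_of_le {u v w : G → ℝ} (hv : FinEn S v) (hw : FinEn S w) {L M : ℝ} (hL : 0 ≤ L)
    {T : Set (G × G)} (hT : T.Finite)
    (hM : ∀ e ∈ T, |u (e.1 * e.2) - u e.1| ≤ M)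
    (h : ∀ x, ∀ s ∈ S, (x, s) ∉ T →
      |u (x * s) - u x| ≤ L * (|v (x * s) - v x| + |w (x * s) - w x|)) :
    FinEn S u ∧ energy S u ≤ 2 * L ^ 2 * (energy S v + energy S w) + M ^ 2 * T.ncard := by
  refine ball_finEn_of_sum_le fun W => ?_
  have h1 : ∀ x, grad2 S u x ≤ 2 * L ^ 2 * (grad2 S v x + grad2 S w x) +
      M ^ 2 * ∑ s ∈ S, if (x, s) ∈ T then (1 : ℝ) else 0 := by
    intro x
    unfold grad2
    rw [← Finset.sum_add_distrib, Finset.mul_sum, Finset.mul_sum, ← Finset.sum_add_distrib]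
    refine Finset.sum_le_sum fun s hs => ?_
    have h2 : 0 ≤ 2 * L ^ 2 * ((v (x * s) - v x) ^ 2 + (w (x * s) - w x) ^ 2) := by positivity
    by_cases hx : (x, s) ∈ T
    · have h3 := pow_le_pow_left₀ (abs_nonneg _) (hM _ hx) 2
      rw [sq_abs] at h3
      rw [if_pos hx]
      simp only at h3
      linarith
    · have h3 := pow_le_pow_left₀ (abs_nonneg _) (h x s hs hx) 2
      rw [sq_abs, mul_pow] at h3
      rw [if_neg hx, mul_zero, add_zero, ← sq_abs (v (x * s) - v x), ← sq_abs (w (x * s) - w x)]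
      nlinarith [mul_nonneg (sq_nonneg L) (sq_nonneg (|v (x * s) - v x| - |w (x * s) - w x|))]
  have h2 : ∑ x ∈ W, ∑ s ∈ S, (if (x, s) ∈ T then (1 : ℝ) else 0) ≤ T.ncard := by
    rw [← Finset.sum_product' (f := fun x s => if (x, s) ∈ T then (1 : ℝ) else 0),
      Finset.sum_boole, ← Set.ncard_coe_finset]
    exact_mod_cast Set.ncard_le_ncard (fun e he => (Finset.mem_filter.1 he).2) hT
  refine (Finset.sum_le_sum fun x _ => h1 x).trans ?_
  rw [Finset.sum_add_distrib, ← Finset.mul_sum, ← Finset.mul_sum, Finset.sum_add_distrib]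
  exact add_le_add (mul_le_mul_of_nonneg_left
    (add_le_add (ball_sum_le_energy hv W) (ball_sum_le_energy hw W)) (by positivity))
    (mul_le_mul_of_nonneg_left h2 (sq_nonneg M))

theorem FinEn.add {u v : G → ℝ} (hu : FinEn S u) (hv : FinEn S v) :
    FinEn S (fun x => u x + v x) := by
  refine (finEn_of_le hu hv (L := 1) (M := 0) zero_le_one Set.finite_empty
    (fun e he => absurd he (Set.notMem_empty e)) fun x s _ _ => ?_).1
  rw [one_mul, show u (x * s) + v (x * s) - (u x + v x) = (u (x * s) - u x) + (v (x * s) - v x) by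
    ring]
  exact abs_add_le _ _

theorem FinEn.sub {u v : G → ℝ} (hu : FinEn S u) (hv : FinEn S v) :
    FinEn S (fun x => u x - v x) := by
  refine (finEn_of_le hu hv (L := 1) (M := 0) zero_le_one Set.finite_empty
    (fun e he => absurd he (Set.notMem_empty e)) fun x s _ _ => ?_).1
  rw [one_mul, show u (x * s) - v (x * s) - (u x - v x) = (u (x * s) - u x) - (v (x * s) - v x) by
    ring]
  exact abs_sub _ _

theorem FinEn.translate {u : G → ℝ} (hu : FinEn S u) (g : G) :
    FinEn S (fun x => u (g * x)) ∧ energy S (fun x => u (g * x)) = energy S u := by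
  have h1 : grad2 S (fun x => u (g * x)) = fun x => grad2 S u (Equiv.mulLeft g x) := by
    funext x; simp [grad2, mul_assoc]
  unfold FinEn energy
  rw [h1]
  exact ⟨((Equiv.mulLeft g).summable_iff (f := grad2 S u)).2 hu,
    (Equiv.mulLeft g).tsum_eq (grad2 S u)⟩

theorem SqSum.finEn {p : G → ℝ} (hp : SqSum p) : FinEn S p := by
  unfold FinEn grad2
  refine summable_sum fun s _ => ?_
  have h1 : Summable fun x => p (x * s) ^ 2 := 
    ((Equiv.mulRight s).summable_iff (f := fun x => p x ^ 2)).2 hp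
  refine Summable.of_nonneg_of_le (fun x => sq_nonneg _) (fun x => ?_)
    ((h1.mul_left 2).add (Summable.mul_left 2 hp))
  nlinarith [sq_nonneg (p (x * s) + p x)]

theorem SqSum.tendsto {p : G → ℝ} (hp : SqSum p) : Tendsto p cofinite (𝓝 0) := by
  have h1 := (Real.continuous_sqrt.tendsto 0).comp (Summable.tendsto_cofinite_zero hp)
  rw [Real.sqrt_zero] at h1
  refine (tendsto_zero_iff_abs_tendsto_zero p).2 (h1.congr fun x => ?_)
  exact Real.sqrt_sq_eq_abs _

theorem SqSum.bdd {p : G → ℝ} (hp : SqSum p) : Bdd p :=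
  ⟨Real.sqrt (∑' x, p x ^ 2), fun x =>
    Real.abs_le_sqrt (Summable.le_tsum hp x fun _ _ => sq_nonneg _)⟩

theorem SqSum.ncard_le {p : G → ℝ} (hp : SqSum p) {η : ℝ} (hη : 0 < η) :
    {x | η ≤ |p x|}.Finite ∧ ({x | η ≤ |p x|}.ncard : ℝ) * η ^ 2 ≤ ∑' x, p x ^ 2 := by
  have h1 : {x | η ≤ |p x|}.Finite := by
    have h2 := ((tendsto_zero_iff_abs_tendsto_zero p).1 hp.tendsto).eventually (gt_mem_nhds hη)
    rw [Filter.eventually_cofinite] at h2
    exact h2.subset fun x hx => not_lt.2 hx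
  refine ⟨h1, le_trans ?_ (Summable.sum_le_tsum h1.toFinset (fun x _ => sq_nonneg _) hp)⟩
  rw [Set.ncard_eq_toFinset_card _ h1, ← nsmul_eq_mul, ← Finset.sum_const]
  refine Finset.sum_le_sum fun x hx => ?_
  have h2 := pow_le_pow_left₀ hη.le (h1.mem_toFinset.1 hx) 2
  rwa [sq_abs] at h2

theorem FinEn.finite_edges {u : G → ℝ} (hu : FinEn S u) {η : ℝ} (hη : 0 < η) :
    {e : G × G | e.2 ∈ S ∧ η ≤ |u (e.1 * e.2) - u e.1|}.Finite := by
  have h1 := (Summable.tendsto_cofinite_zero hu).eventually (gt_mem_nhds (pow_pos hη 2))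
  rw [Filter.eventually_cofinite] at h1
  refine (h1.prod S.finite_toSet).subset ?_
  rintro ⟨x, s⟩ ⟨hs, he⟩
  refine ⟨not_lt.2 ?_, hs⟩
  have h2 := pow_le_pow_left₀ hη.le he 2
  rw [sq_abs] at h2
  exact h2.trans (Finset.single_le_sum (f := fun s => (u (x * s) - u x) ^ 2)
    (fun _ _ => sq_nonneg _) hs)

/-- Fatou lemma for the energy. -/
theorem finEn_of_tendsto {u : ℕ → G → ℝ} {v : G → ℝ} {K : ℝ} (hu : ∀ n, FinEn S (u n))
    (hK : ∀ n, energy S (u n) ≤ K) (hl : ∀ x, Tendsto (fun n => u n x) atTop (𝓝 (v x))) :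
    FinEn S v ∧ energy S v ≤ K := by
  refine ball_finEn_of_sum_le fun W => ?_
  have h1 : Tendsto (fun n => ∑ x ∈ W, grad2 S (u n) x) atTop (𝓝 (∑ x ∈ W, grad2 S v x)) :=
    tendsto_finsetSum _ fun x _ => tendsto_finsetSum _ fun s _ => ((hl _).sub (hl _)).pow 2
  exact le_of_tendsto' h1 fun n => (ball_sum_le_energy (hu n) W).trans (hK n)

/-- A bound for the oscillation of `F` on `y * ball S r`. -/
def osc (S : Finset G) (r : ℕ) (F : G → ℝ) (y : G) : ℝ :=
  2 * ∑ b ∈ ball S r, |F (y * b) - F y|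

theorem osc_nonneg (r : ℕ) (F : G → ℝ) (y : G) : 0 ≤ osc S r F y :=
  mul_nonneg zero_le_two (Finset.sum_nonneg fun _ _ => abs_nonneg _)

theorem abs_sub_le_osc {r : ℕ} (F : G → ℝ) (y : G) {b b' : G} (hb : b ∈ ball S r)
    (hb' : b' ∈ ball S r) : |F (y * b) - F (y * b')| ≤ osc S r F y := by
  have h1 := Finset.single_le_sum (f := fun b => |F (y * b) - F y|) (fun _ _ => abs_nonneg _) hb
  have h2 := Finset.single_le_sum (f := fun b => |F (y * b) - F y|) (fun _ _ => abs_nonneg _) hb'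
  have h3 := abs_sub (F (y * b) - F y) (F (y * b') - F y)
  rw [sub_sub_sub_cancel_right] at h3
  unfold osc
  linarith

theorem ball_shift (S : Finset G) (r : ℕ) : ∃ C : ℝ, 0 ≤ C ∧ ∀ F : G → ℝ, FinEn S F →
    ∀ b ∈ ball S r, ∀ W : Finset G, ∑ y ∈ W, (F (y * b) - F y) ^ 2 ≤ C * energy S F := by
  induction r with
  | zero =>
    refine ⟨0, le_rfl, fun F _ b hb W => ?_⟩
    simp [mem_ball_zero.1 hb]
  | succ r ih =>
    obtain ⟨C, hC, h⟩ := ih
    refine ⟨2 + 2 * C, by linarith, fun F hF b hb W => ?_⟩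
    have hE := energy_nonneg (S := S) F
    rcases mem_ball_succ.1 hb with h1 | ⟨b', hb', s, hs, rfl⟩
    · have := h F hF b h1 W
      nlinarith [mul_nonneg hC hE]
    · have h1 := h F hF b' hb' W
      have h2 := ball_sum_le_energy hF (W.image fun y => y * b')
      rw [Finset.sum_image fun x _ y _ h => mul_right_cancel h] at h2
      have h3 : ∑ y ∈ W, (F (y * (b' * s)) - F y) ^ 2 ≤
          ∑ y ∈ W, (2 * grad2 S F (y * b') + 2 * (F (y * b') - F y) ^ 2) := by
        refine Finset.sum_le_sum fun y _ => ?_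
        have h4 : (F (y * b' * s) - F (y * b')) ^ 2 ≤ grad2 S F (y * b') :=
          Finset.single_le_sum (f := fun s => (F (y * b' * s) - F (y * b')) ^ 2)
            (fun _ _ => sq_nonneg _) hs
        rw [← mul_assoc]
        nlinarith [sq_nonneg (F (y * b' * s) - 2 * F (y * b') + F y)]
      rw [Finset.sum_add_distrib, ← Finset.mul_sum, ← Finset.mul_sum] at h3
      linarith

theorem osc_sq (S : Finset G) (r : ℕ) : ∃ C : ℝ, 0 ≤ C ∧ ∀ F : G → ℝ, FinEn S F →
    SqSum (osc S r F) ∧ ∑' y, osc S r F y ^ 2 ≤ C * energy S F := by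
  obtain ⟨C, hC, h⟩ := ball_shift S r
  refine ⟨4 * (ball S r).card * ((ball S r).card * C), by positivity, fun F hF => ?_⟩
  have h1 : ∀ W : Finset G, ∑ y ∈ W, osc S r F y ^ 2 ≤
      4 * (ball S r).card * ((ball S r).card * C) * energy S F := by
    intro W
    have h2 : ∀ y, osc S r F y ^ 2 ≤
        4 * (ball S r).card * ∑ b ∈ ball S r, (F (y * b) - F y) ^ 2 := by
      intro y
      have h3 := sq_sum_le_card_mul_sum_sq (s := ball S r) (f := fun b => |F (y * b) - F y|)
      simp only [sq_abs] at h3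
      unfold osc
      rw [mul_pow]
      linarith
    refine (Finset.sum_le_sum fun y _ => h2 y).trans ?_
    rw [← Finset.mul_sum, Finset.sum_comm, mul_assoc (4 * ((ball S r).card : ℝ))]
    refine mul_le_mul_of_nonneg_left ?_ (by positivity)
    rw [mul_assoc, ← nsmul_eq_mul, ← Finset.sum_const]
    exact Finset.sum_le_sum fun b hb => h F hF b hb W
  have h2 : SqSum (osc S r F) := summable_of_sum_le (fun _ => sq_nonneg _) h1
  exact ⟨h2, Summable.tsum_le_of_sum_le h2 h1⟩

end Vale.Agent.P239
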