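import Vale.Agent.P239.Core

/-! Task Hat: boundary values along ultrafilters (no measure theory).
`hat u ξ = limUnder ξ u`; for bounded `u` the ultrafilter `map u ξ` converges in a compact interval
(`IsCompact.ultrafilter_le_nhds`), limits are unique. Continuity of `hat u`: preimages of open sets:
if `hat u ξ ∈ (a,b)` pick `a < a' < hat u ξ < b' < b`; the basic open set of ultrafilters containing
`{x | a' < u x < b'}` is mapped into `[a',b']`.
-/

noncomputable section

open Classical MeasureTheory Filter Topology Set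
open scoped Pointwise

namespace Vale.Agent.P239

universe u
variable {G : Type u} [Group G] {S : Finset G}

theorem smul_uf (g : G) (ξ : Bd G) : (g • ξ).uf = Ultrafilter.map (fun x => g * x) ξ.uf := rfl

theorem Bdd.tendsto_hat {u : G → ℝ} (hu : Bdd u) (ξ : Bd G) :
    Tendsto u (ξ.uf : Filter G) (𝓝 (hat u ξ)) := by
  obtain ⟨C, hC⟩ := hu
  obtain ⟨c, -, hc⟩ := (isCompact_Icc (a := -C) (b := C)).ultrafilter_le_nhds (ξ.uf.map u)
    (le_principal_iff.2 (mem_map.2 (Eventually.of_forall fun x => abs_le.1 (hC x))))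
  exact tendsto_nhds_limUnder ⟨c, hc⟩

theorem hat_eq_of_tendsto {u : G → ℝ} {ξ : Bd G} {c : ℝ}
    (h : Tendsto u (ξ.uf : Filter G) (𝓝 c)) : hat u ξ = c := by
  exact h.limUnder_eq

theorem Bdd.continuous_hat {u : G → ℝ} (hu : Bdd u) : Continuous (hat u) := by
  refine continuous_iff_continuousAt.2 fun ξ => Metric.tendsto_nhds.2 fun ε hε => ?_
  have h1 : {x | dist (u x) (hat u ξ) < ε / 2} ∈ ξ.uf :=
    Metric.tendsto_nhds.1 (hu.tendsto_hat ξ) _ (half_pos hε)
  have h2 : IsOpen (hatSet {x | dist (u x) (hat u ξ) < ε / 2}) := ultrafilter_isOpen_basic _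
  filter_upwards [h2.mem_nhds h1] with ζ hζ
  refine lt_of_le_of_lt ?_ (half_lt_self hε)
  exact le_of_tendsto ((hu.tendsto_hat ζ).dist tendsto_const_nhds)
    (mem_of_superset hζ fun x (hx : dist (u x) (hat u ξ) < ε / 2) => hx.le)

theorem Bdd.measurable_hat {u : G → ℝ} (hu : Bdd u) : Measurable (hat u) := by
  exact hu.continuous_hat.measurable

theorem Bdd.bdd_hat {u : G → ℝ} (hu : Bdd u) : Bdd (hat u) := by
  obtain ⟨C, hC⟩ := id hu
  exact ⟨C, fun ξ => le_of_tendsto (hu.tendsto_hat ξ).abs (Eventually.of_forall hC)⟩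

theorem hat_const (c : ℝ) (ξ : Bd G) : hat (fun _ : G => c) ξ = c := by
  exact hat_eq_of_tendsto tendsto_const_nhds

theorem hat_comp₂ {u v : G → ℝ} (hu : Bdd u) (hv : Bdd v) {F : ℝ → ℝ → ℝ}
    (hF : Continuous fun p : ℝ × ℝ => F p.1 p.2) (ξ : Bd G) :
    hat (fun x => F (u x) (v x)) ξ = F (hat u ξ) (hat v ξ) := by
  exact hat_eq_of_tendsto ((hF.tendsto (hat u ξ, hat v ξ)).comp
    ((hu.tendsto_hat ξ).prodMk_nhds (hv.tendsto_hat ξ)))

theorem Bdd.comp₂ {α : Type*} {u v : α → ℝ} (hu : Bdd u) (hv : Bdd v) {F : ℝ → ℝ → ℝ}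
    (hF : Continuous fun p : ℝ × ℝ => F p.1 p.2) : Bdd (fun x => F (u x) (v x)) := by
  obtain ⟨C, hC⟩ := hu
  obtain ⟨D, hD⟩ := hv
  obtain ⟨K, hK⟩ := ((isCompact_Icc (a := -C) (b := C)).prod
    (isCompact_Icc (a := -D) (b := D))).exists_bound_of_continuousOn hF.continuousOn
  exact ⟨K, fun x => hK (u x, v x) ⟨abs_le.1 (hC x), abs_le.1 (hD x)⟩⟩

theorem hat_mono {u v : G → ℝ} (hu : Bdd u) (hv : Bdd v) {ξ : Bd G}
    (h : ∀ᶠ x in (ξ.uf : Filter G), u x ≤ v x) : hat u ξ ≤ hat v ξ := by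
  exact le_of_tendsto_of_tendsto (hu.tendsto_hat ξ) (hv.tendsto_hat ξ) h

theorem hat_congr {u v : G → ℝ} {ξ : Bd G} (h : ∀ᶠ x in (ξ.uf : Filter G), u x = v x) :
    hat u ξ = hat v ξ := by
  unfold hat limUnder
  rw [Filter.map_congr h]

theorem hat_indicator (U : Set G) {u : G → ℝ} (hu : Bdd u) (ξ : Bd G) :
    hat (U.indicator u) ξ = (hatSet U).indicator (hat u) ξ := by
  by_cases h : ξ ∈ hatSet U
  · rw [indicator_of_mem h]
    exact hat_congr (mem_of_superset h fun x hx => indicator_of_mem hx u)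
  · rw [indicator_of_notMem h, ← hat_const 0 ξ]
    exact hat_congr (mem_of_superset (Ultrafilter.compl_mem_iff_notMem.2 h)
      fun x hx => indicator_of_notMem hx u)

theorem hat_smul (u : G → ℝ) (g : G) (ξ : Bd G) :
    hat u (g • ξ) = hat (fun x => u (g * x)) ξ := by
  rfl

theorem mem_hatSet_of_lt {u : G → ℝ} (hu : Bdd u) {t : ℝ} {ξ : Bd G} (h : t < hat u ξ) :
    ξ ∈ hatSet {x | t < u x} := by
  exact (hu.tendsto_hat ξ).eventually (lt_mem_nhds h)

theorem not_mem_hatSet_of_lt {u : G → ℝ} (hu : Bdd u) {t : ℝ} {ξ : Bd G} (h : hat u ξ < t) :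
    ξ ∉ hatSet {x | t < u x} := by
  intro h1
  exact absurd (ge_of_tendsto (hu.tendsto_hat ξ) (mem_of_superset h1 fun x hx => le_of_lt hx))
    (not_le.2 h)

theorem isClopen_hatSet (U : Set G) : IsClopen (hatSet U) := by
  exact ⟨ultrafilter_isClosed_basic U, ultrafilter_isOpen_basic U⟩

theorem measurableSet_hatSet (U : Set G) : MeasurableSet (hatSet U) := by
  exact (isClopen_hatSet U).isOpen.measurableSet

theorem hatSet_compl (U : Set G) : hatSet Uᶜ = (hatSet U)ᶜ := by
  ext ξ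
  exact Ultrafilter.compl_mem_iff_notMem

theorem hatSet_inter (U V : Set G) : hatSet (U ∩ V) = hatSet U ∩ hatSet V := by
  ext ξ
  exact inter_mem_iff (f := (ξ.uf : Filter G))

theorem hatSet_union (U V : Set G) : hatSet (U ∪ V) = hatSet U ∪ hatSet V := by
  ext ξ
  exact Ultrafilter.union_mem_iff

theorem continuous_smul_bd (g : G) : Continuous fun ξ : Bd G => g • ξ := by
  refine (ultrafilterBasis_is_basis (α := G)).continuous_iff.2 ?_
  rintro _ ⟨s, rfl⟩
  exact (isClopen_hatSet ((fun x => g * x) ⁻¹' s)).isOpen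

theorem measurable_smul_bd (g : G) : Measurable fun ξ : Bd G => g • ξ := by
  exact (continuous_smul_bd g).measurable

theorem measurableSet_smul_bd (g : G) {A : Set (Bd G)} (hA : MeasurableSet A) :
    MeasurableSet (g • A) := by
  rw [← preimage_smul_inv]
  exact measurable_smul_bd g⁻¹ hA

theorem smul_hatSet (g : G) (U : Set G) : g • hatSet U = hatSet (g • U) := by
  rw [← preimage_smul_inv, ← preimage_smul_inv]
  rfl

end Vale.Agent.P239
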