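import Vale.Agent.P239.Royden
import Vale.Agent.P239.Hat

/-! Task BdBasic: basic properties of the harmonic measures `B.μ x`.
Hints. Harnack: from `B.harm`, `μ (x*s) A ≤ card S * μ x A` for measurable `A`, hence for all `A`
(`toMeasurable` for the measure `μ x`), induct over `mem_ball_succ`. `H_harm`: `B.harm` says the measures
`card S • μ x` and `∑ s, μ (x*s)` are equal (`Measure.ext`), integrate. `equi` says `μ (g*x) = map (g • ·) (μ x)`.
`hat_eq_zero`: off the null set `⋃ y, hatSet {y}` (countable union) the ultrafilter contains no finite set,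
so it is finer than `cofinite`. `H_hat_of_harm`: `B.sub` for `u` and `-u`.
`tendsto_zero_of_subharm`: let `g = (f - avg f)^+`, finitely supported; `Cay.green` gives `p` in `ℓ²` with
`p - avg p = g`; `f - p` is bounded and subharmonic so `f x - p x ≤ ∫ hat (f - p) = 0`; so
`0 ≤ f ≤ p → 0`.
-/

noncomputable section

open Classical MeasureTheory Filter Topology Set
open scoped Pointwise

namespace Vale.Agent.P239

universe u
variable {G : Type u} [Group G] {S : Finset G} {l : ℕ}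

namespace Bdry
variable (B : Bdry S)

instance (x : G) : IsProbabilityMeasure (B.μ x) := B.prob x

theorem harnack_step (x : G) {s : G} (hs : s ∈ S) (A : Set (Bd G)) :
    B.μ (x * s) A ≤ (S.card : ENNReal) * B.μ x A :=
  calc B.μ (x * s) A ≤ B.μ (x * s) (toMeasurable (B.μ x) A) :=
        measure_mono (subset_toMeasurable _ _)
    _ ≤ ∑ s ∈ S, B.μ (x * s) (toMeasurable (B.μ x) A) :=
        Finset.single_le_sum (f := fun s => B.μ (x * s) (toMeasurable (B.μ x) A))
          (fun _ _ => zero_le) hs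
    _ = (S.card : ENNReal) * B.μ x (toMeasurable (B.μ x) A) :=
        (B.harm x _ (measurableSet_toMeasurable _ _)).symm
    _ = (S.card : ENNReal) * B.μ x A := by rw [measure_toMeasurable]

theorem harnack (hS : Cay S) (x : G) {r : ℕ} {b : G} (hb : b ∈ ball S r) (A : Set (Bd G)) :
    B.μ (x * b) A ≤ (S.card : ENNReal) ^ r * B.μ x A := by
  have hc : (1 : ENNReal) ≤ S.card := by exact_mod_cast hS.card_pos
  induction r generalizing b with
  | zero => rw [mem_ball_zero.1 hb, mul_one, pow_zero, one_mul]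
  | succ r ih =>
    rcases mem_ball_succ.1 hb with h | ⟨b', hb', s, hs, rfl⟩
    · refine (ih h).trans ?_
      rw [pow_succ]
      exact mul_le_mul_left (le_mul_of_one_le_right' hc) _
    · rw [← mul_assoc, pow_succ', mul_assoc (S.card : ENNReal)]
      exact (B.harnack_step _ hs A).trans (mul_le_mul_right (ih hb') _)

theorem h_harnack (hS : Cay S) (x : G) {r : ℕ} {b : G} (hb : b ∈ ball S r) (A : Set (Bd G)) :
    B.h A (x * b) ≤ (S.card : ℝ) ^ r * B.h A x := by
  have h1 := ENNReal.toReal_mono (ENNReal.mul_ne_top (ENNReal.pow_ne_top (ENNReal.natCast_ne_top _))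
    (measure_ne_top _ _)) (B.harnack hS x hb A)
  rw [ENNReal.toReal_mul, ENNReal.toReal_pow, ENNReal.toReal_natCast] at h1
  exact h1

theorem exists_le_mul (hS : Cay S) (x y : G) :
    ∃ c : ENNReal, c ≠ ⊤ ∧ ∀ A, B.μ x A ≤ c * B.μ y A := by
  obtain ⟨r, hr⟩ := hS.exists_ball (y⁻¹ * x)
  refine ⟨(S.card : ENNReal) ^ r, ENNReal.pow_ne_top (ENNReal.natCast_ne_top _), fun A => ?_⟩
  have h1 := B.harnack hS y hr A
  rwa [mul_inv_cancel_left] at h1

theorem null_iff (hS : Cay S) (x : G) (A : Set (Bd G)) : B.μ x A = 0 ↔ B.Null A := by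
  have key : ∀ x y : G, B.μ y A = 0 → B.μ x A = 0 := fun x y h => by
    obtain ⟨c, -, hc⟩ := B.exists_le_mul hS x y
    have h1 := hc A
    rw [h, mul_zero] at h1
    exact le_antisymm h1 zero_le
  exact ⟨key 1 x, key x 1⟩

theorem ae_eq_ae (hS : Cay S) (x : G) : ae (B.μ x) = ae (B.μ 1) := by
  ext A
  rw [mem_ae_iff, mem_ae_iff]
  exact B.null_iff hS x Aᶜ

theorem tendsto_μ (hS : Cay S) (x : G) {A : ℕ → Set (Bd G)}
    (h : Tendsto (fun k => B.μ 1 (A k)) atTop (𝓝 0)) :
    Tendsto (fun k => B.μ x (A k)) atTop (𝓝 0) := by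
  obtain ⟨c, hc0, hc⟩ := B.exists_le_mul hS x 1
  have h1 := ENNReal.Tendsto.const_mul (a := c) h (Or.inr hc0)
  rw [mul_zero] at h1
  exact tendsto_of_tendsto_of_tendsto_of_le_of_le tendsto_const_nhds h1 (fun _ => zero_le)
    fun k => hc (A k)

theorem μ_smul_le (g x : G) (A : Set (Bd G)) : B.μ (g * x) (g • A) ≤ B.μ x A :=
  calc B.μ (g * x) (g • A) ≤ B.μ (g * x) (g • toMeasurable (B.μ x) A) :=
        measure_mono (smul_set_mono (subset_toMeasurable _ _))
    _ = B.μ x (toMeasurable (B.μ x) A) := B.equi g x _ (measurableSet_toMeasurable _ _)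
    _ = B.μ x A := measure_toMeasurable _

theorem μ_smul (g x : G) (A : Set (Bd G)) : B.μ (g * x) (g • A) = B.μ x A := by
  refine le_antisymm (B.μ_smul_le g x A) ?_
  have h1 := B.μ_smul_le g⁻¹ (g * x) (g • A)
  rwa [inv_mul_cancel_left, inv_smul_smul] at h1

theorem h_smul (g x : G) (A : Set (Bd G)) : B.h (g • A) (g * x) = B.h A x := by
  unfold h Measure.real
  rw [B.μ_smul]

theorem null_smul (hS : Cay S) (g : G) (A : Set (Bd G)) : B.Null (g • A) ↔ B.Null A := by
  rw [← B.null_iff hS (g * 1), B.μ_smul]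
  rfl

theorem sub_smul (hS : Cay S) (g : G) (A A' : Set (Bd G)) :
    B.Sub (g • A) (g • A') ↔ B.Sub A A' := by
  have h1 := B.null_smul hS g (A \ A')
  rw [smul_set_sdiff] at h1
  exact h1

theorem ae_smul (hS : Cay S) (g : G) {P : Bd G → Prop} (h : ∀ᵐ ξ ∂B.μ 1, P ξ) :
    ∀ᵐ ξ ∂B.μ 1, P (g • ξ) := by
  rw [ae_iff] at h ⊢
  have h1 := (B.null_smul hS g⁻¹ {ξ | ¬ P ξ}).2 h
  rw [← preimage_smul] at h1
  exact h1

theorem sub_iff (A A' : Set (Bd G)) : B.Sub A A' ↔ ∀ᵐ ξ ∂B.μ 1, ξ ∈ A → ξ ∈ A' := by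
  rw [ae_iff]
  have h1 : {ξ | ¬ (ξ ∈ A → ξ ∈ A')} = A \ A' := by
    ext ξ
    simp
  rw [h1]
  rfl

theorem null_iff_ae (A : Set (Bd G)) : B.Null A ↔ ∀ᵐ ξ ∂B.μ 1, ξ ∉ A :=
  measure_eq_zero_iff_ae_notMem

theorem h_nonneg (A : Set (Bd G)) (x : G) : 0 ≤ B.h A x := measureReal_nonneg

theorem h_le_one (A : Set (Bd G)) (x : G) : B.h A x ≤ 1 := measureReal_le_one

theorem h_bdd (A : Set (Bd G)) : Bdd (B.h A) :=
  ⟨1, fun x => by rw [abs_of_nonneg (B.h_nonneg A x)]; exact B.h_le_one A x⟩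

theorem h_mono (hS : Cay S) {A A' : Set (Bd G)} (h : B.Sub A A') (x : G) :
    B.h A x ≤ B.h A' x := by
  have h1 := (B.sub_iff A A').1 h
  rw [← B.ae_eq_ae hS x] at h1
  exact ENNReal.toReal_mono (measure_ne_top _ _) (measure_mono_ae h1)

theorem h_congr (hS : Cay S) {A A' : Set (Bd G)} (h : B.Sub A A') (h' : B.Sub A' A) :
    B.h A = B.h A' :=
  funext fun x => le_antisymm (B.h_mono hS h x) (B.h_mono hS h' x)

theorem h_pos (hS : Cay S) {A : Set (Bd G)} (h : ¬ B.Null A) (x : G) : 0 < B.h A x :=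
  ENNReal.toReal_pos (fun h0 => h ((B.null_iff hS x A).1 h0)) (measure_ne_top _ _)

theorem h_compl {A : Set (Bd G)} (hA : MeasurableSet A) (x : G) :
    B.h Aᶜ x = 1 - B.h A x := probReal_compl_eq_one_sub hA

theorem h_compl_union (hS : Cay S) {A A' : Set (Bd G)} (hA : MeasurableSet A)
    (hA' : MeasurableSet A') (hd : B.Null (A ∩ A')) (x : G) :
    B.h (A ∪ A')ᶜ x = 1 - B.h A x - B.h A' x := by
  rw [B.h_compl (hA.union hA')]
  have h1 : B.h (A ∪ A') x = B.h A x + B.h A' x :=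
    measureReal_union₀ hA'.nullMeasurableSet ((B.null_iff hS x _).2 hd)
  rw [h1]
  ring

theorem abs_h_sub_le (A A' : Set (Bd G)) (x : G) :
    |B.h A x - B.h A' x| ≤ B.h (symmDiff A A') x := by
  have key : ∀ C C' : Set (Bd G), B.h C x ≤ B.h C' x + B.h (symmDiff C C') x := fun C C' => by
    refine le_trans (measureReal_mono (s₂ := C' ∪ symmDiff C C') fun ξ hξ => ?_)
      (measureReal_union_le _ _)
    by_cases h : ξ ∈ C'
    · exact Or.inl h
    · exact Or.inr (Or.inl ⟨hξ, h⟩)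
  have h1 := key A A'
  have h2 := key A' A
  rw [symmDiff_comm] at h2
  rw [abs_le]
  constructor <;> linarith

theorem h_eq_H {A : Set (Bd G)} (hA : MeasurableSet A) :
    B.h A = B.H (A.indicator fun _ => (1 : ℝ)) := by
  funext x
  unfold h H
  rw [integral_indicator_const _ hA, smul_eq_mul, mul_one]

theorem integrable {ψ : Bd G → ℝ} (hm : Measurable ψ) (hb : Bdd ψ) (x : G) :
    Integrable ψ (B.μ x) := by
  obtain ⟨C, hC⟩ := hb
  exact Integrable.of_bound hm.aestronglyMeasurable C (Eventually.of_forall hC)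

theorem H_harm (hS : Cay S) {ψ : Bd G → ℝ} (hm : Measurable ψ) (hb : Bdd ψ) :
    Harm S (B.H ψ) := by
  intro x
  have hc : (0 : ℝ) < S.card := by exact_mod_cast hS.card_pos
  have h1 : (S.card : ENNReal) • B.μ x = ∑ s ∈ S, B.μ (x * s) := by
    refine Measure.ext fun A hA => ?_
    rw [Measure.smul_apply, smul_eq_mul, B.harm x A hA, Measure.finsetSum_apply]
  have h2 := integral_finsetSum_measure (f := ψ) (μ := fun s => B.μ (x * s)) (s := S)
    fun s _ => B.integrable hm hb _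
  rw [← h1, integral_smul_measure, ENNReal.toReal_natCast, smul_eq_mul] at h2
  unfold avg H
  rw [← h2, mul_div_cancel_left₀ _ hc.ne']

theorem h_harm (hS : Cay S) {A : Set (Bd G)} (hA : MeasurableSet A) : Harm S (B.h A) := by
  rw [B.h_eq_H hA]
  refine B.H_harm hS (measurable_const.indicator hA) ⟨1, fun ξ => ?_⟩
  by_cases h : ξ ∈ A
  · rw [indicator_of_mem h, abs_one]
  · rw [indicator_of_notMem h, abs_zero]
    exact zero_le_one

theorem H_bdd {ψ : Bd G → ℝ} (hb : Bdd ψ) : Bdd (B.H ψ) := by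
  obtain ⟨C, hC⟩ := hb
  refine ⟨C, fun x => ?_⟩
  have h1 := norm_integral_le_of_norm_le_const (μ := B.μ x) (f := ψ) (C := C)
    (Eventually.of_forall hC)
  rw [probReal_univ, mul_one] at h1
  exact h1

theorem H_mem_Icc (hS : Cay S) {ψ : Bd G → ℝ} (hm : Measurable ψ) (hb : Bdd ψ) {a b : ℝ}
    (h : ∀ᵐ ξ ∂B.μ 1, a ≤ ψ ξ ∧ ψ ξ ≤ b) (x : G) : a ≤ B.H ψ x ∧ B.H ψ x ≤ b := by
  rw [← B.ae_eq_ae hS x] at h
  have hi := B.integrable hm hb x
  have h1 := integral_mono_ae (integrable_const a) hi (h.mono fun _ h => h.1)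
  have h2 := integral_mono_ae hi (integrable_const b) (h.mono fun _ h => h.2)
  rw [integral_const, probReal_univ, one_smul] at h1 h2
  exact ⟨h1, h2⟩

theorem H_mono (hS : Cay S) {ψ φ : Bd G → ℝ} (hm : Measurable ψ) (hb : Bdd ψ)
    (hm' : Measurable φ) (hb' : Bdd φ) (h : ψ ≤ᵐ[B.μ 1] φ) (x : G) : B.H ψ x ≤ B.H φ x := by
  rw [← B.ae_eq_ae hS x] at h
  exact integral_mono_ae (B.integrable hm hb x) (B.integrable hm' hb' x) h

theorem H_congr (hS : Cay S) {ψ φ : Bd G → ℝ} (h : ψ =ᵐ[B.μ 1] φ) : B.H ψ = B.H φ := by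
  funext x
  rw [← B.ae_eq_ae hS x] at h
  exact integral_congr_ae h

theorem map_smul (g x : G) : Measure.map (fun ξ : Bd G => g • ξ) (B.μ x) = B.μ (g * x) := by
  refine Measure.ext fun A hA => ?_
  rw [Measure.map_apply (measurable_smul_bd g) hA, preimage_smul, ← B.μ_smul g x, smul_inv_smul]

theorem H_smul {ψ : Bd G → ℝ} (hm : Measurable ψ) (g x : G) :
    B.H (fun ξ => ψ (g • ξ)) x = B.H ψ (g * x) := by
  unfold H
  rw [← B.map_smul, integral_map (measurable_smul_bd g).aemeasurable hm.aestronglyMeasurable]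

theorem ae_cofinite (hS : Cay S) : ∀ᵐ ξ ∂B.μ 1, (ξ.uf : Filter G) ≤ cofinite := by
  have := hS.countable
  have h1 : ∀ᵐ ξ ∂B.μ 1, ∀ y : G, ξ ∉ hatSet {y} :=
    ae_all_iff.2 fun y => measure_eq_zero_iff_ae_notMem.1 (B.free 1 y)
  filter_upwards [h1] with ξ hξ
  rcases Ultrafilter.le_cofinite_or_eq_pure ξ.uf with h | ⟨a, ha⟩
  · exact h
  · refine absurd ?_ (hξ a)
    change {a} ∈ ξ.uf
    rw [ha]
    exact Ultrafilter.mem_pure.2 rfl

theorem hat_eq_zero (hS : Cay S) {p : G → ℝ} (hp : Tendsto p cofinite (𝓝 0)) :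
    ∀ᵐ ξ ∂B.μ 1, hat p ξ = 0 :=
  (B.ae_cofinite hS).mono fun _ h => hat_eq_of_tendsto (hp.mono_left h)

theorem null_hatSet_of_finite (hS : Cay S) {U : Set G} (hU : U.Finite) :
    B.Null (hatSet U) := by
  rw [B.null_iff_ae]
  filter_upwards [B.ae_cofinite hS] with ξ hξ
  exact Ultrafilter.compl_mem_iff_notMem.1 (hξ hU.compl_mem_cofinite)

theorem H_hat_of_harm {u : G → ℝ} (hb : Bdd u) (hu : Harm S u) : B.H (hat u) = u := by
  funext x
  refine le_antisymm ?_ (B.sub u hb (fun y => (hu y).ge) x)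
  obtain ⟨C, hC⟩ := id hb
  have h1 := B.sub (fun y => -u y) ⟨C, fun y => by rw [abs_neg]; exact hC y⟩ (fun y => by
    have h2 := hu y
    unfold avg at h2 ⊢
    rw [Finset.sum_neg_distrib, neg_div, h2]) x
  have h3 : hat (fun y => -u y) = fun ξ => -hat u ξ :=
    funext fun ξ => hat_eq_of_tendsto (hb.tendsto_hat ξ).neg
  rw [h3, integral_neg] at h1
  exact neg_le_neg_iff.1 h1

theorem tendsto_zero_of_subharm (hS : Cay S) (hg : Gap S) {f : G → ℝ} (hb : Bdd f)
    (h0 : ∀ x, 0 ≤ f x) {K : Set G} (hK : K.Finite) (hf : ∀ x, x ∉ K → f x ≤ avg S f x)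
    (hz : ∀ᵐ ξ ∂B.μ 1, hat f ξ = 0) : Tendsto f cofinite (𝓝 0) := by
  have h1 : SqSum fun x => max (f x - avg S f x) 0 := by
    refine summable_of_hasFiniteSupport (hK.subset fun x hx => ?_)
    by_contra hxK
    refine hx ?_
    change max (f x - avg S f x) 0 ^ 2 = 0
    rw [max_eq_right (sub_nonpos.2 (hf x hxK)), zero_pow two_ne_zero]
  obtain ⟨p, hp, hpg⟩ := hS.green hg h1
  have hb2 : Bdd fun x => f x - p x := hb.comp₂ hp.bdd (F := fun a b => a - b) (by fun_prop)
  have h2 : ∀ x, f x ≤ p x := fun x => by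
    have h3 := B.sub (fun x => f x - p x) hb2 (fun y => by
      have h4 : avg S (fun x => f x - p x) y = avg S f y - avg S p y := by
        unfold avg
        rw [Finset.sum_sub_distrib, sub_div]
      have h5 := hpg y
      have h6 := le_max_left (f y - avg S f y) 0
      rw [h4]
      linarith) x
    have h7 : ∀ᵐ ξ ∂B.μ x, hat (fun x => f x - p x) ξ = 0 := by
      rw [B.ae_eq_ae hS x]
      filter_upwards [hz, B.hat_eq_zero hS hp.tendsto] with ξ h8 h9
      rw [hat_comp₂ hb hp.bdd (F := fun a b => a - b) (by fun_prop), h8, h9, sub_zero]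
    rw [integral_congr_ae h7, integral_zero] at h3
    exact sub_nonpos.1 h3
  exact tendsto_of_tendsto_of_tendsto_of_le_of_le tendsto_const_nhds hp.tendsto h0 h2

end Bdry

end Vale.Agent.P239
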