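import Vale.Agent.P239.Royden
import Vale.Agent.P239.Hat

/-! Task BdExist: construction of the harmonic measures.
Plan: fix the ultrafilter `hyperfilter ℕ`. For bounded `u` let `T u = avg S u`, Cesaro means
`M n u = (1/(n+1)) ∑ k ≤ n, T^[k] u`, and `Π u x = lim along hyperfilter of M n u x` (bounded real
sequence). `Π` is linear, positive, unital, `Π (T u) = Π u` (telescoping), `T (Π u) = Π u`
(finite sums commute with the limit and `T` commutes with `M n`), `Π (u ∘ (g * ·)) x = Π u (g * x)`, and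
`u ≤ T u → u ≤ Π u`. For `x : G` define the positive functional on `C_c(Bd G, ℝ)`:
`Λ x f = Π (fun y => f (pure y)) x` and `μ x = RealRMK.rieszMeasure (Λ x)` (regular, finite,
`RealRMK.integral_rieszMeasure`). Since `hat u (pure y) = u y`, `∫ hat u dμ x = Π u x`. `equi` and `harm`: both sides
are regular measures (pushforward by a homeomorphism `Measure.Regular.map`, finite sums and
multiples of finite regular measures) with equal integrals of continuous functions
(`Measure.ext_of_integral_eq_on_compactlySupported`). `free`: by `Cay.green`, `δ_y = p - T p` with `p` bounded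
so `Π δ_y = 0`, and `hat δ_y` is the indicator of `hatSet {y}` (`hat_indicator`).
-/

noncomputable section

open Classical MeasureTheory Filter Topology Set
open scoped Pointwise

namespace Vale.Agent.P239

universe u
variable {G : Type u} [Group G] {S : Finset G}

open CompactlySupported

/-- The averaging operator as a linear map. -/
def bxT (S : Finset G) : Module.End ℝ (G → ℝ) where
  toFun := avg S
  map_add' u v := by
    funext x
    simp [avg, Finset.sum_add_distrib, add_div]
  map_smul' c u := by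
    funext x
    simp [avg, ← Finset.mul_sum, mul_div_assoc]

/-- Cesaro means. -/
def bxM (S : Finset G) (n : ℕ) : Module.End ℝ (G → ℝ) :=
  ((n : ℝ) + 1)⁻¹ • ∑ k ∈ Finset.range (n + 1), bxT S ^ k

/-- The limit of the Cesaro means. -/
def bxP (S : Finset G) (u : G → ℝ) (x : G) : ℝ :=
  limUnder (hyperfilter ℕ : Filter ℕ) fun n => bxM S n u x

theorem bxM_apply (n : ℕ) (u : G → ℝ) (x : G) :
    bxM S n u x = ((n : ℝ) + 1)⁻¹ * ∑ k ∈ Finset.range (n + 1), (bxT S ^ k) u x := by
  simp [bxM, LinearMap.sum_apply, Finset.sum_apply]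

theorem bxT_pow_mono (k : ℕ) {u v : G → ℝ} (h : u ≤ v) : (bxT S ^ k) u ≤ (bxT S ^ k) v := by
  induction k with
  | zero => exact h
  | succ k ih =>
    rw [pow_succ', Module.End.mul_apply, Module.End.mul_apply]
    exact fun x => div_le_div_of_nonneg_right (Finset.sum_le_sum fun s _ => ih _)
      (Nat.cast_nonneg _)

theorem bxT_pow_const (hS : Cay S) (k : ℕ) (c : ℝ) : (bxT S ^ k) (fun _ => c) = fun _ => c := by
  induction k with
  | zero => rfl
  | succ k ih =>
    rw [pow_succ', Module.End.mul_apply, ih]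
    funext x
    have h : (S.card : ℝ) ≠ 0 := Nat.cast_ne_zero.2 hS.card_pos.ne'
    show (∑ _s ∈ S, c) / S.card = c
    rw [Finset.sum_const, nsmul_eq_mul, mul_div_cancel_left₀ _ h]

theorem bxT_pow_left (k : ℕ) (u : G → ℝ) (g : G) :
    (bxT S ^ k) (fun y => u (g * y)) = fun y => (bxT S ^ k) u (g * y) := by
  induction k with
  | zero => rfl
  | succ k ih =>
    rw [pow_succ', Module.End.mul_apply, Module.End.mul_apply, ih]
    funext x
    show (∑ s ∈ S, (bxT S ^ k) u (g * (x * s))) / S.card =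
      (∑ s ∈ S, (bxT S ^ k) u (g * x * s)) / S.card
    simp only [mul_assoc]

theorem bxT_pow_abs (hS : Cay S) (k : ℕ) {u : G → ℝ} {C : ℝ} (h : ∀ x, |u x| ≤ C) (x : G) :
    |(bxT S ^ k) u x| ≤ C := by
  have h1 := bxT_pow_mono (S := S) k (u := fun _ => -C) (v := u) (fun x => (abs_le.1 (h x)).1) x
  have h2 := bxT_pow_mono (S := S) k (u := u) (v := fun _ => C) (fun x => (abs_le.1 (h x)).2) x
  rw [bxT_pow_const hS] at h1 h2
  exact abs_le.2 ⟨h1, h2⟩

theorem bxM_ge (n : ℕ) {u : G → ℝ} {x : G} {c : ℝ} (h : ∀ k, c ≤ (bxT S ^ k) u x) :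
    c ≤ bxM S n u x := by
  rw [bxM_apply, le_inv_mul_iff₀ (by positivity)]
  simpa using Finset.card_nsmul_le_sum (Finset.range (n + 1)) _ c fun k _ => h k

theorem bxM_le (n : ℕ) {u : G → ℝ} {x : G} {c : ℝ} (h : ∀ k, (bxT S ^ k) u x ≤ c) :
    bxM S n u x ≤ c := by
  rw [bxM_apply, inv_mul_le_iff₀ (by positivity)]
  simpa using Finset.sum_le_card_nsmul (Finset.range (n + 1)) _ c fun k _ => h k

theorem bxP_tendsto (hS : Cay S) {u : G → ℝ} (hu : Bdd u) (x : G) :
    Tendsto (fun n => bxM S n u x) (hyperfilter ℕ : Filter ℕ) (𝓝 (bxP S u x)) := by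
  obtain ⟨C, hC⟩ := hu
  obtain ⟨c, -, hc⟩ := (isCompact_Icc (a := -C) (b := C)).ultrafilter_le_nhds
    ((hyperfilter ℕ).map fun n => bxM S n u x)
    (le_principal_iff.2 (mem_map.2 (Eventually.of_forall fun n =>
      ⟨bxM_ge n fun k => (abs_le.1 (bxT_pow_abs hS k hC x)).1,
        bxM_le n fun k => (abs_le.1 (bxT_pow_abs hS k hC x)).2⟩)))
  exact tendsto_nhds_limUnder ⟨c, hc⟩

theorem bxP_eq {u : G → ℝ} {x : G} {c : ℝ}
    (h : Tendsto (fun n => bxM S n u x) (hyperfilter ℕ : Filter ℕ) (𝓝 c)) : bxP S u x = c :=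
  h.limUnder_eq

theorem bxP_add (hS : Cay S) {u v : G → ℝ} (hu : Bdd u) (hv : Bdd v) (x : G) :
    bxP S (u + v) x = bxP S u x + bxP S v x :=
  bxP_eq (((bxP_tendsto hS hu x).add (bxP_tendsto hS hv x)).congr fun n => by simp)

theorem bxP_sub (hS : Cay S) {u v : G → ℝ} (hu : Bdd u) (hv : Bdd v) (x : G) :
    bxP S (u - v) x = bxP S u x - bxP S v x :=
  bxP_eq (((bxP_tendsto hS hu x).sub (bxP_tendsto hS hv x)).congr fun n => by simp)

theorem bxP_smul (hS : Cay S) (c : ℝ) {u : G → ℝ} (hu : Bdd u) (x : G) :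
    bxP S (c • u) x = c * bxP S u x :=
  bxP_eq (((bxP_tendsto hS hu x).const_mul c).congr fun n => by simp)

theorem bxP_mono (hS : Cay S) {u v : G → ℝ} (hu : Bdd u) (hv : Bdd v) (h : u ≤ v) (x : G) :
    bxP S u x ≤ bxP S v x := by
  refine le_of_tendsto_of_tendsto' (bxP_tendsto hS hu x) (bxP_tendsto hS hv x) fun n => ?_
  rw [bxM_apply, bxM_apply]
  exact mul_le_mul_of_nonneg_left (Finset.sum_le_sum fun k _ => bxT_pow_mono k h x)
    (by positivity)

theorem bxP_const (hS : Cay S) (c : ℝ) (x : G) : bxP S (fun _ => c) x = c :=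
  bxP_eq (tendsto_const_nhds.congr fun n => le_antisymm
    (bxM_ge n fun k => by rw [bxT_pow_const hS]) (bxM_le n fun k => by rw [bxT_pow_const hS]))

theorem bxP_left (u : G → ℝ) (g x : G) : bxP S (fun y => u (g * y)) x = bxP S u (g * x) := by
  simp only [bxP, bxM_apply, bxT_pow_left]

theorem bxP_avg (hS : Cay S) {u : G → ℝ} (hu : Bdd u) (x : G) :
    bxP S (avg S u) x = bxP S u x := by
  obtain ⟨C, hC⟩ := id hu
  have h0 : Tendsto (fun n : ℕ => ((n : ℝ) + 1)⁻¹ * ((bxT S ^ (n + 1)) u x - u x)) atTop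
      (𝓝 0) := by
    have h1 : Tendsto (fun n : ℕ => ((n : ℝ) + 1)⁻¹ * (C + C)) atTop (𝓝 0) := by
      simpa using (tendsto_one_div_add_atTop_nhds_zero_nat (𝕜 := ℝ)).mul_const (C + C)
    refine squeeze_zero_norm (fun n => ?_) h1
    rw [Real.norm_eq_abs, abs_mul, abs_of_nonneg (by positivity)]
    exact mul_le_mul_of_nonneg_left ((abs_sub _ _).trans
      (add_le_add (bxT_pow_abs hS _ hC x) (hC x))) (by positivity)
  have h2 := (bxP_tendsto hS hu x).add (h0.mono_left Nat.hyperfilter_le_atTop)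
  rw [add_zero] at h2
  refine bxP_eq (h2.congr fun n => ?_)
  have h3 : ∀ k, (bxT S ^ k) (avg S u) x = (bxT S ^ (k + 1)) u x := fun k => by
    rw [pow_succ, Module.End.mul_apply]
    rfl
  have h4 := Finset.sum_range_succ (fun k => (bxT S ^ k) u x) (n + 1)
  rw [Finset.sum_range_succ' (fun k => (bxT S ^ k) u x) (n + 1)] at h4
  simp only [bxM_apply, h3]
  rw [← mul_add, eq_sub_of_add_eq h4, add_sub_assoc]
  rfl

theorem bxP_harm (hS : Cay S) {u : G → ℝ} (hu : Bdd u) (x : G) :
    S.card * bxP S u x = ∑ s ∈ S, bxP S u (x * s) := by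
  have h : (S.card : ℝ) ≠ 0 := Nat.cast_ne_zero.2 hS.card_pos.ne'
  have h1 := (tendsto_finsetSum S fun s _ => bxP_tendsto hS hu (x * s)).div_const (S.card : ℝ)
  rw [← bxP_avg hS hu, bxP_eq (h1.congr fun n => ?_), mul_div_cancel₀ _ h]
  have h2 : bxT S * bxM S n = bxM S n * bxT S :=
    ((Commute.sum_right _ _ _ fun k _ => Commute.self_pow (bxT S) k).smul_right _).eq
  exact congrFun (LinearMap.congr_fun h2 u) x

theorem bxP_sub_le (hS : Cay S) {u : G → ℝ} (hu : Bdd u) (h : ∀ x, u x ≤ avg S u x) (x : G) :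
    u x ≤ bxP S u x := by
  have h1 : ∀ k, u ≤ (bxT S ^ k) u := by
    intro k
    induction k with
    | zero => exact le_rfl
    | succ k ih =>
      rw [pow_succ, Module.End.mul_apply]
      exact ih.trans (bxT_pow_mono k h)
  exact ge_of_tendsto' (bxP_tendsto hS hu x) fun n => bxM_ge n fun k => h1 k x

/-- Principal ultrafilters. -/
def bxPt (y : G) : Bd G := (pure y : Ultrafilter G)

omit [Group G] in
theorem bx_bdd {f : Bd G → ℝ} (hf : Continuous f) : Bdd fun y => f (bxPt y) := by
  obtain ⟨C, hC⟩ := isCompact_univ.exists_bound_of_continuousOn hf.continuousOn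
  exact ⟨C, fun y => hC _ (mem_univ _)⟩

/-- The positive functional. -/
def bxL (hS : Cay S) (x : G) : C_c(Bd G, ℝ) →ₚ[ℝ] ℝ where
  toFun f := bxP S (fun y => f (bxPt y)) x
  map_add' f g := bxP_add hS (bx_bdd f.continuous) (bx_bdd g.continuous) x
  map_smul' c f := bxP_smul hS c (bx_bdd f.continuous) x
  monotone' f g h := bxP_mono hS (bx_bdd f.continuous) (bx_bdd g.continuous) (fun _ => h _) x

theorem bx_int (hS : Cay S) (x : G) {f : Bd G → ℝ} (hf : Continuous f) :
    ∫ ξ, f ξ ∂(RealRMK.rieszMeasure (bxL hS x)) = bxP S (fun y => f (bxPt y)) x :=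
  RealRMK.integral_rieszMeasure (bxL hS x) ⟨⟨f, hf⟩, HasCompactSupport.of_compactSpace _⟩

theorem bx_hat (hS : Cay S) (x : G) {u : G → ℝ} (hu : Bdd u) :
    ∫ ξ, hat u ξ ∂(RealRMK.rieszMeasure (bxL hS x)) = bxP S u x := by
  rw [bx_int hS x hu.continuous_hat]
  exact congrArg (bxP S · x) (funext fun y => hat_eq_of_tendsto (tendsto_pure_nhds u y))

theorem bx_equi (hS : Cay S) (g x : G) : RealRMK.rieszMeasure (bxL hS (g * x)) =
    (RealRMK.rieszMeasure (bxL hS x)).map fun ξ => g • ξ := by
  have := Measure.InnerRegular.map_of_continuous (μ := RealRMK.rieszMeasure (bxL hS x))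
    (continuous_smul_bd g)
  refine Measure.ext_of_integral_eq_on_compactlySupported fun f => ?_
  have hf : Continuous fun ξ => f ξ := f.continuous
  rw [integral_map (measurable_smul_bd g).aemeasurable hf.aestronglyMeasurable, bx_int hS _ hf,
    bx_int hS x (f := fun ξ => f (g • ξ)) (hf.comp (continuous_smul_bd g)), ← bxP_left]
  rfl

theorem bx_harm (hS : Cay S) (x : G) : (S.card : ENNReal) • RealRMK.rieszMeasure (bxL hS x) =
    ∑ s ∈ S, RealRMK.rieszMeasure (bxL hS (x * s)) := by
  have := Measure.Regular.smul (μ := RealRMK.rieszMeasure (bxL hS x)) (x := (S.card : ENNReal))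
    (ENNReal.natCast_ne_top _)
  refine Measure.ext_of_integral_eq_on_compactlySupported fun f => ?_
  have hf : Continuous fun ξ => f ξ := f.continuous
  rw [integral_smul_measure, integral_finsetSum_measure fun s _ => f.integrable]
  simp only [bx_int hS _ hf, ENNReal.toReal_natCast, smul_eq_mul]
  exact bxP_harm hS (bx_bdd hf) x

theorem Cay.exists_bdry (hS : Cay S) (hg : Gap S) : Nonempty (Bdry S) := by
  refine ⟨⟨fun x => RealRMK.rieszMeasure (bxL hS x), fun x => ?_, fun g x A hA => ?_,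
    fun x A _ => ?_, fun u hu h x => ?_, fun x y => ?_⟩⟩
  · have h := bx_int hS x (f := fun _ => 1) continuous_const
    rw [bxP_const hS, integral_const, smul_eq_mul, mul_one] at h
    exact isProbabilityMeasure_iff_real.2 h
  · rw [bx_equi, Measure.map_apply (measurable_smul_bd g) (measurableSet_smul_bd g hA),
      preimage_smul, inv_smul_smul]
  · have h := congrArg (fun μ : Measure (Bd G) => μ A) (bx_harm hS x)
    simpa only [Measure.smul_apply, smul_eq_mul, Measure.coe_finsetSum, Finset.sum_apply] using h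
  · rw [bx_hat hS x hu]
    exact bxP_sub_le hS hu h x
  · have h1 : SqSum (({y} : Set G).indicator fun _ => (1 : ℝ)) :=
      summable_of_ne_finset_zero (s := {y}) fun z hz => by
        rw [indicator_of_notMem (by simpa using hz)]
        simp
    obtain ⟨p, hp, h2⟩ := hS.green hg h1
    obtain ⟨C, hC⟩ := hp.bdd
    have h3 := bxP_sub hS hp.bdd (v := avg S p) ⟨C, fun z => by
      simpa [bxT] using bxT_pow_abs hS 1 hC z⟩ x
    rw [bxP_avg hS hp.bdd, sub_self, show p - avg S p = _ from funext h2,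
      ← bx_hat hS x h1.bdd] at h3
    have h4 : hat (fun _ : G => (1 : ℝ)) = fun _ => 1 := funext (hat_const 1)
    simp only [hat_indicator {y} (u := fun _ => (1 : ℝ)) ⟨1, fun _ => by simp⟩, h4] at h3
    rw [integral_indicator_const _ (measurableSet_hatSet _), smul_eq_mul, mul_one] at h3
    exact (measureReal_eq_zero_iff (measure_ne_top _ _)).1 h3

end Vale.Agent.P239
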