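import Mathlib

/-! Definitions used by the statement of the P239 hand-in. The ring `A` will be the integral
group ring `ℤG`, and `ι : G → A` the inclusion of the group elements. -/

noncomputable section

namespace Vale.Agent.P239.St

universe u v

/-- An exact sequence `0 → F₄ → F₃ → F₂ → F₁ → F₀ → ℤ → 0` with `F_k = A ^ (n_k)` finite free left
`A`-modules. -/
structure Res4 (A : Type u) [Ring A] where
  n0 : ℕ
  n1 : ℕ
  n2 : ℕ
  n3 : ℕ
  n4 : ℕ
  d1 : (Fin n1 → A) →ₗ[A] (Fin n0 → A)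
  d2 : (Fin n2 → A) →ₗ[A] (Fin n1 → A)
  d3 : (Fin n3 → A) →ₗ[A] (Fin n2 → A)
  d4 : (Fin n4 → A) →ₗ[A] (Fin n3 → A)
  aug : (Fin n0 → A) →+ ℤ
  aug_surj : Function.Surjective aug
  exact0 : Function.Exact d1 aug
  exact1 : Function.Exact d2 d1
  exact2 : Function.Exact d3 d2
  exact3 : Function.Exact d4 d3
  inj4 : Function.Injective d4

/-- The group acts trivially on `ℤ`. -/
def Res4.TrivialAction {A : Type u} [Ring A] (R : Res4 A) {G : Type u} (ι : G → A) : Prop :=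
  ∀ (g : G) (x : Fin R.n0 → A), R.aug (ι g • x) = R.aug x

/-- The coboundary `Hom(F_m, A) → Hom(F_n, A)` induced by `d : F_n → F_m`. -/
def dualMap {A : Type u} [Ring A] {n m : ℕ} (d : (Fin n → A) →ₗ[A] (Fin m → A))
    (f : (Fin m → A) →ₗ[A] A) : (Fin n → A) →ₗ[A] A := f.comp d

/-- Exactness of the dual sequence at the middle term. -/
def DualExact {A : Type u} [Ring A] {n m k : ℕ} (d : (Fin n → A) →ₗ[A] (Fin m → A))
    (e : (Fin m → A) →ₗ[A] (Fin k → A)) : Prop :=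
  Function.Exact (dualMap e) (dualMap d)

/-- The cokernel of the dual of `d` is infinite cyclic. -/
def DualCokerCyclic {A : Type u} [Ring A] {n m : ℕ} (d : (Fin n → A) →ₗ[A] (Fin m → A)) : Prop :=
  ∃ η : ((Fin n → A) →ₗ[A] A) → ℤ, (∀ f f', η (f + f') = η f + η f') ∧
    Function.Surjective η ∧ Function.Exact (dualMap d) η

/-- Poincare duality in dimension four: the cohomology of `Hom(F, A)` vanishes in degrees
`0, 1, 2, 3` and is infinite cyclic in degree `4`. -/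
def Res4.IsPD4 {A : Type u} [Ring A] (R : Res4 A) : Prop :=
  Function.Injective (dualMap R.d1) ∧ DualExact R.d2 R.d1 ∧ DualExact R.d3 R.d2 ∧
    DualExact R.d4 R.d3 ∧ DualCokerCyclic R.d4

/-- The sum of the absolute values of the coefficients of an element of the group ring. -/
def l1 {G : Type u} (a : MonoidAlgebra ℤ G) : ℕ := a.coeff.sum fun _ c => c.natAbs

/-- The filling function for 2-cycles, measured with the norm `N` on `A`, grows at most like
`a ^ α` with `α < 2`. -/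
def Res4.SubquadraticFilling {A : Type u} [Ring A] (R : Res4 A) (N : A → ℕ) : Prop :=
  ∃ C α : ℝ, α < 2 ∧ ∀ z : Fin R.n2 → A, z ≠ 0 → R.d2 z = 0 →
    ∃ y : Fin R.n3 → A, R.d3 y = z ∧ ((∑ i, N (y i) : ℕ) : ℝ) ≤ C * ((∑ i, N (z i) : ℕ) : ℝ) ^ α

/-- `G` has a proper length function and a bounded synchronous combing of linear length. -/
def LinearlyCombable (G : Type u) [Group G] : Prop :=
  ∃ (len : G → ℕ) (σ : G → ℕ → G) (K : ℕ),
    (∀ g h, len (g * h) ≤ len g + len h) ∧ (∀ g, len g⁻¹ = len g) ∧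
    (∀ r, {g | len g ≤ r}.Finite) ∧
    (∀ g, σ g 0 = 1) ∧ (∀ g n, K * len g + K ≤ n → σ g n = g) ∧
    (∀ g n, len ((σ g n)⁻¹ * σ g (n + 1)) ≤ K) ∧
    (∀ g h n, len ((σ g n)⁻¹ * σ h n) ≤ K * len (g⁻¹ * h) + K)

/-- `γ` restricted to `[0,1]` is a constant speed geodesic from `x` to `y`. -/
def IsGeodesic {X : Type v} [MetricSpace X] (γ : ℝ → X) (x y : X) : Prop :=
  γ 0 = x ∧ γ 1 = y ∧
    ∀ s ∈ Set.Icc (0 : ℝ) 1, ∀ t ∈ Set.Icc (0 : ℝ) 1, dist (γ s) (γ t) = |s - t| * dist x y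

/-- A geodesic metric space satisfying the CAT(0) comparison inequality. -/
def IsCAT0 (X : Type v) [MetricSpace X] : Prop :=
  (∀ x y : X, ∃ γ, IsGeodesic γ x y) ∧
  ∀ (x y z : X) (γ : ℝ → X), IsGeodesic γ x y → ∀ t ∈ Set.Icc (0 : ℝ) 1,
    dist z (γ t) ^ 2 ≤
      (1 - t) * dist z x ^ 2 + t * dist z y ^ 2 - t * (1 - t) * dist x y ^ 2

/-- The action is metrically proper and cobounded. -/
def ProperCobounded (G : Type u) [Group G] (X : Type v) [MetricSpace X] [MulAction G X] : Prop :=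
  ∃ o : X, (∀ r : ℝ, {g : G | dist o (g • o) ≤ r}.Finite) ∧
    ∃ r : ℝ, ∀ y : X, ∃ g : G, dist y (g • o) ≤ r

/-- `φ` is an additive map `F_n → ℓ²(G)`, equivariant for the left regular representation. -/
def IsL2Cochain {A : Type u} [Ring A] {G : Type u} [Group G] (ι : G → A) {n : ℕ}
    (φ : (Fin n → A) → G → ℂ) : Prop :=
  (∀ x x' y, φ (x + x') y = φ x y + φ x' y) ∧ (∀ x, Summable fun y => ‖φ x y‖ ^ 2) ∧
    ∀ (g : G) x y, φ (ι g • x) y = φ x (g⁻¹ * y)

/-- The reduced `ℓ²`-cohomology of `F_n → F_m → F_k` vanishes at `F_m`: every `ℓ²`-cocycle is a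
limit of `ℓ²`-coboundaries in `Hom_G(F_m, ℓ²G) = ℓ²(G)^m`. -/
def ReducedL2Vanishes {A : Type u} [Ring A] {G : Type u} [Group G] (ι : G → A) {n m k : ℕ}
    (d : (Fin n → A) → (Fin m → A)) (e : (Fin m → A) → (Fin k → A)) : Prop :=
  ∀ φ : (Fin m → A) → G → ℂ, IsL2Cochain ι φ → (∀ x, φ (d x) = 0) →
    ∀ ε : ℝ, 0 < ε → ∃ ψ : (Fin k → A) → G → ℂ, IsL2Cochain ι ψ ∧
      ∀ i : Fin m, ∑' y, ‖φ (Pi.single i 1) y - ψ (e (Pi.single i 1)) y‖ ^ 2 < ε

/-- The `L²`-Betti numbers vanish in degrees `0, 1, 3, 4` (the complex is zero in degrees `> 4`). -/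
def Res4.SingerVanishing {A : Type u} [Ring A] (R : Res4 A) {G : Type u} [Group G]
    (ι : G → A) : Prop :=
  ReducedL2Vanishes ι R.d1 (fun _ => (0 : Fin 0 → A)) ∧
  ReducedL2Vanishes ι R.d2 R.d1 ∧
  ReducedL2Vanishes ι R.d4 R.d3 ∧
  ReducedL2Vanishes ι (fun _ : Fin 0 → A => 0) R.d4

end Vale.Agent.P239.St
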