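import Vale.Agent.P239.Main
import Vale.Agent.P239.Stmt

/-! Bridge between the generic statement and the working definitions. -/

noncomputable section

namespace Vale.Agent.P239

universe u v
variable {G : Type u} [Group G]

/-- The group element as an element of the group ring. -/
abbrev io (G : Type u) [Group G] : G → ZG G := fun g => MonoidAlgebra.single g 1

def ofSt (R : St.Res4 (ZG G)) (h : R.TrivialAction (io G)) : FreeRes4 G where
  n0 := R.n0
  n1 := R.n1
  n2 := R.n2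
  n3 := R.n3
  n4 := R.n4
  d1 := R.d1
  d2 := R.d2
  d3 := R.d3
  d4 := R.d4
  aug := R.aug
  aug_smul := h
  aug_surj := R.aug_surj
  exact0 := R.exact0
  exact1 := R.exact1
  exact2 := R.exact2
  exact3 := R.exact3
  inj4 := R.inj4

theorem ofSt_pd {R : St.Res4 (ZG G)} (h : R.TrivialAction (io G)) (hR : R.IsPD4) :
    (ofSt R h).IsPD4 := by
  obtain ⟨h0, h1, h2, h3, η, ha, hs, he⟩ := hR
  exact ⟨h0, h1, h2, h3, AddMonoidHom.mk' η ha, hs, he⟩

theorem memlp_iff (f : G → ℂ) : Memℓp f 2 ↔ Summable fun y => ‖f y‖ ^ 2 := by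
  rw [memℓp_gen_iff (by norm_num)]
  simp

theorem lp_norm_sq (f : L2G G) : ‖f‖ ^ 2 = ∑' y, ‖f y‖ ^ 2 := by
  have := lp.norm_rpow_eq_tsum (p := 2) (by norm_num) f
  simpa using this

theorem red_bridge {n m k : ℕ} (d : Free G n →ₗ[ZG G] Free G m) (e : Free G m →ₗ[ZG G] Free G k)
    (h : ReducedL2Vanishes d e) : St.ReducedL2Vanishes (io G) d e := by
  intro φ hφ hd ε hε
  obtain ⟨ha, hs, hq⟩ := hφ
  let φ' : Free G m →+ L2G G := AddMonoidHom.mk'
    (fun x => ⟨φ x, (memlp_iff _).2 (hs x)⟩) (fun x x' => by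
      ext y
      exact ha x x' y)
  obtain ⟨ψ, hψ, hε'⟩ := h φ' (fun g x y => hq g x y) (fun x => by
    ext y
    exact congrFun (hd x) y) (√ε) (Real.sqrt_pos.2 hε)
  refine ⟨fun x y => ψ x y, ⟨fun x x' y => by simp, fun x => (memlp_iff _).1 (ψ x).2,
    fun g x y => hψ g x y⟩, fun i => ?_⟩
  have h1 := lp_norm_sq (φ' (Pi.single i 1) - ψ (e (Pi.single i 1)))
  have h2 : ‖φ' (Pi.single i 1) - ψ (e (Pi.single i 1))‖ ^ 2 < ε := by
    have := hε' i
    calc _ < √ε ^ 2 := by gcongr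
      _ = ε := Real.sq_sqrt hε.le
  rw [h1] at h2
  exact h2

theorem sing_bridge {R : St.Res4 (ZG G)} (h : R.TrivialAction (io G))
    (hv : (ofSt R h).SingerVanishing) : R.SingerVanishing (io G) := by
  have h0 : ReducedL2Vanishes R.d1 (0 : Free G R.n0 →ₗ[ZG G] Free G 0) := hv.1
  have h1 : ReducedL2Vanishes R.d2 R.d1 := hv.2.1
  have h3 : ReducedL2Vanishes R.d4 R.d3 := hv.2.2.1
  have h4 : ReducedL2Vanishes (0 : Free G 0 →ₗ[ZG G] Free G R.n4) R.d4 := hv.2.2.2
  have k0 := red_bridge _ _ h0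
  have k4 := red_bridge _ _ h4
  have e0 : ((0 : Free G R.n0 →ₗ[ZG G] Free G 0) : Free G R.n0 → Free G 0) = fun _ => 0 := rfl
  have e4 : ((0 : Free G 0 →ₗ[ZG G] Free G R.n4) : Free G 0 → Free G R.n4) = fun _ => 0 := rfl
  rw [e0] at k0
  rw [e4] at k4
  exact ⟨k0, red_bridge _ _ h1, red_bridge _ _ h3, k4⟩

theorem st_main (R : St.Res4 (ZG G)) (h : R.TrivialAction (io G)) (hR : R.IsPD4) :
    (R.SubquadraticFilling St.l1 → R.SingerVanishing (io G)) ∧
    (St.LinearlyCombable G → R.SingerVanishing (io G)) ∧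
    (∀ (X : Type v) [MetricSpace X] [MulAction G X] [IsIsometricSMul G X],
      St.IsCAT0 X → St.ProperCobounded G X → R.SingerVanishing (io G)) :=
  ⟨fun hf => sing_bridge h (main_fill _ (ofSt_pd h hR) hf),
    fun hc => sing_bridge h (main_comb _ (ofSt_pd h hR) hc),
    fun _ _ _ _ hX hp => sing_bridge h (main_cat0 _ (ofSt_pd h hR) hX hp)⟩

end Vale.Agent.P239
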