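import Vale.Agent.P239.DFun

/-! Task CapA: splittings versus admissible vertex sets. `F = B.H f` has values in `[0,1]`, finite energy, `hat F = f` a.e.
`exists_adm`: let `g1 = indicator E (f - t/2)^+` (IsD by `Split`), `g2 = (f - t/2)^+ - g1` (IsD), `v1 = H g1`, `v2 = H g2`,
`Y = {x | v2 x < v1 x}`. For a.e. `ξ` with `t < f ξ`: if `ξ ∈ E`, `hat (v1 - v2) ξ = f ξ - t/2 > 0` so `ξ ∈ hatSet Y`; otherwise it is
negative so `ξ ∉ hatSet Y`. Finite cap: `m = min v1 v2` and `r = v1 + v2 - (F - t/2)^+` are bounded, finite energy, with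
`hat = 0` a.e., so square summable (`sqSum_of_hat_zero`), so `|m|, |r| < η = t/20` off a finite set `K` (`v1, v2 ≥ 0`). For a cap edge
with both endpoints off `K`: at an endpoint `v1 + v2 > t/2 - η` and `min < η`, so `|v1 - v2| > t/2 - 3η` at both endpoints
with opposite signs, so the increment of `v1 - v2` is `≥ t/2`: finitely many (`FinEn.finite_edges`); edges with an
endpoint in `K` are finitely many.
`Adm.isD`: representative `u = indicator Y (fun x => max (F x - t) 0)`; off the cap `|du| ≤ |dF|` (if both endpoints are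
on the same side of `Y` clear; otherwise one endpoint has `F ≤ t` so its `(F - t)^+` vanishes); on the cap `|du| ≤ 1`. Use `finEn_of_le` with `v = F`,
`w = 0`, `L = 1`, `M = 1`; `hat_indicator`, `hat_comp₂`, `energy_H_le`.
-/

noncomputable section

open Classical MeasureTheory Filter Topology Set
open scoped Pointwise

namespace Vale.Agent.P239

universe u
variable {G : Type u} [Group G] {S : Finset G} {l : ℕ}

namespace Bdry
variable {B : Bdry S}

theorem capA_finEn₂ {u v : G → ℝ} (hu : FinEn S u) (hv : FinEn S v) {F : ℝ → ℝ → ℝ}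
    (hF : ∀ a b a' b', |F a b - F a' b'| ≤ |a - a'| + |b - b'|) :
    FinEn S (fun x => F (u x) (v x)) := by
  refine (finEn_of_le hu hv (L := 1) (M := 0) zero_le_one Set.finite_empty
    (fun e he => absurd he (Set.notMem_empty e)) fun x s _ _ => ?_).1
  rw [one_mul]
  exact hF _ _ _ _

theorem capA_finite_touch {K : Set G} (hK : K.Finite) :
    {e : G × G | e.2 ∈ S ∧ (e.1 ∈ K ∨ e.1 * e.2 ∈ K)}.Finite := by
  have h1 : (K ×ˢ (S : Set G)).Finite := hK.prod S.finite_toSet
  refine (h1.union (h1.image fun e : G × G => (e.1 * e.2⁻¹, e.2))).subset ?_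
  rintro ⟨x, s⟩ ⟨hs, hx | hx⟩
  · exact Or.inl ⟨hx, hs⟩
  · exact Or.inr ⟨(x * s, s), ⟨hx, hs⟩, by simp⟩

theorem capA_pos_lip (c a a' : ℝ) : |max (a - c) 0 - max (a' - c) 0| ≤ |a - a'| := by
  have h := abs_max_sub_max_le_abs (a - c) (a' - c) 0
  rwa [sub_sub_sub_cancel_right] at h

theorem capA_min_lip (a b a' b' : ℝ) : |min a b - min a' b'| ≤ |a - a'| + |b - b'| := by
  refine (abs_min_sub_min_le_max a b a' b').trans (max_le ?_ ?_)
  · exact le_add_of_nonneg_right (abs_nonneg _)
  · exact le_add_of_nonneg_left (abs_nonneg _)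

theorem Split.exists_adm (hS : Cay S) (hg : Gap S) {f : Bd G → ℝ} (hf : B.IsD01 f)
    {E : Set (Bd G)} (hE : B.Split f E) {t : ℝ} (ht : 0 < t) : ∃ Y, B.Adm f E t Y := by
  have hg0 : B.IsD (fun ξ => max (f ξ - t / 2) 0) :=
    (hf.1.sub (isD_const (t / 2))).max (isD_const 0)
  have hg1 := hE.2 (t / 2) (half_pos ht)
  have hg2 := hg0.sub hg1
  set g1 : Bd G → ℝ := E.indicator fun ξ => max (f ξ - t / 2) 0 with hg1def
  set g2 : Bd G → ℝ := fun ξ => max (f ξ - t / 2) 0 - g1 ξ with hg2def
  have b1 : Bdd (B.H g1) := B.H_bdd hg1.2.1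
  have b2 : Bdd (B.H g2) := B.H_bdd hg2.2.1
  have bF : Bdd (B.H f) := B.H_bdd hf.1.2.1
  have e1 := hg1.finEn hS hg
  have e2 := hg2.finEn hS hg
  have eF := hf.1.finEn hS hg
  have a1 := hg1.hat_H hS hg
  have a2 := hg2.hat_H hS hg
  have aF := hf.1.hat_H hS hg
  have csub : Continuous fun p : ℝ × ℝ => p.1 - p.2 := by fun_prop
  have cadd : Continuous fun p : ℝ × ℝ => p.1 + p.2 := by fun_prop
  have cmin : Continuous fun p : ℝ × ℝ => min p.1 p.2 := by fun_prop
  have cr : Continuous fun p : ℝ × ℝ => p.1 - max (p.2 - t / 2) 0 := by fun_prop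
  have bd : Bdd (fun x => B.H g1 x - B.H g2 x) := b1.comp₂ b2 (F := fun a b => a - b) csub
  have bs : Bdd (fun x => B.H g1 x + B.H g2 x) := b1.comp₂ b2 (F := fun a b => a + b) cadd
  refine ⟨{x | 0 < B.H g1 x - B.H g2 x}, ?_, ?_⟩
  · filter_upwards [a1, a2] with ξ h1 h2 hξ
    have h3 : hat (fun x => B.H g1 x - B.H g2 x) ξ = g1 ξ - g2 ξ := by
      rw [hat_comp₂ b1 b2 (F := fun a b => a - b) csub, h1, h2]
    have h4 : max (f ξ - t / 2) 0 = f ξ - t / 2 := max_eq_left (by linarith)
    by_cases hξE : ξ ∈ E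
    · refine iff_of_true hξE (mem_hatSet_of_lt bd ?_)
      rw [h3, hg2def, hg1def]
      simp only [indicator_of_mem hξE, h4]
      linarith
    · refine iff_of_false hξE (not_mem_hatSet_of_lt bd ?_)
      rw [h3, hg2def, hg1def]
      simp only [indicator_of_notMem hξE, h4]
      linarith
  · have sm : SqSum (fun x => min (B.H g1 x) (B.H g2 x)) := by
      refine sqSum_of_hat_zero (B := B) hS hg (b1.comp₂ b2 (F := fun a b => min a b) cmin)
        (capA_finEn₂ e1 e2 (F := fun a b => min a b) capA_min_lip) ?_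
      filter_upwards [a1, a2] with ξ h1 h2
      rw [hat_comp₂ b1 b2 (F := fun a b => min a b) cmin, h1, h2, hg2def, hg1def]
      by_cases hξE : ξ ∈ E
      · simp only [indicator_of_mem hξE, sub_self]
        exact min_eq_right (le_max_right _ _)
      · simp only [indicator_of_notMem hξE, sub_zero]
        exact min_eq_left (le_max_right _ _)
    have sr : SqSum (fun x => (B.H g1 x + B.H g2 x) - max (B.H f x - t / 2) 0) := by
      refine sqSum_of_hat_zero (B := B) hS hg
        (bs.comp₂ bF (F := fun a b => a - max (b - t / 2) 0) cr)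
        (capA_finEn₂ (e1.add e2) eF (F := fun a b => a - max (b - t / 2) 0) ?_) ?_
      · intro a b a' b'
        have h1 := capA_pos_lip (t / 2) b b'
        have h2 := abs_sub (a - a') (max (b - t / 2) 0 - max (b' - t / 2) 0)
        rw [show a - max (b - t / 2) 0 - (a' - max (b' - t / 2) 0) =
          a - a' - (max (b - t / 2) 0 - max (b' - t / 2) 0) by ring]
        linarith
      · filter_upwards [a1, a2, aF] with ξ h1 h2 h3
        rw [hat_comp₂ bs bF (F := fun a b => a - max (b - t / 2) 0) cr,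
          hat_comp₂ b1 b2 (F := fun a b => a + b) cadd, h1, h2, h3, hg2def]
        ring
    have hη : 0 < t / 20 := by positivity
    have hK := (sm.ncard_le hη).1.union (sr.ncard_le hη).1
    refine ((capA_finite_touch (S := S) hK).union
      ((e1.sub e2).finite_edges (half_pos ht))).subset ?_
    rintro ⟨x, s⟩ ⟨⟨hs, hb⟩, hx, hxs⟩
    by_contra hcon
    simp only [mem_union, mem_ofPred_eq, not_or, not_and, not_le] at hcon hb hx hxs hs
    obtain ⟨h1, h2⟩ := hcon
    obtain ⟨⟨h3, h4⟩, h5, h6⟩ := h1 hs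
    have h7 := h2 hs
    have key : ∀ y, t < B.H f y → |min (B.H g1 y) (B.H g2 y)| < t / 20 →
        |B.H g1 y + B.H g2 y - max (B.H f y - t / 2) 0| < t / 20 →
        (0 < B.H g1 y - B.H g2 y → t / 4 < B.H g1 y - B.H g2 y) ∧
        (¬ 0 < B.H g1 y - B.H g2 y → B.H g1 y - B.H g2 y < - (t / 4)) := by
      intro y hy k1 k2
      rw [max_eq_left (by linarith)] at k2
      have k3 := (abs_lt.1 k1).2
      have k4 := (abs_lt.1 k2).1
      constructor
      · intro k5
        rw [min_eq_right (by linarith)] at k3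
        linarith
      · intro k5
        rw [min_eq_left (by linarith)] at k3
        linarith
    have k1 := key x hx h3 h4
    have k2 := key (x * s) hxs h5 h6
    have h8 := abs_lt.1 h7
    by_cases hp : 0 < B.H g1 x - B.H g2 x
    · have hq : ¬ 0 < B.H g1 (x * s) - B.H g2 (x * s) := fun hq => hb (iff_of_true hp hq)
      linarith [k1.1 hp, k2.2 hq, h8.1]
    · have hq : 0 < B.H g1 (x * s) - B.H g2 (x * s) := by
        by_contra hq
        exact hb (iff_of_false hp hq)
      linarith [k1.2 hp, k2.1 hq, h8.2]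

theorem Adm.isD (hS : Cay S) (hg : Gap S) {f : Bd G → ℝ} (hf : B.IsD01 f) {E : Set (Bd G)}
    (hE : MeasurableSet E) {t : ℝ} (ht : 0 ≤ t) {Y : Set G} (h : B.Adm f E t Y) :
    B.IsD (E.indicator fun ξ => max (f ξ - t) 0) ∧
      energy S (B.H (E.indicator fun ξ => max (f ξ - t) 0)) ≤
        2 * energy S (B.H f) + (cap S (B.H f) t Y).ncard := by
  have bF : Bdd (B.H f) := B.H_bdd hf.1.2.1
  have eF := hf.1.finEn hS hg
  have aF := hf.1.hat_H hS hg
  have hF01 : ∀ x, 0 ≤ B.H f x ∧ B.H f x ≤ 1 := fun x =>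
    B.H_mem_Icc hS hf.1.1 hf.1.2.1 (Eventually.of_forall hf.2) x
  have cp : Continuous fun p : ℝ × ℝ => max (p.1 - t) 0 := by fun_prop
  have bp : Bdd (fun x => max (B.H f x - t) 0) :=
    bF.comp₂ bF (F := fun a _ => max (a - t) 0) cp
  set u : G → ℝ := Y.indicator fun x => max (B.H f x - t) 0 with hu
  have u01 : ∀ x, 0 ≤ u x ∧ u x ≤ 1 := by
    intro x
    by_cases hx : x ∈ Y
    · rw [hu, indicator_of_mem hx]
      exact ⟨le_max_right _ _, max_le (by linarith [(hF01 x).2]) zero_le_one⟩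
    · rw [hu, indicator_of_notMem hx]
      exact ⟨le_rfl, zero_le_one⟩
  have bu : Bdd u := ⟨1, fun x => abs_le.2 ⟨by linarith [(u01 x).1], (u01 x).2⟩⟩
  have hen := finEn_of_le (u := u) eF (finEn_const (S := S) 0) (L := 1) (M := 1) zero_le_one h.2
    (fun e _ => abs_le.2 ⟨by linarith [(u01 (e.1 * e.2)).1, (u01 e.1).2],
      by linarith [(u01 (e.1 * e.2)).2, (u01 e.1).1]⟩) (by
    intro x s hs hcap
    rw [one_mul, sub_self, abs_zero, add_zero]
    refine le_trans ?_ (capA_pos_lip t (B.H f (x * s)) (B.H f x))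
    have n1 : 0 ≤ max (B.H f x - t) 0 := le_max_right _ _
    have n2 : 0 ≤ max (B.H f (x * s) - t) 0 := le_max_right _ _
    by_cases hx : x ∈ Y <;> by_cases hxs : x * s ∈ Y
    · rw [hu, indicator_of_mem hx, indicator_of_mem hxs]
    · rw [hu, indicator_of_mem hx, indicator_of_notMem hxs]
      have hb : (x, s) ∈ edgeBd S Y := ⟨hs, fun hh => hxs (hh.1 hx)⟩
      by_cases h1 : t < B.H f x
      · have h2 : B.H f (x * s) ≤ t := not_lt.1 fun h2 => hcap ⟨hb, h1, h2⟩
        rw [max_eq_right (by linarith : B.H f (x * s) - t ≤ 0)]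
      · rw [max_eq_right (by linarith [not_lt.1 h1] : B.H f x - t ≤ 0), sub_self, abs_zero]
        exact abs_nonneg _
    · rw [hu, indicator_of_notMem hx, indicator_of_mem hxs]
      have hb : (x, s) ∈ edgeBd S Y := ⟨hs, fun hh => hx (hh.2 hxs)⟩
      by_cases h1 : t < B.H f (x * s)
      · have h2 : B.H f x ≤ t := not_lt.1 fun h2 => hcap ⟨hb, h2, h1⟩
        rw [max_eq_right (by linarith : B.H f x - t ≤ 0)]
      · rw [max_eq_right (by linarith [not_lt.1 h1] : B.H f (x * s) - t ≤ 0), sub_self, abs_zero]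
        exact abs_nonneg _
    · rw [hu, indicator_of_notMem hx, indicator_of_notMem hxs, sub_self, abs_zero]
      exact abs_nonneg _)
  have hae : (E.indicator fun ξ => max (f ξ - t) 0) =ᵐ[B.μ 1] hat u := by
    filter_upwards [aF, h.1] with ξ h1 h2
    rw [hu, hat_indicator Y bp]
    have h3 : hat (fun x => max (B.H f x - t) 0) ξ = max (f ξ - t) 0 := by
      rw [hat_comp₂ bF bF (F := fun a _ => max (a - t) 0) cp, h1]
    by_cases h4 : t < f ξ
    · by_cases h5 : ξ ∈ E
      · rw [indicator_of_mem h5, indicator_of_mem ((h2 h4).1 h5), h3]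
      · rw [indicator_of_notMem h5, indicator_of_notMem fun h6 => h5 ((h2 h4).2 h6)]
    · have h5 : max (f ξ - t) 0 = 0 := max_eq_right (by linarith [not_lt.1 h4])
      simp only [indicator_apply, h3, h5, ite_self]
  refine ⟨⟨?_, ?_, u, bu, hen.1, hae⟩, (energy_H_le hS hg bu hen.1 hae).trans ?_⟩
  · exact ((hf.1.1.sub_const t).max measurable_const).indicator hE
  · refine ⟨1, fun ξ => ?_⟩
    by_cases h5 : ξ ∈ E
    · rw [indicator_of_mem h5, abs_of_nonneg (le_max_right _ _)]
      exact max_le (by linarith [(hf.2 ξ).2]) zero_le_one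
    · rw [indicator_of_notMem h5, abs_zero]
      exact zero_le_one
  · have h0 : energy S (fun _ : G => (0 : ℝ)) = 0 := by simp [energy, grad2]
    have h1 := hen.2
    rw [h0] at h1
    linarith

end Bdry

end Vale.Agent.P239
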