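import Vale.Agent.P239.DFun

/-! Task CapB: one improvement step for caps, using `Cofill`.
Let `F = B.H f`, `a = ncard (cap t0 Y)`, `N` = finite set of `y` such that some edge `(y*b, s)`, `b ∈ ball S l`, lies in
`cap t0 Y` (`card N ≤ card (ball S l) * a`). Say `y` straddles `t` if there are `b, b' ∈ ball S (l+1)` with
`F (y*b) ≤ t < F (y*b')`; the set of such `t` lies in an interval of length `≤ osc S (l+1) F y`. Averaging over `t ∈ [t1,t2]`
(Lebesgue measure; or a grid argument): there is `t ∈ [t1,t2]` with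
`n(t) = card {y ∈ N straddling t} ≤ (∑ y ∈ N, osc y) / (t2 - t1) ≤ sqrt (card N) * sqrt (C0 * energy F) / (t2 - t1)` (`osc_sq`, Cauchy-Schwarz).
Put `U = {x | t < F x}` and `c x s = 1` if `x ∉ U`, `x*s ∈ Y ∩ U`; `-1` if `x ∈ Y ∩ U`, `x*s ∉ U`; `0` otherwise.
If `y` does not straddle `t`, `c = 0` on the edges from `y * ball l` (`D = 0`). If `y` straddles `t`, `y ∉ N` and `osc y < t1 - t0`,
all of `y * ball (l+1)` lies in `F > t0`, so membership in `Y` is constant there (`const_on_ball`) and `c` is the gradient of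
`D = indicator U 1` or `D = 0`. So the bad set has at most `n(t) + C0 * energy F / (t1 - t0)^2` points (`SqSum.ncard_le`).
Take `w` from `Cofill`, `W = {x | Odd (w x)}`. The set `symmDiff W (Y ∩ U)` has `edgeBd ⊆ defect ∪ cap t0 Y` (check: on an edge off both, `w (x s) - w x = c x s`
equals the increment of the indicator of `Y ∩ U`), so by `OneEnded` it is finite or cofinite; let `Y' = W` or `Wᶜ` so that
`symmDiff Y' (Y ∩ U)` is finite. A.e. `ξ` is finer than cofinite (`ae_cofinite`), and `t2 < f ξ` gives `ξ ∈ hatSet U`. Finally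
`cap t2 Y' ⊆ defect` (both endpoints in `U`, so `c = 0` while the parity of `w` changes).
-/

noncomputable section

open Classical MeasureTheory Filter Topology Set
open scoped Pointwise

namespace Vale.Agent.P239

universe u
variable {G : Type u} [Group G] {S : Finset G} {l : ℕ}

/-- averaging over levels -/
theorem capB_avg {α : Type*} (N : Finset α) (m r : α → ℝ) (hr : ∀ y, 0 ≤ r y) {t1 t2 : ℝ}
    (h : t1 < t2) : ∃ t ∈ Icc t1 t2,
      ((N.filter fun y => t ∈ Icc (m y - r y) (m y + r y)).card : ℝ)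
        ≤ 2 * (∑ y ∈ N, r y) / (t2 - t1) := by
  have hi : ∀ y, Integrable ((Icc (m y - r y) (m y + r y)).indicator fun _ : ℝ => (1 : ℝ)) :=
    fun y => (integrable_indicator_iff measurableSet_Icc).2 continuous_const.integrableOn_Icc
  have hs : Integrable fun t : ℝ =>
      ∑ y ∈ N, (Icc (m y - r y) (m y + r y)).indicator (fun _ : ℝ => (1 : ℝ)) t :=
    integrable_finset_sum _ fun y _ => hi y
  obtain ⟨t, ht, h1⟩ := exists_le_setAverage (μ := volume) (s := Icc t1 t2)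
    (by simpa using h) (by simp) hs.integrableOn
  refine ⟨t, ht, ?_⟩
  have e1 : ((N.filter fun y => t ∈ Icc (m y - r y) (m y + r y)).card : ℝ)
      = ∑ y ∈ N, (Icc (m y - r y) (m y + r y)).indicator (fun _ : ℝ => (1 : ℝ)) t := by
    rw [Finset.card_filter]
    push_cast
    exact Finset.sum_congr rfl fun y _ => by rw [Set.indicator_apply]
  have h2 : ∫ t in Icc t1 t2, ∑ y ∈ N,
      (Icc (m y - r y) (m y + r y)).indicator (fun _ : ℝ => (1 : ℝ)) t ≤ 2 * ∑ y ∈ N, r y := by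
    refine (setIntegral_le_integral hs (Eventually.of_forall fun t =>
      Finset.sum_nonneg fun y _ => Set.indicator_nonneg (fun _ _ => zero_le_one) t)).trans ?_
    rw [integral_finset_sum _ fun y _ => hi y, Finset.mul_sum]
    refine Finset.sum_le_sum fun y _ => le_of_eq ?_
    rw [integral_indicator measurableSet_Icc, setIntegral_const, smul_eq_mul, mul_one,
      Real.volume_real_Icc_of_le (by linarith [hr y])]
    ring
  rw [setAverage_eq, Real.volume_real_Icc_of_le h.le, smul_eq_mul] at h1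
  rw [e1, div_eq_inv_mul]
  exact h1.trans (mul_le_mul_of_nonneg_left h2 (inv_nonneg.2 (sub_pos.2 h).le))

/-- the edge function that is fed into `Cofill` -/
def capBc (U Y : Set G) (x s : G) : ℤ :=
  if (x ∈ U ↔ x * s ∈ U) then 0
  else (Y ∩ U).indicator (fun _ => 1) (x * s) - (Y ∩ U).indicator (fun _ => 1) x

theorem capBc_abs (U Y : Set G) (x s : G) : |capBc U Y x s| ≤ 1 := by
  simp only [capBc, Set.indicator_apply]
  split_ifs <;> simp

theorem capBc_eq {U Y : Set G} {x s : G} (h : x ∈ U → x * s ∈ U → (x ∈ Y ↔ x * s ∈ Y)) :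
    capBc U Y x s
      = (Y ∩ U).indicator (fun _ => 1) (x * s) - (Y ∩ U).indicator (fun _ => 1) x := by
  rw [capBc]
  split_ifs with h1
  · have h2 : x ∈ Y ∩ U ↔ x * s ∈ Y ∩ U := by
      simp only [mem_inter_iff]
      tauto
    simp only [Set.indicator_apply, h2, sub_self]
  · rfl

theorem capB_bad {F : G → ℝ} {t0 t1 t : ℝ} (ht : t1 ≤ t) {Y : Set G} {N : Finset G}
    (hN : ∀ y, ∀ b ∈ ball S l, ∀ s, (y * b, s) ∈ Bdry.cap S F t0 Y → y ∈ N) :
    {y | ¬ LocExact S l (capBc {x | t < F x} Y) y} ⊆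
      (N.filter fun y => t ∈ Icc (F y - osc S (l + 1) F y) (F y + osc S (l + 1) F y) : Set G)
        ∪ {y | t1 - t0 ≤ |osc S (l + 1) F y|} := by
  intro y hy
  have m1 : ∀ b ∈ ball S l, b ∈ ball S (l + 1) := fun b hb => ball_mono (Nat.le_succ l) hb
  have m2 : ∀ b ∈ ball S l, ∀ s ∈ S, b * s ∈ ball S (l + 1) := fun b hb s hs =>
    mul_mem_ball hb (mem_ball_one hs)
  by_cases h1 : ∃ b ∈ ball S (l + 1), ∃ b' ∈ ball S (l + 1), F (y * b) ≤ t ∧ t < F (y * b')
  · obtain ⟨b1, hb1, b2, hb2, h2, h3⟩ := h1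
    by_contra h4
    rw [mem_union, not_or] at h4
    obtain ⟨h4, h5⟩ := h4
    have h6 : osc S (l + 1) F y < t1 - t0 := lt_of_le_of_lt (le_abs_self _) (not_le.1 h5)
    have h7 : y ∉ N := by
      intro hyN
      refine h4 (Finset.mem_coe.2 (Finset.mem_filter.2 ⟨hyN, ?_, ?_⟩))
      · have := (abs_le.1 (abs_sub_le_osc F y hb1 (one_mem_ball (l + 1)))).1
        rw [mul_one] at this
        linarith
      · have := (abs_le.1 (abs_sub_le_osc F y hb2 (one_mem_ball (l + 1)))).2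
        rw [mul_one] at this
        linarith
    have h8 : ∀ b ∈ ball S (l + 1), t0 < F (y * b) := fun b hb => by
      have := (abs_le.1 (abs_sub_le_osc F y hb hb2)).1
      linarith
    refine hy ⟨(Y ∩ {x | t < F x}).indicator fun _ => 1, fun b hb s hs => capBc_eq fun _ _ => ?_⟩
    by_contra h9
    refine h7 (hN y b hb s ⟨⟨hs, h9⟩, h8 b (m1 b hb), ?_⟩)
    have := h8 _ (m2 b hb s hs)
    rwa [← mul_assoc] at this
  · exfalso
    refine hy ⟨fun _ => 0, fun b hb s hs => ?_⟩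
    rw [capBc, if_pos, sub_self]
    simp only [mem_setOf_eq]
    constructor
    · intro h2
      by_contra h3
      exact h1 ⟨b * s, m2 b hb s hs, b, m1 b hb, by rw [← mul_assoc]; exact not_lt.1 h3, h2⟩
    · intro h2
      by_contra h3
      exact h1 ⟨b, m1 b hb, b * s, m2 b hb s hs, not_lt.1 h3, by rw [← mul_assoc]; exact h2⟩

theorem capB_par (h1 : OneEnded S) {F : G → ℝ} {t0 t : ℝ} (ht : t0 ≤ t) {Y : Set G}
    (hY : (Bdry.cap S F t0 Y).Finite) {w : G → ℤ}
    (hw : (defect S (capBc {x | t < F x} Y) w).Finite) :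
    ∃ k : ℤ, {x | ¬ (Odd (w x + k) ↔ x ∈ Y ∩ {x | t < F x})}.Finite := by
  obtain ⟨D, hD⟩ : ∃ D : G → ℤ, D = (Y ∩ {x | t < F x}).indicator fun _ => 1 := ⟨_, rfl⟩
  have h2 : edgeBd S {x | Odd (w x - D x)} ⊆
      defect S (capBc {x | t < F x} Y) w ∪ Bdry.cap S F t0 Y := by
    rintro ⟨x, s⟩ ⟨hs, he⟩
    by_contra h3
    rw [mem_union, not_or] at h3
    have h4 : capBc {x | t < F x} Y x s = w (x * s) - w x := by
      by_contra h5
      exact h3.1 ⟨hs, h5⟩
    rw [capBc_eq, ← hD] at h4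
    · apply he
      simp only [mem_setOf_eq]
      rw [show w (x * s) - D (x * s) = w x - D x by linarith]
    · intro a1 a2
      by_contra a3
      exact h3.2 ⟨⟨hs, a3⟩, lt_of_le_of_lt ht a1, lt_of_le_of_lt ht a2⟩
  have hD' : ∀ x, (x ∈ Y ∩ {x | t < F x} ∧ D x = 1) ∨ (x ∉ Y ∩ {x | t < F x} ∧ D x = 0) := by
    intro x
    by_cases hx : x ∈ Y ∩ {x | t < F x}
    · exact Or.inl ⟨hx, by rw [hD, Set.indicator_of_mem hx]⟩
    · exact Or.inr ⟨hx, by rw [hD, Set.indicator_of_notMem hx]⟩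
  rcases h1 _ ((hw.union hY).subset h2) with h3 | h3
  · refine ⟨0, h3.subset fun x hx => ?_⟩
    simp only [mem_setOf_eq, Int.odd_iff] at hx ⊢
    rcases hD' x with ⟨a1, a2⟩ | ⟨a1, a2⟩
    · simp only [a1, iff_true] at hx
      omega
    · simp only [a1, iff_false] at hx
      omega
  · refine ⟨1, h3.subset fun x hx => ?_⟩
    simp only [mem_compl_iff, mem_setOf_eq, Int.odd_iff] at hx ⊢
    rcases hD' x with ⟨a1, a2⟩ | ⟨a1, a2⟩
    · simp only [a1, iff_true] at hx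
      omega
    · simp only [a1, iff_false] at hx
      omega

namespace Bdry
variable {B : Bdry S}

theorem cap_step (B : Bdry S) (hH : Hyp S l) {f : Bd G → ℝ} (hf : B.IsD01 f) :
    ∃ C α : ℝ, 0 ≤ C ∧ 1 ≤ α ∧ α < 2 ∧ ∀ (E : Set (Bd G)) (t0 t1 t2 : ℝ) (Y : Set G),
      t0 < t1 → t1 < t2 → B.Adm f E t0 Y →
      ∃ Y', B.Adm f E t2 Y' ∧ ((cap S (B.H f) t2 Y').ncard : ℝ) ≤
        C * (√((cap S (B.H f) t0 Y).ncard : ℝ) / (t2 - t1) + 1 / (t1 - t0) ^ 2) ^ α := by
  obtain ⟨C1, α, hC1, hα1, hα2, hco⟩ := hH.cofill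
  obtain ⟨C0, hC0, hosc⟩ := osc_sq S (l + 1)
  obtain ⟨hsq, hen⟩ := hosc (B.H f) (hf.1.finEn hH.cay hH.gap)
  obtain ⟨K, hK⟩ : ∃ K, K = C0 * energy S (B.H f) := ⟨_, rfl⟩
  have hK0 : 0 ≤ K := hK ▸ mul_nonneg hC0 (energy_nonneg _)
  rw [← hK] at hen
  obtain ⟨M, hM⟩ : ∃ M, M = 2 * √(((ball S l).card : ℝ) * K) + K := ⟨_, rfl⟩
  have hM0 : 0 ≤ M := by rw [hM]; positivity
  refine ⟨C1 * M ^ α, α, by positivity, hα1, hα2, fun E t0 t1 t2 Y h01 h12 hY => ?_⟩
  obtain ⟨N, hN⟩ : ∃ N : Finset G,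
      N = (hY.2.toFinset ×ˢ ball S l).image fun p => p.1.1 * p.2⁻¹ := ⟨_, rfl⟩
  have hN1 : ∀ y, ∀ b ∈ ball S l, ∀ s, (y * b, s) ∈ cap S (B.H f) t0 Y → y ∈ N := by
    intro y b hb s h
    rw [hN, Finset.mem_image]
    exact ⟨((y * b, s), b), Finset.mem_product.2 ⟨hY.2.mem_toFinset.2 h, hb⟩, by simp⟩
  have hN2 : (N.card : ℝ) ≤ (cap S (B.H f) t0 Y).ncard * (ball S l).card := by
    have : N.card ≤ (cap S (B.H f) t0 Y).ncard * (ball S l).card := by
      rw [hN, Set.ncard_eq_toFinset_card _ hY.2, ← Finset.card_product]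
      exact Finset.card_image_le
    exact_mod_cast this
  obtain ⟨t, ht, hnt⟩ := capB_avg N (B.H f) (osc S (l + 1) (B.H f)) (osc_nonneg _ _) h12
  have hsum : ∑ y ∈ N, osc S (l + 1) (B.H f) y
      ≤ √(((ball S l).card : ℝ) * K) * √((cap S (B.H f) t0 Y).ncard : ℝ) := by
    rw [← Real.sqrt_mul (by positivity)]
    refine Real.le_sqrt_of_sq_le (sq_sum_le_card_mul_sum_sq.trans ?_)
    have a1 : ∑ y ∈ N, osc S (l + 1) (B.H f) y ^ 2 ≤ K :=
      (hsq.sum_le_tsum N fun _ _ => sq_nonneg _).trans hen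
    refine (mul_le_mul hN2 a1 (Finset.sum_nonneg fun _ _ => sq_nonneg _) (by positivity)).trans
      (le_of_eq (by ring))
  have hη : 0 < t1 - t0 := sub_pos.2 h01
  have hη' : 0 < t2 - t1 := sub_pos.2 h12
  obtain ⟨b1, b2⟩ := hsq.ncard_le hη
  have hsub := capB_bad (t0 := t0) ht.1 hN1
  have hfin := ((Finset.finite_toSet _).union b1).subset hsub
  obtain ⟨w, hw1, hw2⟩ := hco _ (capBc_abs _ _) hfin
  have hbad : ({y | ¬ LocExact S l (capBc {x | t < B.H f x} Y) y}.ncard : ℝ)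
      ≤ M * (√((cap S (B.H f) t0 Y).ncard : ℝ) / (t2 - t1) + 1 / (t1 - t0) ^ 2) := by
    have a1 := (Set.ncard_le_ncard hsub ((Finset.finite_toSet _).union b1)).trans
      (Set.ncard_union_le _ _)
    rw [Set.ncard_coe_finset] at a1
    have a2 := (Nat.cast_le (α := ℝ)).2 a1
    rw [Nat.cast_add] at a2
    have a3 : ({y | t1 - t0 ≤ |osc S (l + 1) (B.H f) y|}.ncard : ℝ) ≤ K * (1 / (t1 - t0) ^ 2) := by
      rw [mul_one_div, le_div_iff₀ (by positivity)]
      exact b2.trans hen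
    have a4 : 2 * (∑ y ∈ N, osc S (l + 1) (B.H f) y) / (t2 - t1)
        ≤ 2 * √(((ball S l).card : ℝ) * K) * (√((cap S (B.H f) t0 Y).ncard : ℝ) / (t2 - t1)) := by
      rw [← mul_div_assoc]
      refine div_le_div_of_nonneg_right ?_ hη'.le
      linarith
    have a5 : 0 ≤ K * (√((cap S (B.H f) t0 Y).ncard : ℝ) / (t2 - t1)) := by positivity
    have a6 : 0 ≤ 2 * √(((ball S l).card : ℝ) * K) * (1 / (t1 - t0) ^ 2) := by positivity
    rw [hM]
    linarith
  obtain ⟨k, hk⟩ := capB_par hH.one (h01.le.trans ht.1) hY.2 hw1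
  have hcap : cap S (B.H f) t2 {x | Odd (w x + k)} ⊆ defect S (capBc {x | t < B.H f x} Y) w := by
    rintro ⟨x, s⟩ ⟨⟨hs, he⟩, a1, a2⟩
    refine ⟨hs, fun h => he ?_⟩
    have a3 : x ∈ {x | t < B.H f x} ↔ x * s ∈ {x | t < B.H f x} :=
      iff_of_true (lt_of_le_of_lt ht.2 a1) (lt_of_le_of_lt ht.2 a2)
    rw [capBc, if_pos a3] at h
    simp only [mem_setOf_eq] at h ⊢
    rw [show w (x * s) = w x by linarith]
  refine ⟨{x | Odd (w x + k)}, ⟨?_, hw1.subset hcap⟩, ?_⟩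
  · filter_upwards [hY.1, B.ae_cofinite hH.cay, hf.1.hat_H hH.cay hH.gap] with ξ a1 a2 a3 a4
    rw [a1 (by linarith)]
    have a5 : {x | t < B.H f x} ∈ ξ.uf :=
      mem_hatSet_of_lt (B.H_bdd hf.1.2.1) (by rw [a3]; linarith [ht.2])
    have a6 := a2 hk.compl_mem_cofinite
    refine Filter.eventually_congr (f := (ξ.uf : Filter G)) (p := fun x => x ∈ Y)
      (q := fun x => Odd (w x + k)) ?_
    filter_upwards [a5, a6] with x b3 b4
    have b5 : Odd (w x + k) ↔ x ∈ Y ∩ {x | t < B.H f x} := not_not.1 b4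
    rw [b5]
    exact ⟨fun h => ⟨h, b3⟩, fun h => h.1⟩
  · have a1 := (Nat.cast_le (α := ℝ)).2 (Set.ncard_le_ncard hcap hw1)
    refine a1.trans (hw2.trans ?_)
    rw [mul_assoc, ← Real.mul_rpow hM0 (by positivity)]
    exact mul_le_mul_of_nonneg_left
      (Real.rpow_le_rpow (Nat.cast_nonneg _) hbad (by linarith)) hC1

end Bdry

end Vale.Agent.P239
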