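import Vale.Agent.P239.CapA
import Vale.Agent.P239.CapB

/-! Task CapC: the uniform cap bound by iteration.
`iter_bound` is pure real analysis: with `x k = log (a k + 1)` one gets `x k ≤ c0 + c1 * k + γ * x (k+1)` for constants
`c0, c1 ≥ 0` (use `1 + M D^k (a^γ + 1) ≤ 3 M D^k (a+1)^γ`), iterate `n` times: `x 0 ≤ ∑ k < n, γ^k (c0 + c1 k) + γ^n log (A+1)`, let `n → ∞`
(the sum is bounded by a `tsum`, summable). If `A < 0` the hypotheses are contradictory.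
`split_bound`: levels `τ k = t/2 + t / 2^(k+1)` (so `τ 0 = t`, gaps `τ k - τ (k+1) = t / 2^(k+2)`), `a k` = least `ncard` of a cap of
an admissible `Y` at level `τ k` (`Nat.find` or `sInf`; `Adm` at level `t/2` exists by `Split.exists_adm`, and `Adm` at a level implies `Adm`
at higher levels with a smaller cap, so `a k ≤ A`). `cap_step` with `t0 = τ (k+1)`, `t2 = τ k`, `t1` the midpoint gives
`a k ≤ M D^k ((a (k+1))^(α/2) + 1)` with `M, D` depending only on `C, α, t` (use `(x + y)^α ≤ 4 (x^α + y^α)` for `α ≤ 2`). Then `Adm.isD`.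
-/

noncomputable section

open Classical MeasureTheory Filter Topology Set
open scoped Pointwise

namespace Vale.Agent.P239

universe u
variable {G : Type u} [Group G] {S : Finset G} {l : ℕ}

theorem cc_geo {γ : ℝ} (hγ0 : 0 ≤ γ) (hγ : γ < 1) {z : ℕ → ℝ} {A : ℝ} (hA : ∀ k, z k ≤ A)
    (h : ∀ k, z k ≤ γ * z (k + 1)) : z 0 ≤ 0 := by
  have h1 : ∀ n, z 0 ≤ γ ^ n * z n := by
    intro n
    induction n with
    | zero => simp
    | succ n ih =>
      calc z 0 ≤ γ ^ n * z n := ih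
        _ ≤ γ ^ n * (γ * z (n + 1)) := mul_le_mul_of_nonneg_left (h n) (pow_nonneg hγ0 n)
        _ = γ ^ (n + 1) * z (n + 1) := by ring
  have h2 : ∀ n, z 0 ≤ γ ^ n * A := fun n =>
    (h1 n).trans (mul_le_mul_of_nonneg_left (hA n) (pow_nonneg hγ0 n))
  have h3 : Tendsto (fun n : ℕ => γ ^ n * A) atTop (𝓝 (0 * A)) :=
    (tendsto_pow_atTop_nhds_zero_of_lt_one hγ0 hγ).mul_const A
  rw [zero_mul] at h3
  exact ge_of_tendsto' h3 h2

theorem cc_pow {a α : ℝ} (ha : 0 ≤ a) (h1 : 1 ≤ α) (h2 : α < 2) :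
    (√a + 1) ^ α ≤ 4 * (a ^ (α / 2) + 1) := by
  have hs : 0 ≤ √a := Real.sqrt_nonneg a
  have hα : 0 ≤ α := by linarith
  have e1 : √a ^ α = a ^ (α / 2) := by
    rw [Real.sqrt_eq_rpow, ← Real.rpow_mul ha]; congr 1; ring
  have h4 : (2 : ℝ) ^ α ≤ 4 := by
    calc (2 : ℝ) ^ α ≤ (2 : ℝ) ^ (2 : ℝ) := Real.rpow_le_rpow_of_exponent_le (by norm_num) h2.le
      _ = 4 := by norm_num
  have hp : 0 ≤ a ^ (α / 2) := Real.rpow_nonneg ha _
  rcases le_total (√a) 1 with h | h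
  · calc (√a + 1) ^ α ≤ (2 : ℝ) ^ α := Real.rpow_le_rpow (by linarith) (by linarith) hα
      _ ≤ 4 * (a ^ (α / 2) + 1) := by nlinarith
  · calc (√a + 1) ^ α ≤ (2 * √a) ^ α := Real.rpow_le_rpow (by linarith) (by linarith) hα
      _ = (2 : ℝ) ^ α * √a ^ α := Real.mul_rpow (by norm_num) hs
      _ = (2 : ℝ) ^ α * a ^ (α / 2) := by rw [e1]
      _ ≤ 4 * a ^ (α / 2) := mul_le_mul_of_nonneg_right h4 hp
      _ ≤ 4 * (a ^ (α / 2) + 1) := by linarith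

theorem cc_step {C α a δ R : ℝ} (k : ℕ) (hC : 0 ≤ C) (h1 : 1 ≤ α) (h2 : α < 2) (ha : 0 ≤ a)
    (hδ : 0 < δ) (hR : 1 ≤ R) (hδR : 1 / δ ≤ R * 2 ^ k) :
    C * (√a / δ + 1 / δ ^ 2) ^ α ≤ (4 * (C + 1) * R ^ 4) * 16 ^ k * (a ^ (α / 2) + 1) := by
  have hs : 0 ≤ √a := Real.sqrt_nonneg a
  have hα : 0 ≤ α := by linarith
  have h2k : (1 : ℝ) ≤ 2 ^ k := one_le_pow₀ (by norm_num)
  have hQ : (1 : ℝ) ≤ R * 2 ^ k := by nlinarith
  set Q : ℝ := R * 2 ^ k with hQdef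
  have hd0 : 0 ≤ 1 / δ := by positivity
  have hQ2 : (1 : ℝ) ≤ Q ^ 2 := one_le_pow₀ hQ
  have e1 : √a / δ + 1 / δ ^ 2 ≤ Q ^ 2 * (√a + 1) := by
    have a1 : √a / δ = √a * (1 / δ) := by ring
    have a2 : 1 / δ ^ 2 = (1 / δ) ^ 2 := by ring
    have a3 : (1 / δ) ^ 2 ≤ Q ^ 2 := pow_le_pow_left₀ hd0 hδR 2
    have a4 : 1 / δ ≤ Q ^ 2 := by nlinarith
    have a5 : √a * (1 / δ) ≤ √a * Q ^ 2 := mul_le_mul_of_nonneg_left a4 hs
    rw [a1, a2]; nlinarith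
  have e2 : (Q ^ 2) ^ α ≤ R ^ 4 * 16 ^ k := by
    calc (Q ^ 2) ^ α ≤ (Q ^ 2) ^ (2 : ℝ) := Real.rpow_le_rpow_of_exponent_le hQ2 h2.le
      _ = (Q ^ 2) ^ (2 : ℕ) := by rw [← Real.rpow_natCast]; norm_num
      _ = R ^ 4 * (2 ^ 4) ^ k := by rw [hQdef, ← pow_mul 2 4 k, mul_comm 4 k, pow_mul]; ring
      _ = R ^ 4 * 16 ^ k := by norm_num
  have hp : 0 ≤ a ^ (α / 2) := Real.rpow_nonneg ha _
  have e3 : (√a / δ + 1 / δ ^ 2) ^ α ≤ R ^ 4 * 16 ^ k * (4 * (a ^ (α / 2) + 1)) := by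
    calc (√a / δ + 1 / δ ^ 2) ^ α ≤ (Q ^ 2 * (√a + 1)) ^ α :=
          Real.rpow_le_rpow (by positivity) e1 hα
      _ = (Q ^ 2) ^ α * (√a + 1) ^ α := Real.mul_rpow (by positivity) (by positivity)
      _ ≤ R ^ 4 * 16 ^ k * (4 * (a ^ (α / 2) + 1)) :=
          mul_le_mul e2 (cc_pow ha h1 h2) (by positivity) (by positivity)
  have hX : 0 ≤ R ^ 4 * 16 ^ k * (4 * (a ^ (α / 2) + 1)) := by positivity
  calc C * (√a / δ + 1 / δ ^ 2) ^ α ≤ C * (R ^ 4 * 16 ^ k * (4 * (a ^ (α / 2) + 1))) :=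
        mul_le_mul_of_nonneg_left e3 hC
    _ ≤ (C + 1) * (R ^ 4 * 16 ^ k * (4 * (a ^ (α / 2) + 1))) := by nlinarith
    _ = _ := by ring

theorem iter_bound {γ M D : ℝ} (hγ0 : 0 ≤ γ) (hγ : γ < 1) (hM : 1 ≤ M) (hD : 1 ≤ D) :
    ∃ K : ℝ, ∀ (a : ℕ → ℝ) (A : ℝ), (∀ k, 0 ≤ a k) → (∀ k, a k ≤ A) →
      (∀ k, a k ≤ M * D ^ k * (a (k + 1) ^ γ + 1)) → a 0 ≤ K :=
by
  have h1γ : 0 < 1 - γ := by linarith
  have hc0 : 0 ≤ Real.log (3 * M) := Real.log_nonneg (by linarith)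
  have hc1 : 0 ≤ Real.log D := Real.log_nonneg hD
  set q : ℝ := Real.log D / (1 - γ) with hq
  set p : ℝ := (Real.log (3 * M) + γ * q) / (1 - γ) with hp
  have hq0 : 0 ≤ q := div_nonneg hc1 h1γ.le
  have hp0 : 0 ≤ p := div_nonneg (by positivity) h1γ.le
  have eq1 : q * (1 - γ) = Real.log D := div_mul_cancel₀ _ h1γ.ne'
  have eq2 : p * (1 - γ) = Real.log (3 * M) + γ * q := div_mul_cancel₀ _ h1γ.ne'
  refine ⟨Real.exp p, fun a A ha hA hrec => ?_⟩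
  have hx : ∀ k, Real.log (a k + 1) ≤
      Real.log (3 * M) + k * Real.log D + γ * Real.log (a (k + 1) + 1) := by
    intro k
    have hb : 0 < a (k + 1) + 1 := by linarith [ha (k + 1)]
    have hDk : (1 : ℝ) ≤ D ^ k := one_le_pow₀ hD
    have hMD : (1 : ℝ) ≤ M * D ^ k := by nlinarith
    have r1 : a (k + 1) ^ γ ≤ (a (k + 1) + 1) ^ γ :=
      Real.rpow_le_rpow (ha _) (by linarith) hγ0
    have r2 : 1 ≤ (a (k + 1) + 1) ^ γ := Real.one_le_rpow (by linarith [ha (k + 1)]) hγ0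
    have r3 : a k + 1 ≤ 3 * M * D ^ k * (a (k + 1) + 1) ^ γ := by
      have s1 : M * D ^ k * (a (k + 1) ^ γ + 1) ≤ M * D ^ k * (2 * (a (k + 1) + 1) ^ γ) :=
        mul_le_mul_of_nonneg_left (by linarith) (by linarith)
      have s2 : 1 ≤ M * D ^ k * (a (k + 1) + 1) ^ γ := by nlinarith
      have := hrec k
      nlinarith
    calc Real.log (a k + 1) ≤ Real.log (3 * M * D ^ k * (a (k + 1) + 1) ^ γ) :=
          Real.log_le_log (by linarith [ha k]) r3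
      _ = _ := by
          rw [Real.log_mul (by positivity) (by positivity), Real.log_mul (by positivity)
            (by positivity), Real.log_pow, Real.log_rpow hb]
  have hz : (fun k : ℕ => Real.log (a k + 1) - (p + q * k)) 0 ≤ 0 := by
    refine cc_geo (z := fun k : ℕ => Real.log (a k + 1) - (p + q * k))
      (A := Real.log (A + 1)) hγ0 hγ (fun k => ?_) (fun k => ?_)
    · have : Real.log (a k + 1) ≤ Real.log (A + 1) :=
        Real.log_le_log (by linarith [ha k]) (by linarith [hA k])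
      have h2 : 0 ≤ p + q * k := by positivity
      linarith
    · have := hx k
      have e : p + q * k = Real.log (3 * M) + k * Real.log D + γ * (p + q * ((k + 1 : ℕ) : ℝ)) := by
        rw [← eq1]; push_cast; linear_combination eq2
      rw [mul_sub]; linarith
  simp only [Nat.cast_zero, mul_zero, add_zero] at hz
  have h3 : a 0 + 1 ≤ Real.exp p := by
    rw [← Real.log_le_iff_le_exp (by linarith [ha 0])]; linarith
  linarith

namespace Bdry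
variable {B : Bdry S}

theorem cap_mono (F : G → ℝ) {t t' : ℝ} (h : t ≤ t') (Y : Set G) : cap S F t' Y ⊆ cap S F t Y :=
  fun _ he => ⟨he.1, h.trans_lt he.2.1, h.trans_lt he.2.2⟩

theorem Adm.mono {f : Bd G → ℝ} {E : Set (Bd G)} {t t' : ℝ} {Y : Set G} (h : B.Adm f E t Y)
    (ht : t ≤ t') : B.Adm f E t' Y :=
  ⟨h.1.mono fun _ hξ hlt => hξ (ht.trans_lt hlt), h.2.subset (cap_mono _ ht Y)⟩

theorem split_bound (B : Bdry S) (hH : Hyp S l) {f : Bd G → ℝ} (hf : B.IsD01 f) {t : ℝ}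
    (ht : 0 < t) : ∃ K : ℝ, ∀ E, B.Split f E →
      energy S (B.H (E.indicator fun ξ => max (f ξ - t) 0)) ≤ K :=
by
  obtain ⟨C, α, hC, hα1, hα2, hstep⟩ := cap_step B hH hf
  have hR : (1 : ℝ) ≤ 1 + 8 / t := le_add_of_nonneg_right (by positivity)
  have hM : (1 : ℝ) ≤ 4 * (C + 1) * (1 + 8 / t) ^ 4 := by
    have : (1 : ℝ) ≤ (1 + 8 / t) ^ 4 := one_le_pow₀ hR
    nlinarith
  obtain ⟨K, hK⟩ := iter_bound (γ := α / 2) (M := 4 * (C + 1) * (1 + 8 / t) ^ 4) (D := 16)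
    (by linarith) (by linarith) hM (by norm_num)
  refine ⟨2 * energy S (B.H f) + K, fun E hE => ?_⟩
  obtain ⟨Y0, hY0⟩ := Split.exists_adm hH.cay hH.gap hf hE (half_pos ht)
  let τ : ℕ → ℝ := fun k => t / 2 + t / 2 ^ (k + 1)
  have hτ : ∀ k, t / 2 ≤ τ k := fun k => le_add_of_nonneg_right (by positivity)
  let P : ℕ → Set ℕ := fun k =>
    {n | ∃ Y, B.Adm f E (τ k) Y ∧ (cap S (B.H f) (τ k) Y).ncard = n}
  have hPne : ∀ k, (P k).Nonempty := fun k => ⟨_, Y0, hY0.mono (hτ k), rfl⟩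
  have hle : ∀ k Y, B.Adm f E (τ k) Y → sInf (P k) ≤ (cap S (B.H f) (τ k) Y).ncard :=
    fun k Y hY => Nat.sInf_le ⟨Y, hY, rfl⟩
  have hb : ((sInf (P 0) : ℕ) : ℝ) ≤ K := by
    refine hK (fun k => ((sInf (P k) : ℕ) : ℝ)) ((cap S (B.H f) (t / 2) Y0).ncard : ℝ)
      (fun k => Nat.cast_nonneg _) (fun k => ?_) (fun k => ?_)
    · exact Nat.cast_le.2 ((hle k Y0 (hY0.mono (hτ k))).trans
        (Set.ncard_le_ncard (cap_mono _ (hτ k) Y0) hY0.2))
    · obtain ⟨Y, hY, hYn⟩ := Nat.sInf_mem (hPne (k + 1))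
      have hδ : 0 < t / 2 ^ (k + 3) := by positivity
      have e1 : τ k - (τ (k + 1) + t / 2 ^ (k + 3)) = t / 2 ^ (k + 3) := by
        simp only [τ]; field_simp; ring
      have e2 : τ (k + 1) + t / 2 ^ (k + 3) - τ (k + 1) = t / 2 ^ (k + 3) := by ring
      obtain ⟨Y', hY', hc⟩ := hstep E (τ (k + 1)) (τ (k + 1) + t / 2 ^ (k + 3)) (τ k) Y
        (by linarith) (by linarith) hY
      rw [e1, e2, hYn] at hc
      refine ((Nat.cast_le.2 (hle k Y' hY')).trans hc).trans ?_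
      refine cc_step k hC hα1 hα2 (Nat.cast_nonneg _) hδ hR ?_
      have e3 : 1 / (t / 2 ^ (k + 3)) = 8 / t * 2 ^ k := by field_simp; ring
      rw [e3]
      exact mul_le_mul_of_nonneg_right (by linarith) (by positivity)
  obtain ⟨Y, hY, hYn⟩ := Nat.sInf_mem (hPne 0)
  have hτ0 : τ 0 = t := by simp only [τ]; ring
  rw [hτ0] at hY hYn
  have := (Adm.isD hH.cay hH.gap hf hE.1 ht.le hY).2
  rw [hYn] at this
  linarith

end Bdry

end Vale.Agent.P239
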