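import Vale.Agent.P239.Defs

/-! Task Cat0: groups acting geometrically on CAT(0) spaces are linearly combable.
`len g = ⌈dist o (g • o)⌉₊`. Convexity: for geodesics `γ1` from `o` to `x`, `γ2` from `o` to `y`, `dist (γ1 t) (γ2 t) ≤ t * dist x y` (apply the comparison inequality twice; `dist o (γ2 t) = t * dist o y`).
Choose geodesics `γ g` from `o` to `g • o`, `L g = dist o (g • o)`, `t g n = min (n / L g) 1` (any convention when `L g = 0`), points `P g n = γ g (t g n)`; `dist (P g n) (P g (n+1)) ≤ 1`, `dist (P g n) (P h n) ≤ 2 * dist (g • o) (h • o)`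
(`|t g n - t h n| * L h ≤ |L g - L h|`). `σ g 0 = 1`; `σ g n = g` if `1 ≤ n` and `L g ≤ n`; otherwise `σ g n` is an element with `dist (P g n) (σ g n • o) ≤ r`. In all cases `dist (P g n) (σ g n • o) ≤ max r 0`.
-/

noncomputable section

open Classical Filter Topology Set

namespace Vale.Agent.P239

universe u v
variable {G : Type u} [Group G]

theorem cat0_convex {X : Type v} [MetricSpace X] (hX : IsCAT0 X) {o x y : X} {γ1 γ2 : ℝ → X}
    (h1 : IsGeodesic γ1 o x) (h2 : IsGeodesic γ2 o y) {t : ℝ} (ht : t ∈ Set.Icc (0 : ℝ) 1) :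
    dist (γ1 t) (γ2 t) ≤ t * dist x y := by
  have a1 := hX.2 o x (γ2 t) γ1 h1 t ht
  have a2 := hX.2 o y x γ2 h2 t ht
  have a3 : dist (γ2 t) o = t * dist o y := by
    have := h2.2.2 t ht 0 ⟨le_rfl, zero_le_one⟩
    rwa [h2.1, sub_zero, abs_of_nonneg ht.1] at this
  rw [a3, dist_comm (γ2 t) x, dist_comm (γ2 t) (γ1 t)] at a1
  rw [dist_comm x o] at a2
  have a4 := mul_le_mul_of_nonneg_left a2 ht.1
  refine le_of_sq_le_sq ?_ (mul_nonneg ht.1 dist_nonneg)
  nlinarith

theorem combable_of_cat0 {X : Type v} [MetricSpace X] [MulAction G X] [IsIsometricSMul G X]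
    (hX : IsCAT0 X) (h : ProperCobounded G X) : LinearlyCombable G := by
  obtain ⟨o, hfin, r, hr⟩ := h
  choose γ hγ using fun g : G => hX.1 o (g • o)
  choose near hnear using hr
  set L : G → ℝ := fun g => dist o (g • o) with hL
  have L0 : ∀ g, 0 ≤ L g := fun g => dist_nonneg
  have Ld : ∀ a b : G, L (a⁻¹ * b) = dist (a • o) (b • o) := by
    intro a b
    rw [hL]
    simp only
    rw [← dist_smul a o, ← mul_smul, mul_inv_cancel_left]
  set s : G → ℕ → ℝ := fun g n => min (n : ℝ) (L g) with hs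
  set t : G → ℕ → ℝ := fun g n => s g n / L g with ht
  have tL : ∀ g n, t g n * L g = s g n := by
    intro g n
    by_cases h0 : L g = 0
    · rw [h0, mul_zero, hs]
      simp only
      rw [h0, min_eq_right (Nat.cast_nonneg n)]
    · exact div_mul_cancel₀ _ h0
  have t01 : ∀ g n, t g n ∈ Set.Icc (0 : ℝ) 1 := fun g n =>
    ⟨div_nonneg (le_min (Nat.cast_nonneg n) (L0 g)) (L0 g),
      div_le_one_of_le₀ (min_le_right _ _) (L0 g)⟩
  have hd : ∀ g, ∀ a ∈ Set.Icc (0 : ℝ) 1, ∀ b ∈ Set.Icc (0 : ℝ) 1,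
      dist (γ g a) (γ g b) = |a * L g - b * L g| := by
    intro g a ha b hb
    rw [(hγ g).2.2 a ha b hb, ← sub_mul, abs_mul, abs_of_nonneg (L0 g)]
  have step : ∀ g n, dist (γ g (t g n)) (γ g (t g (n + 1))) ≤ 1 := by
    intro g n
    rw [hd g _ (t01 g n) _ (t01 g _), tL, tL, hs]
    refine (abs_min_sub_min_le_max _ _ _ _).trans (max_le ?_ ?_)
    · push_cast
      rw [sub_add_cancel_left, abs_neg, abs_one]
    · rw [sub_self, abs_zero]
      exact zero_le_one
  have fellow : ∀ g h n, dist (γ g (t g n)) (γ h (t h n)) ≤ 3 * dist (g • o) (h • o) := by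
    intro g h n
    have c0 : 0 ≤ dist (g • o) (h • o) := dist_nonneg
    have a1 := cat0_convex hX (hγ g) (hγ h) (t01 g n)
    have a2 : t g n * dist (g • o) (h • o) ≤ dist (g • o) (h • o) :=
      mul_le_of_le_one_left c0 (t01 g n).2
    have a3 : |L g - L h| ≤ dist (g • o) (h • o) := by
      have := abs_dist_sub_le (g • o) (h • o) o
      rwa [dist_comm (g • o) o, dist_comm (h • o) o] at this
    have a4 : |s g n - s h n| ≤ dist (g • o) (h • o) := by
      refine (abs_min_sub_min_le_max _ _ _ _).trans (max_le ?_ a3)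
      rw [sub_self, abs_zero]
      exact c0
    have a5 : |t g n * (L g - L h)| ≤ dist (g • o) (h • o) := by
      rw [abs_mul, abs_of_nonneg (t01 g n).1]
      exact (mul_le_of_le_one_left (abs_nonneg _) (t01 g n).2).trans a3
    have a6 : dist (γ h (t g n)) (γ h (t h n)) ≤ 2 * dist (g • o) (h • o) := by
      rw [hd h _ (t01 g n) _ (t01 h n), tL,
        show t g n * L h - s h n = (s g n - s h n) - t g n * (L g - L h) by rw [← tL g n]; ring]
      have := abs_sub (s g n - s h n) (t g n * (L g - L h))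
      linarith
    have := dist_triangle (γ g (t g n)) (γ h (t g n)) (γ h (t h n))
    linarith
  set σ : G → ℕ → G := fun g n => if n = 0 then 1 else if L g ≤ n then g else near (γ g (t g n))
    with hσ
  have close : ∀ g n, dist (γ g (t g n)) (σ g n • o) ≤ max r 0 := by
    intro g n
    rw [hσ]
    simp only
    split_ifs with h0 h1
    · subst h0
      have : t g 0 = 0 := by
        rw [ht, hs]
        simp only
        rw [Nat.cast_zero, min_eq_left (L0 g), zero_div]
      rw [this, (hγ g).1, one_smul, dist_self]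
      exact le_max_right _ _
    · have a1 := hd g _ (t01 g n) 1 ⟨zero_le_one, le_rfl⟩
      rw [(hγ g).2.1, tL, one_mul, hs] at a1
      simp only at a1
      rw [min_eq_right h1, sub_self, abs_zero] at a1
      rw [a1]
      exact le_max_right _ _
    · exact (hnear _).trans (le_max_left _ _)
  have hK : 2 * max r 0 ≤ (⌈2 * max r 0⌉₊ : ℝ) := Nat.le_ceil _
  refine ⟨fun g => ⌈L g⌉₊, σ, ⌈2 * max r 0⌉₊ + 3, ?_, ?_, ?_, ?_, ?_, ?_, ?_⟩
  · intro g h
    refine le_trans (Nat.ceil_mono ?_) (Nat.ceil_add_le _ _)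
    have a1 := dist_triangle o (g • o) ((g * h) • o)
    have a2 := Ld g (g * h)
    rw [inv_mul_cancel_left] at a2
    rw [a2]
    exact a1
  · intro g
    have a2 := Ld g 1
    rw [mul_one, one_smul, dist_comm] at a2
    simp only
    rw [a2]
  · intro n
    exact (hfin n).subset fun g hg => Nat.ceil_le.1 hg
  · intro g
    rw [hσ]
    simp
  · intro g n hn
    simp only at hn
    have a1 : n ≠ 0 := by omega
    have a2 : ⌈L g⌉₊ ≤ n := by nlinarith
    rw [hσ]
    simp only
    rw [if_neg a1, if_pos (Nat.ceil_le.1 a2)]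
  · intro g n
    refine Nat.ceil_le.2 ?_
    rw [Ld]
    have a1 := dist_triangle4 (σ g n • o) (γ g (t g n)) (γ g (t g (n + 1))) (σ g (n + 1) • o)
    rw [dist_comm (σ g n • o) (γ g (t g n))] at a1
    have a2 := close g n
    have a3 := close g (n + 1)
    have a4 := step g n
    push_cast
    linarith
  · intro g h n
    refine Nat.ceil_le.2 ?_
    rw [Ld]
    have a1 := dist_triangle4 (σ g n • o) (γ g (t g n)) (γ h (t h n)) (σ h n • o)
    rw [dist_comm (σ g n • o) (γ g (t g n))] at a1
    have a2 := close g n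
    have a3 := close h n
    have a4 := fellow g h n
    have a5 : dist (g • o) (h • o) ≤ (⌈L (g⁻¹ * h)⌉₊ : ℝ) := by
      rw [← Ld]
      exact Nat.le_ceil _
    have a6 : (0 : ℝ) ≤ (⌈2 * max r 0⌉₊ : ℝ) * (⌈L (g⁻¹ * h)⌉₊ : ℝ) := by positivity
    push_cast
    nlinarith

end Vale.Agent.P239
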