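import Vale.Agent.P239.Ball

/-! Task Cheeger: either Folner sets exist or the Poincare inequality holds.
Plan: suppose not Folner: there is `ε > 0` with `ε * card F < ncard (edgeBd F)` for all nonempty
finite `F`. Coarea for finitely supported `f ≥ 0`: `ε * ∑ f ≤ ∑ x, ∑ s ∈ S, |f (x*s) - f x|`
(induction on the number of values / card of the support: subtract the minimum positive value
times the indicator of the support; or integrate over levels). Apply to `f = p^2`:
`|p a ^2 - p b ^2| = |p a - p b| * |p a + p b|`, AM-GM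
`≤ (1/(2δ)) (p a - p b)^2 + δ (p a ^2 + p b ^2)`, choose `δ = ε / (4 card S)`.
Extend from finitely supported `p` to `SqSum p` by truncation `p_η = sign p * (|p| - η)^+`
(finitely supported, 1-Lipschitz image of `p` so energy does not increase, monotone limit).
-/

noncomputable section

open Classical MeasureTheory Filter Topology Set
open scoped Pointwise

namespace Vale.Agent.P239

universe u
variable {G : Type u} [Group G] {S : Finset G}

/-- Total variation over the edges starting in `W`. -/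
def cheegerV (S W : Finset G) (f : G → ℝ) : ℝ := ∑ x ∈ W, ∑ s ∈ S, |f (x * s) - f x|

theorem cheeger_ind (W F : Finset G) (hW : ∀ x, ∀ s ∈ S, x ∈ F ∨ x * s ∈ F → x ∈ W) :
    ((edgeBd S (F : Set G)).ncard : ℝ) ≤ cheegerV S W fun x => if x ∈ F then 1 else 0 := by
  have h1 : edgeBd S (F : Set G) ⊆
      ((W ×ˢ S).filter fun e : G × G => ¬ (e.1 ∈ F ↔ e.1 * e.2 ∈ F) : Finset (G × G)) := by
    rintro ⟨x, s⟩ ⟨hs, he⟩
    simp only [Finset.mem_coe] at he
    refine Finset.mem_coe.2 (Finset.mem_filter.2 ⟨Finset.mem_product.2 ⟨hW x s hs ?_, hs⟩, he⟩)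
    tauto
  have h2 := Set.ncard_le_ncard h1 (Finset.finite_toSet _)
  rw [Set.ncard_coe_finset] at h2
  refine le_trans (Nat.cast_le.2 h2) (le_of_eq ?_)
  rw [Finset.card_filter, Finset.sum_product]
  push_cast
  refine Finset.sum_congr rfl fun x _ => Finset.sum_congr rfl fun s _ => ?_
  by_cases hx : x ∈ F <;> by_cases hy : x * s ∈ F <;> simp [hx, hy]

theorem cheeger_coarea {ε : ℝ}
    (hε : ∀ F : Finset G, F.Nonempty → ε * F.card ≤ ((edgeBd S (F : Set G)).ncard : ℝ))
    (W : Finset G) (n : ℕ) : ∀ (T : Finset G) (f : G → ℝ), T.card ≤ n →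
      (∀ x, ∀ s ∈ S, x ∈ T ∨ x * s ∈ T → x ∈ W) → (∀ x, 0 ≤ f x) → (∀ x, x ∉ T → f x = 0) →
      ε * ∑ x ∈ T, f x ≤ cheegerV S W f := by
  have hV : ∀ f : G → ℝ, 0 ≤ cheegerV S W f := fun f =>
    Finset.sum_nonneg fun _ _ => Finset.sum_nonneg fun _ _ => abs_nonneg _
  induction n with
  | zero =>
    intro T f hT _ _ _
    rw [Finset.card_eq_zero.1 (Nat.le_zero.1 hT)]
    simpa using hV f
  | succ n ih =>
    intro T f hT hW hf h0
    rcases T.eq_empty_or_nonempty with rfl | hne
    · simpa using hV f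
    obtain ⟨a, ha, hmin⟩ := T.exists_min_image f hne
    set g : G → ℝ := fun x => f x - f a * if x ∈ T then 1 else 0 with hg
    have hg0 : ∀ x, 0 ≤ g x := fun x => by
      by_cases hx : x ∈ T
      · simp only [hg, hx, if_true]; linarith [hmin x hx]
      · simp only [hg, hx, if_false]; linarith [hf x]
    have h1 := ih (T.erase a) g (by rw [Finset.card_erase_of_mem ha]; omega)
      (fun x s hs h => hW x s hs (h.imp Finset.mem_of_mem_erase Finset.mem_of_mem_erase)) hg0
      (fun x hx => by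
        by_cases hxT : x ∈ T
        · have : x = a := by
            by_contra hxa
            exact hx (Finset.mem_erase.2 ⟨hxa, hxT⟩)
          simp [hg, this, ha]
        · simp [hg, hxT, h0 x hxT])
    have h2 : ∑ x ∈ T, f x = ∑ x ∈ T.erase a, g x + f a * T.card := by
      rw [Finset.sum_erase _ (by simp [hg, ha])]
      have : ∑ x ∈ T, g x = ∑ x ∈ T, (f x - f a) :=
        Finset.sum_congr rfl fun x hx => by simp [hg, hx]
      rw [this, Finset.sum_sub_distrib]
      simp [mul_comm]
    have h3 : cheegerV S W f =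
        cheegerV S W g + f a * cheegerV S W fun x => if x ∈ T then 1 else 0 := by
      unfold cheegerV
      rw [Finset.mul_sum, ← Finset.sum_add_distrib]
      refine Finset.sum_congr rfl fun x _ => ?_
      rw [Finset.mul_sum, ← Finset.sum_add_distrib]
      refine Finset.sum_congr rfl fun s _ => ?_
      by_cases hx : x ∈ T <;> by_cases hy : x * s ∈ T
      · simp [hg, hx, hy]
      · have := hmin x hx
        simp only [hg, hx, hy, h0 _ hy, if_true, if_false]
        rw [abs_of_nonpos (by linarith [hf x]), abs_of_nonpos (by linarith)]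
        simp
      · have := hmin _ hy
        simp only [hg, hx, hy, h0 _ hx, if_true, if_false]
        rw [abs_of_nonneg (by linarith [hf (x * s)]), abs_of_nonneg (by linarith)]
        simp
      · simp [hg, hx, hy]
    have h4 := mul_le_mul_of_nonneg_left ((hε T hne).trans (cheeger_ind W T hW)) (hf a)
    rw [h2, h3]
    linarith

theorem cheeger_V_le {p : G → ℝ} (hp : SqSum p) {δ : ℝ} (hδ : 0 < δ) (W : Finset G) :
    cheegerV S W (fun x => p x ^ 2) ≤
      1 / (2 * δ) * energy S p + 2 * δ * S.card * ∑' x, p x ^ 2 := by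
  have h1 : cheegerV S W (fun x => p x ^ 2) ≤ ∑ x ∈ W, ∑ s ∈ S,
      (1 / (2 * δ) * (p (x * s) - p x) ^ 2 + δ * p (x * s) ^ 2 + δ * p x ^ 2) := by
    refine Finset.sum_le_sum fun x _ => Finset.sum_le_sum fun s _ => ?_
    set a := p (x * s)
    set b := p x
    have h2 : 1 / (2 * δ) * (a - b) ^ 2 = ((a - b) / δ) ^ 2 * δ / 2 := by field_simp
    have h3 : a ^ 2 - b ^ 2 = (a - b) / δ * (a + b) * δ := by field_simp; ring
    rw [h2, h3, abs_le]
    set c := (a - b) / δ
    constructor
    · nlinarith [mul_nonneg (sq_nonneg (c + (a + b))) hδ.le, mul_nonneg (sq_nonneg (a - b)) hδ.le]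
    · nlinarith [mul_nonneg (sq_nonneg (c - (a + b))) hδ.le, mul_nonneg (sq_nonneg (a - b)) hδ.le]
  have h2 : ∑ x ∈ W, grad2 S p x ≤ energy S p :=
    (hp.finEn (S := S)).sum_le_tsum W fun x _ => grad2_nonneg p x
  have h3 : ∑ x ∈ W, p x ^ 2 ≤ ∑' x, p x ^ 2 := Summable.sum_le_tsum W (fun x _ => sq_nonneg _) hp
  have h4 : ∀ s : G, ∑ x ∈ W, p (x * s) ^ 2 ≤ ∑' x, p x ^ 2 := fun s => by
    have h5 := Summable.sum_le_tsum (W.image fun x => x * s) (fun x _ => sq_nonneg (p x)) hp
    rwa [Finset.sum_image fun x _ y _ h => mul_right_cancel h] at h5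
  have h5 : ∑ x ∈ W, ∑ s ∈ S, p (x * s) ^ 2 ≤ S.card * ∑' x, p x ^ 2 := by
    rw [Finset.sum_comm, ← nsmul_eq_mul, ← Finset.sum_const]
    exact Finset.sum_le_sum fun s _ => h4 s
  have h6 : ∑ x ∈ W, ∑ _s ∈ S, p x ^ 2 ≤ S.card * ∑' x, p x ^ 2 := by
    rw [Finset.sum_comm, ← nsmul_eq_mul, ← Finset.sum_const]
    exact Finset.sum_le_sum fun s _ => h3
  simp only [Finset.sum_add_distrib, ← Finset.mul_sum] at h1
  unfold grad2 at h2
  have h7 := mul_le_mul_of_nonneg_left h2 (show 0 ≤ 1 / (2 * δ) by positivity)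
  have h8 := mul_le_mul_of_nonneg_left h5 hδ.le
  have h9 := mul_le_mul_of_nonneg_left h6 hδ.le
  linarith

theorem Cay.folner_or_gap (hS : Cay S) : Folner S ∨ Gap S := by
  by_cases hF : Folner S
  · exact Or.inl hF
  right
  unfold Folner at hF
  push Not at hF
  obtain ⟨ε, hε, hF⟩ := hF
  have hc : (0 : ℝ) < S.card := by exact_mod_cast hS.card_pos
  set δ := ε / (4 * S.card) with hδdef
  have hδ : 0 < δ := by positivity
  refine ⟨1 / (ε * δ), by positivity, fun p hp => ?_⟩
  set V := 1 / (2 * δ) * energy S p + 2 * δ * S.card * ∑' x, p x ^ 2 with hV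
  have key : ∀ (T : Finset G) (η : ℝ), 0 < η →
      ε * ∑ x ∈ T, p x ^ 2 ≤ V + η ^ 2 * (ε * T.card) := by
    intro T η hη
    obtain ⟨hfin, -⟩ := hp.ncard_le hη
    set U := T ∪ hfin.toFinset with hU
    set W := U ∪ (U ×ˢ S).image fun e : G × G => e.1 * e.2⁻¹ with hW
    have h1 := cheeger_coarea (fun F hF' => (hF F hF').le) W U.card U
      (fun x => max (p x ^ 2 - η ^ 2) 0) le_rfl
      (fun x s hs h => by
        rcases h with h | h
        · exact Finset.mem_union_left _ h
        · exact Finset.mem_union_right _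
            (Finset.mem_image.2 ⟨(x * s, s), Finset.mem_product.2 ⟨h, hs⟩, by simp⟩))
      (fun x => le_max_right _ _)
      (fun x hx => by
        have h2 : ¬ η ≤ |p x| := fun h => hx (Finset.mem_union_right _ (hfin.mem_toFinset.2 h))
        refine max_eq_right ?_
        have h3 := sq_lt_sq.2 ((not_le.1 h2).trans_le (le_abs_self η))
        linarith)
    have h2 : cheegerV S W (fun x => max (p x ^ 2 - η ^ 2) 0) ≤ cheegerV S W fun x => p x ^ 2 := by
      refine Finset.sum_le_sum fun x _ => Finset.sum_le_sum fun s _ => ?_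
      refine (abs_max_sub_max_le_abs _ _ _).trans (le_of_eq ?_)
      rw [sub_sub_sub_cancel_right]
    have h3 : ∑ x ∈ T, (p x ^ 2 - η ^ 2) ≤ ∑ x ∈ U, max (p x ^ 2 - η ^ 2) 0 :=
      (Finset.sum_le_sum fun x _ => le_max_left _ _).trans
        (Finset.sum_le_sum_of_subset_of_nonneg Finset.subset_union_left
          fun x _ _ => le_max_right _ _)
    rw [Finset.sum_sub_distrib, Finset.sum_const, nsmul_eq_mul] at h3
    have h4 := cheeger_V_le (S := S) hp hδ W
    have h5 := mul_le_mul_of_nonneg_left h3 hε.le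
    linarith
  have key2 : ∀ T : Finset G, ∑ x ∈ T, p x ^ 2 ≤ V / ε := by
    intro T
    rw [le_div_iff₀ hε, mul_comm]
    have h1 : Tendsto (fun η : ℝ => V + η ^ 2 * (ε * T.card)) (𝓝[>] 0)
        (𝓝 (V + 0 ^ 2 * (ε * T.card))) :=
      (Continuous.tendsto (by fun_prop) 0).mono_left nhdsWithin_le_nhds
    have h2 := ge_of_tendsto h1 (eventually_nhdsWithin_of_forall fun η hη => key T η hη)
    simpa using h2
  have h1 : ∑' x, p x ^ 2 ≤ V / ε := Summable.tsum_le_of_sum_le hp key2
  rw [le_div_iff₀ hε] at h1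
  have h2 : 2 * δ * S.card = ε / 2 := by rw [hδdef]; field_simp; norm_num
  rw [hV, h2] at h1
  have h3 : 1 / (ε * δ) * energy S p = 1 / (2 * δ) * energy S p * 2 / ε := by field_simp
  rw [h3, le_div_iff₀ hε]
  linarith

end Vale.Agent.P239
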