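import Vale.Agent.P239.CxLift

/-! Cone inequalities from a combing. Chains of bounded mass and bounded support have uniformly bounded fillings
(finitely many up to translation). So over every coarse Lipschitz map `a : G → G` there is a chain map of `F` (not equivariant)
sending basis elements to chains of bounded mass near `a g`, and two such maps over close `a`, `b` are homotopic with the same control.
For `a n g = x * σ (x⁻¹ g) n` start with the chain map `z ↦ aug z • tr x v`, end with the identity, and add the homotopies.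
-/

noncomputable section

open Classical Filter Topology Set

namespace Vale.Agent.P239

universe u
variable {G : Type u} [Group G] {S : Finset G} {n0 n1 n2 n3 n4 : ℕ}

section
variable {ι κ μ : Type} {len : G → ℕ}

/-- Chains of mass at most `k` supported within `k` of `x`. -/
def ConeGd (len : G → ℕ) (x : G) (k : ℕ) (z : Ch G ι) : Prop := ms z ≤ k ∧ Within len x k z

/-- Control of an additive map over `a` on the ball of radius `R` about `x`. -/
def ConeCtl (len : G → ℕ) (x : G) (R : ℕ) (a : G → G) (k : ℕ) (f : Ch G ι →+ Ch G κ) : Prop :=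
  ∀ p : G × ι, len (x⁻¹ * p.1) ≤ R → ConeGd len (a p.1) k (f (bs p))

theorem ConeGd.mono {x : G} {k k' : ℕ} {z : Ch G ι} (h : ConeGd len x k z) (hk : k ≤ k') :
    ConeGd len x k' z := ⟨h.1.trans hk, fun p hp => (h.2 p hp).trans hk⟩

theorem ConeGd.sub {x : G} {k k' : ℕ} {z w : Ch G ι} (h : ConeGd len x k z)
    (h' : ConeGd len x k' w) : ConeGd len x (k + k') (z - w) := by
  refine ⟨(ms_sub_le z w).trans (add_le_add h.1 h'.1), fun p hp => ?_⟩
  rcases Finset.mem_union.1 (Finsupp.support_sub hp) with h1 | h1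
  · exact (h.2 p h1).trans (Nat.le_add_right _ _)
  · exact (h'.2 p h1).trans (Nat.le_add_left _ _)

theorem ConeGd.move (hl : IsLen len) {x x' : G} {k m : ℕ} {z : Ch G ι} (h : ConeGd len x k z)
    (hx : len (x'⁻¹ * x) ≤ m) : ConeGd len x' (k + m) z := by
  refine ⟨h.1.trans (Nat.le_add_right _ _), fun p hp => ?_⟩
  have h1 := hl.mul (x'⁻¹ * x) (x⁻¹ * p.1)
  rw [show x'⁻¹ * x * (x⁻¹ * p.1) = x'⁻¹ * p.1 by group] at h1
  have h2 := h.2 p hp
  omega

theorem ConeGd.tr {x : G} {k : ℕ} {z : Ch G ι} (h : ConeGd len x k z) (g : G) :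
    ConeGd len (g * x) k (tr g z) := by
  refine ⟨(ms_tr g z).trans_le h.1, fun p hp => ?_⟩
  rw [Finsupp.mem_support_iff, tr_apply] at hp
  have h1 := h.2 _ (Finsupp.mem_support_iff.2 hp)
  rwa [mul_inv_rev, mul_assoc]

theorem cone_exists_gd (len : G → ℕ) (z : Ch G ι) : ∃ k, ConeGd len 1 k z :=
  ⟨ms z + z.support.sup fun p => len (1⁻¹ * p.1), Nat.le_add_right _ _, fun _ hp =>
    (Finset.le_sup (f := fun p : G × ι => len (1⁻¹ * p.1)) hp).trans (Nat.le_add_left _ _)⟩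

theorem cone_gd_bs (p : G × ι) : ConeGd len p.1 (1 + len 1) (bs p) := by
  refine ⟨by rw [ms_single]; simp, fun q hq => ?_⟩
  rw [Finset.mem_singleton.1 (Finsupp.support_single_subset hq), inv_mul_cancel]
  omega

theorem cone_finite [Finite ι] (hl : IsLen len) (k : ℕ) :
    {z : Ch G ι | ConeGd len 1 k z}.Finite := by
  have h1 : ({g | len g ≤ k} ×ˢ (univ : Set ι)).Finite := (hl.fin k).prod finite_univ
  refine (h1.toFinset.finsupp fun _ => Finset.Icc (-(k : ℤ)) k).finite_toSet.subset fun z hz => ?_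
  refine Finset.mem_coe.2 (Finset.mem_finsupp_iff.2 ⟨fun p hp => h1.mem_toFinset.2 ⟨?_, trivial⟩,
    fun p _ => ?_⟩)
  · have := hz.2 p hp
    rwa [inv_one, one_mul] at this
  · have h2 : (z p).natAbs ≤ ms z := by
      by_cases hp : p ∈ z.support
      · exact Finset.single_le_sum (f := fun p => (z p).natAbs) (fun _ _ => Nat.zero_le _) hp
      · rw [Finsupp.notMem_support_iff.1 hp]; exact Nat.zero_le _
    have h3 := hz.1
    rw [Finset.mem_Icc]
    omega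

theorem cone_fill [Finite μ] (hl : IsLen len) {d : Ch G κ →+ Ch G μ} (hd : Eqv d) (k : ℕ) :
    ∃ k', ∀ x z, (∃ y, d y = z) → ConeGd len x k z → ∃ y, d y = z ∧ ConeGd len x k' y := by
  have h1 : ∀ z : Ch G μ, ∃ k', (∃ y, d y = z) → ∃ y, d y = z ∧ ConeGd len 1 k' y := by
    intro z
    by_cases h : ∃ y, d y = z
    · obtain ⟨y, hy⟩ := h
      obtain ⟨k', hk'⟩ := cone_exists_gd len y
      exact ⟨k', fun _ => ⟨y, hy, hk'⟩⟩
    · exact ⟨0, fun h' => absurd h' h⟩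
  choose c hc using h1
  refine ⟨(cone_finite (ι := μ) hl k).toFinset.sup c, fun x z ⟨y, hy⟩ hz => ?_⟩
  have h2 := hz.tr x⁻¹
  rw [inv_mul_cancel] at h2
  obtain ⟨w, hw, hw'⟩ := hc (tr x⁻¹ z) ⟨tr x⁻¹ y, by rw [hd, hy]⟩
  refine ⟨tr x w, by rw [hd, hw, ← tr_mul, mul_inv_cancel, tr_one], ?_⟩
  have h3 := (hw'.mono (Finset.le_sup (f := c) ((cone_finite hl k).mem_toFinset.2 h2))).tr x
  rwa [mul_one] at h3

theorem cone_lift [Finite μ] (hl : IsLen len) {d : Ch G κ →+ Ch G μ} (hd : Eqv d) (ι : Type)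
    (k : ℕ) : ∃ k', ∀ (x : G) (R : ℕ) (a : G → G) (f : Ch G ι →+ Ch G μ), (∀ z, ∃ y, d y = f z) →
      ConeCtl len x R a k f → ∃ Φ : Ch G ι →+ Ch G κ, (∀ z, d (Φ z) = f z) ∧
        ConeCtl len x R a k' Φ := by
  obtain ⟨k', h⟩ := cone_fill hl hd k
  refine ⟨k', fun x R a f hf hc => ?_⟩
  have h1 : ∀ p : G × ι, ∃ y, d y = f (bs p) ∧ (len (x⁻¹ * p.1) ≤ R → ConeGd len (a p.1) k' y) := by
    intro p
    by_cases hp : len (x⁻¹ * p.1) ≤ R
    · obtain ⟨y, hy, hy'⟩ := h _ _ (hf _) (hc p hp)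
      exact ⟨y, hy, fun _ => hy'⟩
    · obtain ⟨y, hy⟩ := hf (bs p)
      exact ⟨y, hy, fun h => absurd h hp⟩
  choose y hy hy' using h1
  have h2 : ∀ p, (Finsupp.liftAddHom fun p => zmultiplesHom (Ch G κ) (y p)) (bs p) = y p := by
    intro p
    simp
  refine ⟨Finsupp.liftAddHom fun p => zmultiplesHom (Ch G κ) (y p), fun z => ?_, fun p hp => ?_⟩
  · have h3 : d.comp (Finsupp.liftAddHom fun p => zmultiplesHom (Ch G κ) (y p)) = f :=
      hom_ext_bs fun p => by rw [AddMonoidHom.comp_apply, h2, hy]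
    exact DFunLike.congr_fun h3 z
  · rw [h2]; exact hy' p hp

theorem cone_eqv [Finite ι] (len : G → ℕ) {e : Ch G ι →+ Ch G κ} (he : Eqv e) :
    ∃ m, ∀ p : G × ι, ConeGd len p.1 m (e (bs p)) := by
  have := Fintype.ofFinite ι
  choose c hc using fun i : ι => cone_exists_gd len (e (bs (1, i)))
  refine ⟨Finset.univ.sup c, fun p => ?_⟩
  have h1 := ((hc p.2).mono (Finset.le_sup (f := c) (Finset.mem_univ _))).tr p.1
  rwa [← he, tr_bs, mul_one] at h1

theorem ConeCtl.comp (hl : IsLen len) {e : Ch G ι →+ Ch G κ} {m : ℕ}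
    (he : ∀ p : G × ι, ConeGd len p.1 m (e (bs p))) {a : G → G} {K : ℕ}
    (ha : ∀ g h, len ((a g)⁻¹ * a h) ≤ K * len (g⁻¹ * h) + K) {x : G} {R k : ℕ}
    {A : Ch G κ →+ Ch G μ} (hA : ConeCtl len x (R + m) a k A) :
    ConeCtl len x R a ((k + (K * m + K)) * (m + 1)) (A.comp e) := by
  intro p hp
  have h1 : ∀ q ∈ (e (bs p)).support, ConeGd len (a p.1) (k + (K * m + K)) (A (bs q)) := by
    intro q hq
    have h2 := (he p).2 q hq
    refine (hA q ?_).move hl ((ha _ _).trans (by gcongr))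
    have h3 := hl.mul (x⁻¹ * p.1) (p.1⁻¹ * q.1)
    rw [show x⁻¹ * p.1 * (p.1⁻¹ * q.1) = x⁻¹ * q.1 by group] at h3
    omega
  refine ⟨(ms_hom_le A _ fun q hq => (h1 q hq).1).trans
    (Nat.mul_le_mul_left _ ((he p).1.trans (Nat.le_succ m))), fun q hq => ?_⟩
  obtain ⟨q', h2, h3⟩ := support_hom_subset A _ hq
  exact ((h1 q' h2).2 q h3).trans (Nat.le_mul_of_pos_right _ (Nat.succ_pos m))

theorem ConeCtl.sub {x : G} {R k k' : ℕ} {a : G → G} {f f' : Ch G ι →+ Ch G κ}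
    (h : ConeCtl len x R a k f) (h' : ConeCtl len x R a k' f') :
    ConeCtl len x R a (k + k') (f - f') := fun p hp => (h p hp).sub (h' p hp)

theorem ConeCtl.mono {x : G} {R k k' : ℕ} {a : G → G} {f : Ch G ι →+ Ch G κ}
    (h : ConeCtl len x R a k f) (hk : k ≤ k') : ConeCtl len x R a k' f :=
  fun p hp => (h p hp).mono hk

theorem ConeCtl.move (hl : IsLen len) {x : G} {R k K : ℕ} {a b : G → G} {f : Ch G ι →+ Ch G κ}
    (h : ConeCtl len x R b k f) (hab : ∀ g, len ((a g)⁻¹ * b g) ≤ K) :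
    ConeCtl len x R a (k + K) f := fun p hp => (h p hp).move hl (hab _)

theorem ConeCtl.apply (hl : IsLen len) {x : G} {R k L : ℕ} {a : G → G} {f : Ch G ι →+ Ch G κ}
    (h : ConeCtl len x R a k f) (ha : ∀ g, len (x⁻¹ * a g) ≤ L) {z : Ch G ι}
    (hz : Within len x R z) : ms (f z) ≤ k * ms z ∧ Within len x (k + L) (f z) := by
  refine ⟨ms_hom_le f z fun p hp => (h p (hz p hp)).1, fun q hq => ?_⟩
  obtain ⟨p, h2, h3⟩ := support_hom_subset f z hq
  exact ((h p (hz p h2)).move hl (ha _)).2 q h3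

theorem cone_sum (d : Ch G κ →+ Ch G ι) (A : ℕ → Ch G ι) (y : ℕ → Ch G κ) (x : G) (c : ℕ)
    (ρ : ℕ → ℕ) (hρ : Monotone ρ) (h0 : A 0 = 0)
    (h : ∀ n, d (y n) = A (n + 1) - A n ∧ ms (y n) ≤ c ∧ Within len x (ρ n) (y n)) (n : ℕ) :
    ∃ w, d w = A n ∧ ms w ≤ n * c ∧ Within len x (ρ n) w := by
  induction n with
  | zero => exact ⟨0, by rw [map_zero, h0], by simp [ms], fun p hp => by simp at hp⟩
  | succ n ih =>
    obtain ⟨w, h1, h2, h3⟩ := ih
    refine ⟨w + y n, by rw [map_add, h1, (h n).1]; abel, ?_, fun p hp => ?_⟩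
    · have := ms_add_le w (y n)
      have := (h n).2.1
      rw [Nat.succ_mul]
      omega
    · refine le_trans ?_ (hρ (Nat.le_succ n))
      rcases Finset.mem_union.1 (Finsupp.support_add hp) with h4 | h4
      exacts [h3 p h4, (h n).2.2 p h4]

end

/-- Controlled chain maps in degrees at most two. -/
structure ConeCM (F : Cx G n0 n1 n2 n3 n4) (len : G → ℕ) (m : ℕ) (x : G) (r : ℕ) (a : G → G)
    (k : ℕ) (A0 : Ch G (Fin n0) →+ Ch G (Fin n0)) (A1 : Ch G (Fin n1) →+ Ch G (Fin n1))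
    (A2 : Ch G (Fin n2) →+ Ch G (Fin n2)) : Prop where
  c0 : ∀ z, F.aug (A0 z) = F.aug z
  c1 : ∀ z, F.d1 (A1 z) = A0 (F.d1 z)
  c2 : ∀ z, F.d2 (A2 z) = A1 (F.d2 z)
  g0 : ConeCtl len x (r + m + m) a k A0
  g1 : ConeCtl len x (r + m) a k A1
  g2 : ConeCtl len x r a k A2

theorem cone_exists_cm (F : Cx G n0 n1 n2 n3 n4) {len : G → ℕ} (hl : IsLen len) {m : ℕ}
    (h1 : ∀ p, ConeGd len p.1 m (F.d1 (bs p))) (h2 : ∀ p, ConeGd len p.1 m (F.d2 (bs p))) (K : ℕ) :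
    ∃ k, ∀ (x : G) (r : ℕ) (a : G → G), (∀ g h, len ((a g)⁻¹ * a h) ≤ K * len (g⁻¹ * h) + K) →
      ∃ A0 A1 A2, ConeCM F len m x r a k A0 A1 A2 := by
  obtain ⟨k1, hk1⟩ := cone_lift hl F.e1 (Fin n1) ((1 + len 1 + (K * m + K)) * (m + 1))
  obtain ⟨k2, hk2⟩ := cone_lift hl F.e2 (Fin n2) ((k1 + (K * m + K)) * (m + 1))
  refine ⟨1 + len 1 + k1 + k2, fun x r a ha => ?_⟩
  obtain ⟨A0, hA0⟩ : ∃ A0 : Ch G (Fin n0) →+ Ch G (Fin n0), ∀ p, A0 (bs p) = bs (a p.1, p.2) :=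
    ⟨Finsupp.mapDomain.addMonoidHom fun p => (a p.1, p.2), fun p => Finsupp.mapDomain_single⟩
  have c0 : ∀ z, F.aug (A0 z) = F.aug z := by
    have h3 : ∀ g i, F.aug (bs (g, i)) = F.aug (bs (1, i)) := fun g i => by
      rw [← F.aug_tr g (bs (1, i)), tr_bs, mul_one]
    have h4 : F.aug.comp A0 = F.aug := hom_ext_bs fun p => by
      rw [AddMonoidHom.comp_apply, hA0, h3, ← h3 p.1]
    exact fun z => DFunLike.congr_fun h4 z
  have g0 : ConeCtl len x (r + m + m) a (1 + len 1) A0 := fun p _ => by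
    rw [hA0]; exact cone_gd_bs (a p.1, p.2)
  obtain ⟨A1, c1, g1⟩ := hk1 x (r + m) a (A0.comp F.d1) (fun z => (F.exact0 _).1 (by
    rw [AddMonoidHom.comp_apply, c0, F.exact0.apply_apply_eq_zero])) (g0.comp hl h1 ha)
  obtain ⟨A2, c2, g2⟩ := hk2 x r a (A1.comp F.d2) (fun z => (F.exact1 _).1 (by
    rw [AddMonoidHom.comp_apply, c1, AddMonoidHom.comp_apply, F.exact1.apply_apply_eq_zero,
      map_zero])) (g1.comp hl h2 ha)
  exact ⟨A0, A1, A2, c0, c1, c2, g0.mono (by omega), g1.mono (by omega), g2.mono (by omega)⟩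

theorem cone_homotopy (F : Cx G n0 n1 n2 n3 n4) {len : G → ℕ} (hl : IsLen len) {m : ℕ}
    (h1 : ∀ p, ConeGd len p.1 m (F.d1 (bs p))) (h2 : ∀ p, ConeGd len p.1 m (F.d2 (bs p)))
    (K k : ℕ) : ∃ k', ∀ (x : G) (r : ℕ) (a b : G → G),
      (∀ g h, len ((a g)⁻¹ * a h) ≤ K * len (g⁻¹ * h) + K) → (∀ g, len ((a g)⁻¹ * b g) ≤ K) →
      ∀ A0 A1 A2 B0 B1 B2, ConeCM F len m x r a k A0 A1 A2 → ConeCM F len m x r b k B0 B1 B2 →
      ∃ (H1 : Ch G (Fin n1) →+ Ch G (Fin n2)) (H2 : Ch G (Fin n2) →+ Ch G (Fin n3)),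
        (∀ z, F.d1 z = 0 → F.d2 (H1 z) = B1 z - A1 z) ∧
        (∀ z, F.d2 z = 0 → F.d3 (H2 z) = B2 z - A2 z) ∧
        ConeCtl len x (r + m) a k' H1 ∧ ConeCtl len x r a k' H2 := by
  obtain ⟨k0, hk0⟩ := cone_lift hl F.e1 (Fin n0) (k + K + k)
  obtain ⟨k1, hk1⟩ := cone_lift hl F.e2 (Fin n1) (k + K + k + (k0 + (K * m + K)) * (m + 1))
  obtain ⟨k2, hk2⟩ := cone_lift hl F.e3 (Fin n2) (k + K + k + (k1 + (K * m + K)) * (m + 1))
  refine ⟨k1 + k2, fun x r a b ha hab A0 A1 A2 B0 B1 B2 hA hB => ?_⟩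
  obtain ⟨H0, c0, g0⟩ := hk0 x (r + m + m) a (B0 - A0) (fun z => (F.exact0 _).1 (by
    rw [AddMonoidHom.sub_apply, map_sub, hA.c0, hB.c0, sub_self]))
    ((hB.g0.move hl hab).sub hA.g0)
  obtain ⟨H1, c1, g1⟩ := hk1 x (r + m) a (B1 - A1 - H0.comp F.d1) (fun z => (F.exact1 _).1 (by
    simp only [AddMonoidHom.sub_apply, AddMonoidHom.comp_apply, map_sub, hA.c1, hB.c1, c0,
      sub_self])) (((hB.g1.move hl hab).sub hA.g1).sub (g0.comp hl h1 ha))
  obtain ⟨H2, c2, g2⟩ := hk2 x r a (B2 - A2 - H1.comp F.d2) (fun z => (F.exact2 _).1 (by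
    simp only [AddMonoidHom.sub_apply, AddMonoidHom.comp_apply, map_sub, hA.c2, hB.c2, c1,
      F.exact1.apply_apply_eq_zero, map_zero, sub_zero, sub_self]))
    (((hB.g2.move hl hab).sub hA.g2).sub (g1.comp hl h2 ha))
  refine ⟨H1, H2, fun z hz => ?_, fun z hz => ?_, g1.mono (by omega), g2.mono (by omega)⟩
  · simp only [c1, AddMonoidHom.sub_apply, AddMonoidHom.comp_apply, hz, map_zero, sub_zero]
  · simp only [c2, AddMonoidHom.sub_apply, AddMonoidHom.comp_apply, hz, map_zero, sub_zero]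

theorem cone_const (F : Cx G n0 n1 n2 n3 n4) (len : G → ℕ) (m : ℕ) :
    ∃ k, ∀ (x : G) (r : ℕ), ∃ A0, ConeCM F len m x r (fun _ => x) k A0 0 0 := by
  obtain ⟨v, hv⟩ := F.aug_surj 1
  choose c hc using fun i : Fin n0 => cone_exists_gd len (F.aug (bs (1, i)) • v)
  have h0 : ∀ {ι κ : Type} (x : G) (R k : ℕ),
      ConeCtl len x R (fun _ => x) k (0 : Ch G ι →+ Ch G κ) := fun x R k p _ =>
    ⟨by simp [ms], fun q hq => by simp at hq⟩
  refine ⟨Finset.univ.sup c, fun x r => ⟨(zmultiplesHom _ (tr x v)).comp F.aug, fun z => ?_,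
    fun z => ?_, fun z => ?_, fun p _ => ?_, h0 _ _ _, h0 _ _ _⟩⟩
  · simp [F.aug_tr, hv]
  · simp [F.exact0.apply_apply_eq_zero]
  · simp
  · have h1 := ((hc p.2).mono (Finset.le_sup (f := c) (Finset.mem_univ _))).tr x
    have h2 : F.aug (bs p) = F.aug (bs (1, p.2)) := by
      rw [← F.aug_tr p.1 (bs (1, p.2)), tr_bs, mul_one]
    rw [mul_one, map_zsmul] at h1
    rw [AddMonoidHom.comp_apply, zmultiplesHom_apply, h2]
    exact h1

theorem Cx.cone_of_combable (F : Cx G n0 n1 n2 n3 n4) (h : LinearlyCombable G) :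
    ∃ (len : G → ℕ) (C : ℕ), IsLen len ∧ F.Cone len C := by
  obtain ⟨len, σ, K, l1, l2, l3, s0, s1, s2, s3⟩ := h
  have hl : IsLen len := ⟨l1, l2, l3⟩
  obtain ⟨m1, hm1⟩ := cone_eqv len F.e1
  obtain ⟨m2, hm2⟩ := cone_eqv len F.e2
  have h1 := fun p => (hm1 p).mono (Nat.le_add_right m1 m2)
  have h2 := fun p => (hm2 p).mono (Nat.le_add_left m2 m1)
  generalize m1 + m2 = m at h1 h2
  obtain ⟨k1, hk1⟩ := cone_exists_cm F hl h1 h2 K
  obtain ⟨k2, hk2⟩ := cone_const F len m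
  obtain ⟨k, hk⟩ := cone_homotopy F hl h1 h2 K (k1 + k2 + (1 + len 1))
  have hσ : ∀ g n, len (σ g n) ≤ len 1 + K * n := by
    intro g n
    induction n with
    | zero => rw [s0]; omega
    | succ n ih =>
      have h3 := l1 (σ g n) ((σ g n)⁻¹ * σ g (n + 1))
      have h4 := s2 g n
      rw [mul_inv_cancel_left] at h3
      rw [Nat.mul_succ]
      omega
  have key : ∀ (x : G) (r : ℕ), ∃ (A1 : ℕ → Ch G (Fin n1) →+ Ch G (Fin n1))
      (A2 : ℕ → Ch G (Fin n2) →+ Ch G (Fin n2)) (H1 : ℕ → Ch G (Fin n1) →+ Ch G (Fin n2))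
      (H2 : ℕ → Ch G (Fin n2) →+ Ch G (Fin n3)), A1 0 = 0 ∧ A2 0 = 0 ∧
      A1 (K * (r + m + m) + K + 1) = AddMonoidHom.id _ ∧
      A2 (K * (r + m + m) + K + 1) = AddMonoidHom.id _ ∧ ∀ n,
        (∀ z, F.d1 z = 0 → F.d2 (H1 n z) = A1 (n + 1) z - A1 n z) ∧
        (∀ z, F.d2 z = 0 → F.d3 (H2 n z) = A2 (n + 1) z - A2 n z) ∧
        ConeCtl len x (r + m) (fun g => x * σ (x⁻¹ * g) n) k (H1 n) ∧
        ConeCtl len x r (fun g => x * σ (x⁻¹ * g) n) k (H2 n) := by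
    intro x r
    have ha : ∀ n g h, len ((x * σ (x⁻¹ * g) n)⁻¹ * (x * σ (x⁻¹ * h) n)) ≤
        K * len (g⁻¹ * h) + K := by
      intro n g h
      have h3 := s3 (x⁻¹ * g) (x⁻¹ * h) n
      rw [show (x⁻¹ * g)⁻¹ * (x⁻¹ * h) = g⁻¹ * h by group] at h3
      rwa [mul_inv_rev, mul_assoc, inv_mul_cancel_left]
    have h3 : ∀ n, ∃ A0 A1 A2, ConeCM F len m x r (fun g => x * σ (x⁻¹ * g) n)
        (k1 + k2 + (1 + len 1)) A0 A1 A2 ∧ (n = 0 → A1 = 0 ∧ A2 = 0) ∧
        (n = K * (r + m + m) + K + 1 → A1 = AddMonoidHom.id _ ∧ A2 = AddMonoidHom.id _) := by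
      intro n
      by_cases hn : n = 0
      · obtain ⟨A0, hA⟩ := hk2 x r
        subst hn
        simp only [s0, mul_one]
        exact ⟨A0, 0, 0, ⟨hA.c0, hA.c1, hA.c2, hA.g0.mono (by omega), hA.g1.mono (by omega),
          hA.g2.mono (by omega)⟩, fun _ => ⟨rfl, rfl⟩, fun h => by omega⟩
      by_cases hN : n = K * (r + m + m) + K + 1
      · have h4 : ∀ {ι : Type} (R : ℕ), R ≤ r + m + m → ConeCtl len x R
            (fun g => x * σ (x⁻¹ * g) n) (k1 + k2 + (1 + len 1)) (AddMonoidHom.id (Ch G ι)) := by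
          intro ι R hR p hp
          have h5 := Nat.mul_le_mul_left K (hp.trans hR)
          simp only [s1 (x⁻¹ * p.1) n (by omega), mul_inv_cancel_left]
          exact (cone_gd_bs p).mono (by omega)
        exact ⟨AddMonoidHom.id _, AddMonoidHom.id _, AddMonoidHom.id _, ⟨fun _ => rfl, fun _ => rfl,
          fun _ => rfl, h4 _ le_rfl, h4 _ (by omega), h4 _ (by omega)⟩, fun h => absurd h hn,
          fun _ => ⟨rfl, rfl⟩⟩
      · obtain ⟨A0, A1, A2, hA⟩ := hk1 x r _ (ha n)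
        exact ⟨A0, A1, A2, ⟨hA.c0, hA.c1, hA.c2, hA.g0.mono (by omega), hA.g1.mono (by omega),
          hA.g2.mono (by omega)⟩, fun h => absurd h hn, fun h => absurd h hN⟩
    choose A0 A1 A2 hA hA0 hAN using h3
    choose H1 H2 hH using fun n => hk x r _ (fun g => x * σ (x⁻¹ * g) (n + 1)) (ha n) (fun g => by
      rw [mul_inv_rev, mul_assoc, inv_mul_cancel_left]; exact s2 _ n) _ _ _ _ _ _ (hA n) (hA (n + 1))
    exact ⟨A1, A2, H1, H2, (hA0 0 rfl).1, (hA0 0 rfl).2, (hAN _ rfl).1, (hAN _ rfl).2, hH⟩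
  have hL : ∀ (x : G) (n : ℕ) (g : G), len (x⁻¹ * (x * σ (x⁻¹ * g) n)) ≤ len 1 + K * n :=
    fun x n g => by rw [inv_mul_cancel_left]; exact hσ _ n
  have hρ : Monotone fun n => k + (len 1 + K * n) := fun i j hij => by
    have := Nat.mul_le_mul_left K hij
    simp only
    omega
  obtain ⟨c, hc⟩ : ∃ c, ∀ r, K * (r + m + m) + K + 1 ≤ c * (r + 1) :=
    ⟨K * (m + m) + K + 1, fun r => by nlinarith [Nat.zero_le (K * (m + m) * r), Nat.zero_le r]⟩
  have hC : ∀ r M, (K * (r + m + m) + K + 1) * (k * M) ≤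
      (c * k + (k + len 1 + K * c)) * (r + 1) * M := fun r M => by
    calc _ ≤ c * (r + 1) * (k * M) := Nat.mul_le_mul_right _ (hc r)
      _ = c * k * (r + 1) * M := by ring
      _ ≤ _ := by gcongr; omega
  refine ⟨len, c * k + (k + len 1 + K * c), hl, fun x r z hz hw => ?_, fun x r z hz hw => ?_⟩
  · obtain ⟨A1, A2, H1, H2, a1, -, b1, -, hH⟩ := key x r
    obtain ⟨y, y1, y2, y3⟩ := cone_sum (len := len) F.d2 (fun n => A1 n z) (fun n => H1 n z) x
      (k * ms z) _ hρ (by rw [a1]; rfl) (fun n => ⟨(hH n).1 z hz, (hH n).2.2.1.apply hl (hL x n)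
        fun p hp => (hw p hp).trans (Nat.le_add_right _ _)⟩) (K * (r + m + m) + K + 1)
    refine ⟨y, by rw [y1, b1]; rfl, y2.trans (hC r _), fun p hp => (y3 p hp).trans ?_⟩
    have h3 := Nat.mul_le_mul_left K (hc r)
    nlinarith [Nat.zero_le (c * k * (r + 1)), Nat.zero_le ((k + len 1) * r)]
  · obtain ⟨A1, A2, H1, H2, -, a2, -, b2, hH⟩ := key x r
    obtain ⟨y, y1, y2, -⟩ := cone_sum (len := len) F.d3 (fun n => A2 n z) (fun n => H2 n z) x
      (k * ms z) _ hρ (by rw [a2]; rfl) (fun n => ⟨(hH n).2.1 z hz,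
        (hH n).2.2.2.apply hl (hL x n) hw⟩) (K * (r + m + m) + K + 1)
    exact ⟨y, by rw [y1, b2]; rfl, y2.trans (hC r _)⟩

end Vale.Agent.P239
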