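import Mathlib

/-! Internal definitions for the P239 project (not used by the final statement).
See PROOF.md in this folder for the informal proof. -/

noncomputable section

open Classical MeasureTheory Filter Topology Set
open scoped Pointwise

namespace Vale.Agent.P239

universe u
variable {G : Type u} [Group G]

/-! ### Cayley graph, energy -/

/-- `S` is a finite symmetric generating set of the infinite group `G`. Edges: `x → x * s`. -/
structure Cay (S : Finset G) : Prop where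
  symm : ∀ s ∈ S, s⁻¹ ∈ S
  gen : Subgroup.closure (S : Set G) = ⊤
  inf : Infinite G

/-- Simple random walk average. -/
def avg (S : Finset G) (u : G → ℝ) (x : G) : ℝ := (∑ s ∈ S, u (x * s)) / S.card

/-- Energy density. -/
def grad2 (S : Finset G) (u : G → ℝ) (x : G) : ℝ := ∑ s ∈ S, (u (x * s) - u x) ^ 2

def FinEn (S : Finset G) (u : G → ℝ) : Prop := Summable (grad2 S u)

def energy (S : Finset G) (u : G → ℝ) : ℝ := ∑' x, grad2 S u x

def Harm (S : Finset G) (u : G → ℝ) : Prop := ∀ x, avg S u x = u x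

def Bdd {α : Type*} (u : α → ℝ) : Prop := ∃ C : ℝ, ∀ x, |u x| ≤ C

def SqSum {α : Type*} (u : α → ℝ) : Prop := Summable fun x => u x ^ 2

/-- Poincare inequality (spectral gap). -/
def Gap (S : Finset G) : Prop :=
  ∃ C : ℝ, 0 ≤ C ∧ ∀ p : G → ℝ, SqSum p → ∑' x, p x ^ 2 ≤ C * energy S p

/-- Oriented boundary edges `(x, s)` of a vertex set. -/
def edgeBd (S : Finset G) (U : Set G) : Set (G × G) :=
  {e | e.2 ∈ S ∧ ¬ (e.1 ∈ U ↔ e.1 * e.2 ∈ U)}

def Folner (S : Finset G) : Prop :=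
  ∀ ε : ℝ, 0 < ε → ∃ F : Finset G, F.Nonempty ∧ ((edgeBd S (F : Set G)).ncard : ℝ) ≤ ε * F.card

def OneEnded (S : Finset G) : Prop :=
  ∀ U : Set G, (edgeBd S U).Finite → U.Finite ∨ Uᶜ.Finite

def TorsionFree (G : Type u) [Group G] : Prop := ∀ g : G, IsOfFinOrder g → g = 1

/-- No nonconstant harmonic function of finite energy. -/
def HarmVanish (S : Finset G) : Prop :=
  ∀ u : G → ℝ, FinEn S u → Harm S u → ∀ x, ∀ s ∈ S, u (x * s) = u x

/-- Ball of radius `r` about `1` in the word metric. -/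
def ball (S : Finset G) (r : ℕ) : Finset G := (insert 1 S) ^ r

/-- The edge function `c` is a gradient on the edges starting in `y * ball S l`. -/
def LocExact (S : Finset G) (l : ℕ) (c : G → G → ℤ) (y : G) : Prop :=
  ∃ D : G → ℤ, ∀ b ∈ ball S l, ∀ s ∈ S, c (y * b) s = D (y * b * s) - D (y * b)

/-- Edges where `c` differs from the gradient of `w`. -/
def defect (S : Finset G) (c : G → G → ℤ) (w : G → ℤ) : Set (G × G) :=
  {e | e.2 ∈ S ∧ c e.1 e.2 ≠ w (e.1 * e.2) - w e.1}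

/-- Vanishing of compactly supported `H²` with a subquadratic bound. -/
def Cofill (S : Finset G) (l : ℕ) : Prop :=
  ∃ C α : ℝ, 0 ≤ C ∧ 1 ≤ α ∧ α < 2 ∧ ∀ c : G → G → ℤ, (∀ x s, |c x s| ≤ 1) →
    {y | ¬ LocExact S l c y}.Finite →
    ∃ w : G → ℤ, (defect S c w).Finite ∧
      ((defect S c w).ncard : ℝ) ≤ C * ({y | ¬ LocExact S l c y}.ncard : ℝ) ^ α

/-- All standing hypotheses of the nonamenable case. -/
structure Hyp (S : Finset G) (l : ℕ) : Prop where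
  cay : Cay S
  gap : Gap S
  one : OneEnded S
  cofill : Cofill S l
  tf : TorsionFree G

/-! ### The boundary -/

/-- The Stone-Cech compactification of `G` (type synonym carrying Borel structure and action). -/
def Bd (G : Type u) := Ultrafilter G

instance : TopologicalSpace (Bd G) := inferInstanceAs (TopologicalSpace (Ultrafilter G))
instance : CompactSpace (Bd G) := inferInstanceAs (CompactSpace (Ultrafilter G))
instance : T2Space (Bd G) := inferInstanceAs (T2Space (Ultrafilter G))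
instance : MeasurableSpace (Bd G) := borel (Bd G)
instance : BorelSpace (Bd G) := ⟨rfl⟩

/-- The underlying ultrafilter. -/
def Bd.uf (ξ : Bd G) : Ultrafilter G := ξ

instance : MulAction G (Bd G) where
  smul g ξ := Ultrafilter.map (fun x => g * x) ξ.uf
  one_smul ξ := by
    change Ultrafilter.map (fun x => 1 * x) ξ.uf = ξ.uf
    simp only [one_mul]; exact Ultrafilter.map_id' _
  mul_smul g h ξ := by
    change Ultrafilter.map (fun x => g * h * x) ξ.uf =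
      Ultrafilter.map (fun x => g * x) (Ultrafilter.map (fun x => h * x) ξ.uf)
    rw [Ultrafilter.map_map]; congr 1; funext x; simp [mul_assoc]

/-- Boundary value of a (bounded) function. -/
def hat (u : G → ℝ) (ξ : Bd G) : ℝ := limUnder (ξ.uf : Filter G) u

/-- The clopen set of ultrafilters containing `U`. -/
def hatSet (U : Set G) : Set (Bd G) := {ξ | U ∈ ξ.uf}

/-- Harmonic measures on the boundary. -/
structure Bdry (S : Finset G) where
  μ : G → Measure (Bd G)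
  prob : ∀ x, IsProbabilityMeasure (μ x)
  equi : ∀ (g x : G) (A : Set (Bd G)), MeasurableSet A → μ (g * x) (g • A) = μ x A
  harm : ∀ (x : G) (A : Set (Bd G)), MeasurableSet A →
    (S.card : ENNReal) * μ x A = ∑ s ∈ S, μ (x * s) A
  sub : ∀ u : G → ℝ, Bdd u → (∀ x, u x ≤ avg S u x) → ∀ x, u x ≤ ∫ ξ, hat u ξ ∂μ x
  free : ∀ x y : G, μ x (hatSet {y}) = 0

namespace Bdry
variable {S : Finset G} (B : Bdry S)

/-- Harmonic extension. -/
def H (ψ : Bd G → ℝ) (x : G) : ℝ := ∫ ξ, ψ ξ ∂B.μ x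

/-- Harmonic measure of an event as a function of the base point. -/
def h (A : Set (Bd G)) (x : G) : ℝ := (B.μ x).real A

def Null (A : Set (Bd G)) : Prop := B.μ 1 A = 0

/-- `A ⊆ A'` almost everywhere. -/
def Sub (A A' : Set (Bd G)) : Prop := B.μ 1 (A \ A') = 0

/-- Boundary values of bounded finite energy functions. -/
def IsD (ψ : Bd G → ℝ) : Prop :=
  Measurable ψ ∧ Bdd ψ ∧ ∃ u : G → ℝ, Bdd u ∧ FinEn S u ∧ ψ =ᵐ[B.μ 1] hat u

/-- `IsD` with values in the unit interval. -/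
def IsD01 (ψ : Bd G → ℝ) : Prop := B.IsD ψ ∧ ∀ ξ, 0 ≤ ψ ξ ∧ ψ ξ ≤ 1

/-- Events that are reproduced by their harmonic measure. -/
def Good (A : Set (Bd G)) : Prop :=
  MeasurableSet A ∧ hat (B.h A) =ᵐ[B.μ 1] A.indicator fun _ => (1 : ℝ)

/-- Irreducible events. -/
def Irr (A : Set (Bd G)) : Prop :=
  ∀ θ, B.IsD θ → (∀ᵐ ξ ∂B.μ 1, ξ ∈ A → θ ξ = 0 ∨ θ ξ = 1) →
    (∀ᵐ ξ ∂B.μ 1, ξ ∈ A → θ ξ = 0) ∨ (∀ᵐ ξ ∂B.μ 1, ξ ∈ A → θ ξ = 1)

/-- `A` and `A'` are separated by a finite energy function. -/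
def Sep (A A' : Set (Bd G)) : Prop :=
  ∃ θ, B.IsD01 θ ∧ (∀ᵐ ξ ∂B.μ 1, ξ ∈ A → θ ξ = 0) ∧ (∀ᵐ ξ ∂B.μ 1, ξ ∈ A' → θ ξ = 1)

/-- `E` splits `f` above every positive level. -/
def Split (f : Bd G → ℝ) (E : Set (Bd G)) : Prop :=
  MeasurableSet E ∧ ∀ t : ℝ, 0 < t → B.IsD (E.indicator fun ξ => max (f ξ - t) 0)

/-- One of the four corners is null. -/
def Nested (A A' : Set (Bd G)) : Prop :=
  B.Null (A ∩ A') ∨ B.Null (A ∩ A'ᶜ) ∨ B.Null (Aᶜ ∩ A') ∨ B.Null (Aᶜ ∩ A'ᶜ)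

/-- Edges of the boundary of `Y` inside the region `F > t`. -/
def cap (S : Finset G) (F : G → ℝ) (t : ℝ) (Y : Set G) : Set (G × G) :=
  {e | e ∈ edgeBd S Y ∧ t < F e.1 ∧ t < F (e.1 * e.2)}

/-- `Y` induces the partition `E` on `f > t` and has a finite cap. -/
def Adm (f : Bd G → ℝ) (E : Set (Bd G)) (t : ℝ) (Y : Set G) : Prop :=
  (∀ᵐ ξ ∂B.μ 1, t < f ξ → (ξ ∈ E ↔ ξ ∈ hatSet Y)) ∧ (cap S (B.H f) t Y).Finite

/-- An invariant family of irreducible half spaces. -/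
structure Family where
  𝓗 : Set (Set (Bd G))
  smul : ∀ (g : G), ∀ A ∈ 𝓗, g • A ∈ 𝓗
  compl : ∀ A ∈ 𝓗, Aᶜ ∈ 𝓗
  good : ∀ A ∈ 𝓗, B.Good A
  irr : ∀ A ∈ 𝓗, B.Irr A
  approx : ∀ A ∈ 𝓗, ∃ b : ℕ → Set (Bd G), (∀ k, b k ∈ 𝓗) ∧ (∀ k, B.Sub (b k) (b (k + 1))) ∧
    (∀ k, B.Sep (b k) Aᶜ) ∧ B.Sub A (⋃ k, b k)
  nontriv : ∃ A ∈ 𝓗, ¬ B.Null A ∧ ¬ B.Null Aᶜ

/-- A shrinking sequence of slabs: `a n` and `c n` increase, and exhaust the boundary. -/
structure Slab (Φ : B.Family) where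
  a : ℕ → Set (Bd G)
  c : ℕ → Set (Bd G)
  a_mem : ∀ n, a n ∈ Φ.𝓗
  c_mem : ∀ n, c n ∈ Φ.𝓗
  a_sub : ∀ n, B.Sub (a 0) (a n)
  c_sub : ∀ n, B.Sub (c 0) (c n)
  a_pos : ¬ B.Null (a 0)
  c_pos : ¬ B.Null (c 0)
  sep : ∀ n, B.Sep (a n) (c n)
  lim : Tendsto (fun n => B.μ 1 (a n ∪ c n)ᶜ) atTop (𝓝 0)

variable {B}

/-- Exchange the two sides. (`hs` is the symmetry of `Sep`.) -/
def Slab.swap {Φ : B.Family} (J : B.Slab Φ) (hs : ∀ n, B.Sep (J.c n) (J.a n)) : B.Slab Φ where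
  a := J.c
  c := J.a
  a_mem := J.c_mem
  c_mem := J.a_mem
  a_sub := J.c_sub
  c_sub := J.a_sub
  a_pos := J.c_pos
  c_pos := J.a_pos
  sep := hs
  lim := by simpa only [Set.union_comm] using J.lim

/-- Limit triples `(L, (L ∪ R)ᶜ, R)` of translated slabs, with nonnull parts. -/
structure Slab.LT {Φ : B.Family} (J : B.Slab Φ) (L R : Set (Bd G)) : Prop where
  goodL : B.Good L
  goodR : B.Good R
  posL : ¬ B.Null L
  posR : ¬ B.Null R
  posZ : ¬ B.Null (L ∪ R)ᶜ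
  seq : ∃ (n : ℕ → ℕ) (x : ℕ → G), Tendsto n atTop atTop ∧
    Tendsto (fun k => B.μ 1 (symmDiff ((x k)⁻¹ • J.a (n k)) L)) atTop (𝓝 0) ∧
    Tendsto (fun k => B.μ 1 (symmDiff ((x k)⁻¹ • J.c (n k)) R)) atTop (𝓝 0)

end Bdry

/-- All three parts of the pair of functions `(p, q)` and `1 - p - q` are at least `θ` at `x`. -/
def Vis (θ : ℝ) (p q : G → ℝ) (x : G) : Prop := θ ≤ p x ∧ θ ≤ q x ∧ θ ≤ 1 - p x - q x

/-- Local repair data for the triple with harmonic measures `p` (left) and `q` (right):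
outside the finite set `K` the parity set `W` is determined as stated. -/
structure Fix (S : Finset G) (p q : G → ℝ) (W : Set G) (K : Set G) : Prop where
  left : ∀ x, x ∉ K → 1 / 10 ≤ p x - q x → x ∉ W
  right : ∀ x, x ∉ K → 1 / 10 ≤ q x - p x → x ∈ W
  novis : ∀ x, x ∉ K → ¬ Vis (1 / (10 * S.card)) p q x
  same : ∀ x, x ∉ K → ∀ s ∈ S,
    (1 / 4 ≤ 1 - p x - q x ∨ 1 / 4 ≤ 1 - p (x * s) - q (x * s)) → (x ∈ W ↔ x * s ∈ W)

end Vale.Agent.P239
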