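import Vale.Agent.P239.FamA

/-! Task FamB: the monotone line of irreducible half spaces and the invariant family.
`exists_line`: `A c = ⋃` of `T p q` over rationals `1/4 < p < q < min c (3/4)` (index type a subtype of `ℚ × ℚ`). `Good` by `good_iUnion`.
`Irr (A c)`: let `θ` be two-valued on `A c`. For real `q ∈ (1/4, c)`, `P q ⊆ A c` a.e. (`P q ⊆ P p'`: use `Sub (P p') (T p' q')` for rationals; monotonicity of `P` is not given, so
only use rational `q`: for rational `q`, `Sub (P q) (T q q')` with `q < q' < c`). So `θ` is a.e. constant on each `P q`, with the constant it takes on `P0` (nonnull).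
Replacing `θ` by `1 - θ` assume it is `0`; then the last property of `exists_T` gives `θ = 0` on each `T p q`.
`Sep (A c) (A c')ᶜ` for `c < c'`: rationals `c < p < q < p' < q' < c'`, `A c ⊆ T p q` a.e., `T p' q' ⊆ A c'`.
Let `D` be the set of `c ∈ (1/4,3/4)` where the monotone function `c ↦ (μ 1).real (A c)` is continuous (`Monotone.countable_not_continuousAt`); `D` has countable complement in the interval so it is
dense. For `c ∈ D`, `(A c)ᶜ` is a.e. the union of `(T p q)ᶜ` over rationals `c < p < q < 3/4` (`T p q ⊆ A c'` for `c' > q`, and `μ (A c' \ A c) → 0`), each `Irr` and containing `Q0`,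
hence `Irr (A c)ᶜ`.
`exists_family`: `𝓗 = {g • A c | c ∈ D} ∪ {g • (A c)ᶜ | c ∈ D}`; approximations by `c k ∈ D` strictly increasing to `c` (resp. decreasing).
-/

noncomputable section

open Classical MeasureTheory Filter Topology Set
open scoped Pointwise

namespace Vale.Agent.P239

universe u
variable {G : Type u} [Group G] {S : Finset G} {l : ℕ}

namespace Bdry
variable {B : Bdry S}

theorem fb_two {Y X : Set (Bd G)} (hs : B.Sub Y X) {p : Bd G → Prop}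
    (h : ∀ᵐ ξ ∂B.μ 1, ξ ∈ X → p ξ) : ∀ᵐ ξ ∂B.μ 1, ξ ∈ Y → p ξ := by
  filter_upwards [h, (B.sub_iff _ _).1 hs] with ξ h1 h2 h3
  exact h1 (h2 h3)

theorem fb_zero {Y R : Set (Bd G)} (hY : B.Irr Y) (hs : B.Sub R Y) (hR : ¬ B.Null R)
    {θ : Bd G → ℝ} (hθ : B.IsD θ) (h2 : ∀ᵐ ξ ∂B.μ 1, ξ ∈ Y → θ ξ = 0 ∨ θ ξ = 1)
    (h0 : ∀ᵐ ξ ∂B.μ 1, ξ ∈ R → θ ξ = 0) : ∀ᵐ ξ ∂B.μ 1, ξ ∈ Y → θ ξ = 0 := by
  refine (hY θ hθ h2).resolve_right fun h1 => hR ((B.null_iff_ae _).2 ?_)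
  filter_upwards [h0, fb_two hs h1] with ξ h3 h4 h5
  exact zero_ne_one ((h3 h5).symm.trans (h4 h5))

theorem fb_irr {X Y R : Set (Bd G)} (hY : B.Irr Y) (hs : B.Sub R Y) (hs' : B.Sub Y X)
    (h : ∀ θ, B.IsD θ → (∀ᵐ ξ ∂B.μ 1, ξ ∈ X → θ ξ = 0 ∨ θ ξ = 1) →
      (∀ᵐ ξ ∂B.μ 1, ξ ∈ R → θ ξ = 0) → ∀ᵐ ξ ∂B.μ 1, ξ ∈ X → θ ξ = 0) : B.Irr X := by
  intro θ hθ h2
  refine (hY θ hθ (fb_two hs' h2)).imp (fun h0 => h θ hθ h2 (fb_two hs h0)) fun h1 => ?_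
  have h3 := h (fun ξ => 1 - θ ξ) ((isD_const 1).sub hθ) (by
    filter_upwards [h2] with ξ h3 h4
    rcases h3 h4 with h5 | h5
    · exact Or.inr (by rw [h5, sub_zero])
    · exact Or.inl (by rw [h5, sub_self])) (by
    filter_upwards [fb_two hs h1] with ξ h3 h4
    rw [h3 h4, sub_self])
  filter_upwards [h3] with ξ h4 h5
  exact (sub_eq_zero.1 (h4 h5)).symm

/-- The index set of the union defining the line. -/
def FbIdx (c : ℝ) : Type :=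
  {r : ℚ × ℚ // 1 / 4 < (r.1 : ℝ) ∧ (r.1 : ℝ) < r.2 ∧ (r.2 : ℝ) < c ∧ (r.2 : ℝ) < 3 / 4}

theorem fbIdx_countable (c : ℝ) : Countable (FbIdx c) := Subtype.countable

/-- The monotone line of half spaces. -/
def fbA (T : ℝ → ℝ → Set (Bd G)) (c : ℝ) : Set (Bd G) := ⋃ i : FbIdx c, T i.1.1 i.1.2

omit [Group G] in
theorem fbA_sup (T : ℝ → ℝ → Set (Bd G)) {c : ℝ} {p q : ℚ} (h1 : 1 / 4 < (p : ℝ))
    (h2 : (p : ℝ) < q) (h3 : (q : ℝ) < c) (h4 : (q : ℝ) < 3 / 4) : T p q ⊆ fbA T c :=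
  subset_iUnion (fun i : FbIdx c => T i.1.1 i.1.2) ⟨(p, q), h1, h2, h3, h4⟩

omit [Group G] in
theorem fbA_mono (T : ℝ → ℝ → Set (Bd G)) : Monotone (fbA T) := fun _ _ h =>
  iUnion_subset fun i => fbA_sup T i.2.1 i.2.2.1 (i.2.2.2.1.trans_le h) i.2.2.2.2

theorem fbA_ae (T : ℝ → ℝ → Set (Bd G)) {c : ℝ} {p : Bd G → Prop}
    (h : ∀ i : FbIdx c, ∀ᵐ ξ ∂B.μ 1, ξ ∈ T i.1.1 i.1.2 → p ξ) :
    ∀ᵐ ξ ∂B.μ 1, ξ ∈ fbA T c → p ξ := by
  have := fbIdx_countable c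
  filter_upwards [ae_all_iff.2 h] with ξ h1 h2
  obtain ⟨i, hi⟩ := mem_iUnion.1 h2
  exact h1 i hi

theorem fb_tendsto {A : ℝ → Set (Bd G)} (hm : Monotone A) (hA : ∀ c, MeasurableSet (A c)) {c : ℝ}
    (hc : ContinuousAt (fun t => (B.μ 1).real (A t)) c) {d : ℕ → ℝ} (hd : Tendsto d atTop (𝓝 c)) :
    Tendsto (fun k => B.μ 1 (symmDiff (A (d k)) (A c))) atTop (𝓝 0) := by
  have key : ∀ s t, s ≤ t → B.μ 1 (symmDiff (A s) (A t)) =
      ENNReal.ofReal |(B.μ 1).real (A s) - (B.μ 1).real (A t)| := by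
    intro s t hst
    rw [symmDiff_of_le (hm hst), abs_sub_comm,
      abs_of_nonneg (sub_nonneg.2 (measureReal_mono (hm hst))),
      ← measureReal_sdiff (hm hst) (hA s), ofReal_measureReal]
  have h1 : ∀ s t, B.μ 1 (symmDiff (A s) (A t)) =
      ENNReal.ofReal |(B.μ 1).real (A s) - (B.μ 1).real (A t)| := by
    intro s t
    rcases le_total s t with h | h
    · exact key s t h
    · rw [symmDiff_comm, abs_sub_comm]
      exact key t s h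
  simp only [h1]
  have h2 := ENNReal.tendsto_ofReal ((hc.tendsto.comp hd).sub_const ((B.μ 1).real (A c))).abs
  rw [sub_self, abs_zero, ENNReal.ofReal_zero] at h2
  exact h2

theorem exists_line (hH : Hyp S l) {u : Bd G → ℝ} (hu : B.IsD01 u)
    (hlo : ¬ B.Null {ξ | u ξ < 1 / 4}) (hhi : ¬ B.Null {ξ | 3 / 4 < u ξ}) :
    ∃ (A : ℝ → Set (Bd G)) (D : Set ℝ), D ⊆ Ioo (1 / 4) (3 / 4) ∧
      (∀ a b : ℝ, 1 / 4 ≤ a → a < b → b ≤ 3 / 4 → ∃ c ∈ D, a < c ∧ c < b) ∧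
      (∀ c ∈ D, B.Good (A c) ∧ B.Irr (A c) ∧ B.Irr (A c)ᶜ ∧ ¬ B.Null (A c) ∧ ¬ B.Null (A c)ᶜ) ∧
      (∀ c ∈ D, ∀ c' ∈ D, c < c' → A c ⊆ A c' ∧ B.Sep (A c) (A c')ᶜ) ∧
      (∀ c ∈ D, ∀ d : ℕ → ℝ, (∀ k, d k ∈ D) → Tendsto d atTop (𝓝 c) →
        Tendsto (fun k => B.μ 1 (symmDiff (A (d k)) (A c))) atTop (𝓝 0)) := by
  obtain ⟨P0, Q0, P, T, hP0, hQ0, hP, hT, hTT⟩ := exists_T hH hu hlo hhi
  have hgood : ∀ c, B.Good (fbA T c) := fun c => by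
    have := fbIdx_countable c
    exact good_iUnion hH.cay fun i : FbIdx c => (hT _ _ i.2.1 i.2.2.1 i.2.2.2.2).1
  have hup : ∀ c p q : ℝ, c ≤ p → p < q → q < 3 / 4 → B.Sub (fbA T c) (T p q) :=
    fun c p q h1 h2 h3 => (B.sub_iff _ _).2 (fbA_ae T fun i => (B.sub_iff _ _).1
      (hTT _ _ p q i.2.1 i.2.2.1 (i.2.2.2.1.le.trans h1) h2 h3).1)
  have hlow : ∀ (c : ℝ) (q : ℚ), 1 / 4 < (q : ℝ) → (q : ℝ) < c → (q : ℝ) < 3 / 4 →
      B.Sub (P q) (fbA T c) := fun c q h1 h2 h3 => by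
    obtain ⟨q', h4, h5⟩ := exists_rat_btwn (lt_min h2 h3)
    exact (hT _ _ h1 h4 (h5.trans_le (min_le_right _ _))).2.1.trans (Sub.of_subset
      (fbA_sup T h1 h4 (h5.trans_le (min_le_left _ _)) (h5.trans_le (min_le_right _ _))))
  have hmono : Monotone fun t => (B.μ 1).real (fbA T t) := fun s t h =>
    measureReal_mono (fbA_mono T h)
  have hlim : ∀ c, ContinuousAt (fun t => (B.μ 1).real (fbA T t)) c → ∀ d : ℕ → ℝ,
      Tendsto d atTop (𝓝 c) →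
      Tendsto (fun k => B.μ 1 (symmDiff (fbA T (d k)) (fbA T c))) atTop (𝓝 0) :=
    fun c hc d hd => fb_tendsto (fbA_mono T) (fun c => (hgood c).1) hc hd
  refine ⟨fbA T, {c | c ∈ Ioo (1 / 4 : ℝ) (3 / 4) ∧
    ContinuousAt (fun t => (B.μ 1).real (fbA T t)) c}, fun c hc => hc.1, fun a b ha hab hb => ?_,
    ?_, ?_, fun c hc d _ hd => hlim c hc.2 d hd⟩
  · obtain ⟨c, hc, h1⟩ := (hmono.countable_not_continuousAt.dense_compl ℝ).exists_between hab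
    exact ⟨c, ⟨⟨ha.trans_lt h1.1, h1.2.trans_le hb⟩, not_not.1 hc⟩, h1⟩
  · rintro c ⟨⟨hc1, hc2⟩, hc⟩
    obtain ⟨q0, hq1, hq2⟩ := exists_rat_btwn hc1
    obtain ⟨r0, hr1, hr2⟩ := exists_between hc2
    have hq3 := hq2.trans hc2
    have h1 := hT c r0 hc1 hr1 hr2
    have h2 := (hup c c r0 le_rfl hr1 hr2).compl
    refine ⟨hgood c, ?_, ?_, fun h => hP0 (h.of_sub ((hP _ hq1 hq3).1.trans (hlow c q0 hq1 hq2 hq3))),
      fun h => hQ0 (h.of_sub (h1.2.2.1.trans h2))⟩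
    · refine fb_irr (hP _ hq1 hq3).2 (hP _ hq1 hq3).1 (hlow c q0 hq1 hq2 hq3)
        fun θ hθ h3 h4 => fbA_ae T fun i => ?_
      obtain ⟨⟨p, q⟩, i1, i2, i3, i4⟩ := i
      have h5 := hP q (i1.trans i2) i4
      exact (hT p q i1 i2 i4).2.2.2.2 θ hθ (fb_two (Sub.of_subset (fbA_sup T i1 i2 i3 i4)) h3)
        (fb_zero h5.2 h5.1 hP0 hθ (fb_two (hlow c q (i1.trans i2) i3 i4) h3) h4)
    · refine fb_irr h1.2.2.2.1 h1.2.2.1 h2 fun θ hθ h3 h4 => ?_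
      obtain ⟨d, -, hd1, hd2⟩ := exists_seq_strictAnti_tendsto' hc2
      have h5 : ∀ k, ∃ p q : ℚ, c < p ∧ (p : ℝ) < q ∧ (q : ℝ) < d k := fun k => by
        obtain ⟨p, h5, h6⟩ := exists_rat_btwn (hd1 k).1
        obtain ⟨q, h7, h8⟩ := exists_rat_btwn h6
        exact ⟨p, q, h5, h7, h8⟩
      choose p q hp hpq hq using h5
      have h6 : ∀ k, ∀ᵐ ξ ∂B.μ 1, ξ ∈ (T (p k) (q k))ᶜ → θ ξ = 0 := fun k => by
        have h7 := (hq k).trans (hd1 k).2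
        have h8 := hT (p k) (q k) (hc1.trans (hp k)) (hpq k) h7
        exact fb_zero h8.2.2.2.1 h8.2.2.1 hQ0 hθ
          (fb_two (hup c _ _ (hp k).le (hpq k) h7).compl h3) h4
      have h7 : B.Null ((fbA T c)ᶜ ∩ ⋂ k, T (p k) (q k)) := by
        refine le_antisymm (ge_of_tendsto' (hlim c hc d hd2) fun k => measure_mono fun ξ hξ => ?_)
          zero_le
        exact Or.inl ⟨fbA_sup T (hc1.trans (hp k)) (hpq k) (hq k) ((hq k).trans (hd1 k).2)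
          (mem_iInter.1 hξ.2 k), hξ.1⟩
      filter_upwards [ae_all_iff.2 h6, (B.null_iff_ae _).1 h7] with ξ h8 h9 h10
      by_contra h11
      exact h9 ⟨h10, mem_iInter.2 fun k => not_not.1 fun h12 => h11 (h8 k h12)⟩
  · rintro c ⟨⟨hc1, -⟩, -⟩ c' ⟨⟨-, hc2⟩, -⟩ hcc
    obtain ⟨p, h1, h2⟩ := exists_rat_btwn hcc
    obtain ⟨q, h3, h4⟩ := exists_rat_btwn h2
    refine ⟨fbA_mono T hcc.le, (hTT c p p q hc1 h1 le_rfl h3 (h4.trans hc2)).2.mono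
      (hup c c p le_rfl h1 (h2.trans hc2)) (Sub.of_subset (compl_subset_compl.2 ?_))⟩
    exact fbA_sup T (hc1.trans h1) h3 h4 (h4.trans hc2)

theorem fb_approx (hS : Cay S) {X : Set (Bd G)} {b : ℕ → Set (Bd G)} (g : G)
    (h1 : ∀ k, b k ⊆ b (k + 1)) (h2 : ∀ k, B.Sep (b k) Xᶜ)
    (h3 : Tendsto (fun k => B.μ 1 (symmDiff (b k) X)) atTop (𝓝 0)) :
    (∀ k, B.Sub (g • b k) (g • b (k + 1))) ∧ (∀ k, B.Sep (g • b k) (g • X)ᶜ) ∧
      B.Sub (g • X) (⋃ k, g • b k) := by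
  refine ⟨fun k => Sub.of_subset (smul_set_mono (h1 k)), fun k => ?_, ?_⟩
  · rw [← smul_set_compl]
    exact (h2 k).smul hS g
  · rw [← smul_set_iUnion, B.sub_smul hS]
    refine le_antisymm (ge_of_tendsto' h3 fun k => measure_mono fun ξ hξ => ?_) zero_le
    exact Or.inr ⟨hξ.1, fun h => hξ.2 (mem_iUnion.2 ⟨k, h⟩)⟩

theorem exists_family (hH : Hyp S l) {u : Bd G → ℝ} (hu : B.IsD01 u)
    (hlo : ¬ B.Null {ξ | u ξ < 1 / 4}) (hhi : ¬ B.Null {ξ | 3 / 4 < u ξ}) :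
    Nonempty B.Family := by
  obtain ⟨A, D, hD, hdense, hprop, hsep, hlim⟩ := exists_line hH hu hlo hhi
  have hS := hH.cay
  refine ⟨⟨{X | ∃ g : G, ∃ c ∈ D, X = g • A c ∨ X = g • (A c)ᶜ}, ?_, ?_, ?_, ?_, ?_, ?_⟩⟩
  · rintro g' X ⟨g, c, hc, rfl | rfl⟩
    · exact ⟨g' * g, c, hc, Or.inl (mul_smul _ _ _).symm⟩
    · exact ⟨g' * g, c, hc, Or.inr (mul_smul _ _ _).symm⟩
  · rintro X ⟨g, c, hc, rfl | rfl⟩
    · exact ⟨g, c, hc, Or.inr smul_set_compl.symm⟩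
    · exact ⟨g, c, hc, Or.inl (by rw [smul_set_compl, compl_compl])⟩
  · rintro X ⟨g, c, hc, rfl | rfl⟩
    · exact (hprop c hc).1.smul hS g
    · exact (hprop c hc).1.compl.smul hS g
  · rintro X ⟨g, c, hc, rfl | rfl⟩
    · exact (hprop c hc).2.1.smul hS g
    · exact (hprop c hc).2.2.1.smul hS g
  · rintro X ⟨g, c, hc, rfl | rfl⟩
    · obtain ⟨t, ht1, ht2, ht3⟩ := exists_seq_strictMono_tendsto' (hD hc).1
      choose d hd1 hd2 hd3 using fun k => hdense (t k) (t (k + 1)) (ht2 k).1.le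
        (ht1 (Nat.lt_succ_self k)) ((ht2 _).2.trans (hD hc).2).le
      have h1 : Tendsto d atTop (𝓝 c) :=
        tendsto_of_tendsto_of_tendsto_of_le_of_le ht3 tendsto_const_nhds (fun k => (hd2 k).le)
          fun k => ((hd3 k).trans (ht2 _).2).le
      exact ⟨fun k => g • A (d k), fun k => ⟨g, d k, hd1 k, Or.inl rfl⟩, fb_approx hS g
        (b := fun k => A (d k)) (fun k => (hsep _ (hd1 k) _ (hd1 _) ((hd3 k).trans (hd2 _))).1)
        (fun k => (hsep _ (hd1 k) _ hc ((hd3 k).trans (ht2 _).2)).2) (hlim c hc d hd1 h1)⟩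
    · obtain ⟨t, ht1, ht2, ht3⟩ := exists_seq_strictAnti_tendsto' (hD hc).2
      choose d hd1 hd2 hd3 using fun k => hdense (t (k + 1)) (t k) ((hD hc).1.trans (ht2 _).1).le
        (ht1 (Nat.lt_succ_self k)) (ht2 _).2.le
      have h1 : Tendsto d atTop (𝓝 c) :=
        tendsto_of_tendsto_of_tendsto_of_le_of_le tendsto_const_nhds ht3
          (fun k => ((ht2 _).1.trans (hd2 k)).le) fun k => (hd3 k).le
      refine ⟨fun k => g • (A (d k))ᶜ, fun k => ⟨g, d k, hd1 k, Or.inr rfl⟩, fb_approx hS g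
        (b := fun k => (A (d k))ᶜ) (fun k => compl_subset_compl.2
          (hsep _ (hd1 _) _ (hd1 k) ((hd3 _).trans (hd2 k))).1) (fun k => ?_) ?_⟩
      · rw [compl_compl]
        exact (hsep _ hc _ (hd1 k) ((ht2 _).1.trans (hd2 k))).2.symm
      · simp only [compl_symmDiff_compl]
        exact hlim c hc d hd1 h1
  · obtain ⟨c, hc, -⟩ := hdense (1 / 4) (3 / 4) le_rfl (by norm_num) le_rfl
    exact ⟨A c, ⟨1, c, hc, Or.inl (one_smul _ _).symm⟩, (hprop c hc).2.2.2⟩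

end Bdry

end Vale.Agent.P239
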