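import Vale.Agent.P239.FinB
import Vale.Agent.P239.FamB
import Vale.Agent.P239.BdExist
import Vale.Agent.P239.Cheeger
import Vale.Agent.P239.Amenable

/-! Task CoreMain: the analytic core theorem.
`exists_nonconst`: let `u` be harmonic of finite energy, not constant along some edge, `u n = max (-n) (min n u)` (bounded, finite energy, increments dominated by those of `u`). If `hat (u n)` is a.e. equal to a constant `κ n` for every `n`, then `u n - κ n` is square summable
(`sqSum_of_hat_zero`), so `∑ du * d(u n) = 0` (`Cay.orth`); dominated convergence (`tendsto_tsum_of_dominated_convergence`, bound `grad2 u`), or positivity `du * d(u n) ≥ 0` termwise with `n > |u|` at the bad edge, gives a contradiction. Otherwise some `ψ = hat (u n)` is not a.e. constant, so there are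
`a < b` with `{ψ < a}` and `{b < ψ}` nonnull (take `m = essInf`, or argue with the set of rationals `a` with `{ψ < a}` null); rescale affinely so that `a ↦ 1/4`, `b ↦ 3/4` and clamp to `[0,1]` (`IsD.lip₁`).
`core`: `folner_or_gap`.
-/

noncomputable section

open Classical MeasureTheory Filter Topology Set
open scoped Pointwise

namespace Vale.Agent.P239

universe u
variable {G : Type u} [Group G] {S : Finset G} {l : ℕ}

private theorem coreMain_const {α : Type*} [MeasurableSpace α] (μ : Measure α)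
    [IsProbabilityMeasure μ] {ψ : α → ℝ} (hb : Bdd ψ)
    (h : ∀ a b : ℝ, a < b → μ {ξ | ψ ξ < a} = 0 ∨ μ {ξ | b < ψ ξ} = 0) :
    ∃ κ : ℝ, ∀ᵐ ξ ∂μ, ψ ξ = κ := by
  obtain ⟨C, hC⟩ := hb
  have hne : {a : ℝ | μ {ξ | ψ ξ < a} = 0}.Nonempty := by
    refine ⟨-C, ?_⟩
    have h1 : {ξ | ψ ξ < -C} = ∅ :=
      eq_empty_of_forall_notMem fun ξ hξ => absurd (abs_le.1 (hC ξ)).1 (not_le.2 hξ)
    change μ {ξ | ψ ξ < -C} = 0
    rw [h1, measure_empty]
  have hbdd : BddAbove {a : ℝ | μ {ξ | ψ ξ < a} = 0} := by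
    refine ⟨C, fun a ha => ?_⟩
    by_contra h1
    have h2 : {ξ | ψ ξ < a} = univ :=
      eq_univ_of_forall fun ξ => (abs_le.1 (hC ξ)).2.trans_lt (not_le.1 h1)
    have h3 : μ {ξ | ψ ξ < a} = 0 := ha
    rw [h2, measure_univ] at h3
    exact one_ne_zero h3
  obtain ⟨κ, hκ⟩ : ∃ κ, κ = sSup {a : ℝ | μ {ξ | ψ ξ < a} = 0} := ⟨_, rfl⟩
  refine ⟨κ, ?_⟩
  have h1 : ∀ n : ℕ, μ {ξ | ψ ξ < κ - 1 / ((n : ℝ) + 1)} = 0 := by
    intro n
    have h2 : κ - 1 / ((n : ℝ) + 1) < sSup {a : ℝ | μ {ξ | ψ ξ < a} = 0} := by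
      rw [← hκ]
      exact sub_lt_self _ (by positivity)
    obtain ⟨a, ha, ha'⟩ := exists_lt_of_lt_csSup hne h2
    exact measure_mono_null (fun ξ hξ => lt_trans hξ ha') ha
  have h2 : ∀ n : ℕ, μ {ξ | κ + 1 / ((n : ℝ) + 1) < ψ ξ} = 0 := by
    intro n
    have h3 : (0 : ℝ) < 1 / ((n : ℝ) + 1) := by positivity
    rcases h (κ + 1 / ((n : ℝ) + 1) / 2) (κ + 1 / ((n : ℝ) + 1)) (by linarith) with h4 | h4
    · have h5 := le_csSup hbdd h4
      rw [← hκ] at h5
      linarith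
    · exact h4
  have h3 : ∀ᵐ ξ ∂μ, ∀ n : ℕ, ¬ ψ ξ < κ - 1 / ((n : ℝ) + 1) :=
    ae_all_iff.2 fun n => measure_eq_zero_iff_ae_notMem.1 (h1 n)
  have h4 : ∀ᵐ ξ ∂μ, ∀ n : ℕ, ¬ κ + 1 / ((n : ℝ) + 1) < ψ ξ :=
    ae_all_iff.2 fun n => measure_eq_zero_iff_ae_notMem.1 (h2 n)
  filter_upwards [h3, h4] with ξ h5 h6
  rcases lt_trichotomy (ψ ξ) κ with h7 | h7 | h7
  · obtain ⟨n, hn⟩ := exists_nat_one_div_lt (sub_pos.2 h7)
    exact absurd (by linarith) (h5 n)
  · exact h7
  · obtain ⟨n, hn⟩ := exists_nat_one_div_lt (sub_pos.2 h7)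
    exact absurd (by linarith) (h6 n)

private theorem coreMain_lip (a b s t : ℝ) : |max a (min b s) - max a (min b t)| ≤ |s - t| := by
  refine (abs_max_sub_max_le_max _ _ _ _).trans (max_le (by simp) ?_)
  exact (abs_min_sub_min_le_max _ _ _ _).trans (max_le (by simp) le_rfl)

private theorem coreMain_mono (a b s t : ℝ) : 0 ≤ (s - t) * (max a (min b s) - max a (min b t)) := by
  rcases le_total s t with h | h
  · exact mul_nonneg_of_nonpos_of_nonpos (sub_nonpos.2 h)
      (sub_nonpos.2 (max_le_max le_rfl (min_le_min le_rfl h)))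
  · exact mul_nonneg (sub_nonneg.2 h) (sub_nonneg.2 (max_le_max le_rfl (min_le_min le_rfl h)))

theorem Bdry.exists_nonconst (B : Bdry S) (hS : Cay S) (hg : Gap S) (h : ¬ HarmVanish S) :
    ∃ u, B.IsD01 u ∧ ¬ B.Null {ξ | u ξ < 1 / 4} ∧ ¬ B.Null {ξ | 3 / 4 < u ξ} := by
  unfold HarmVanish at h
  push Not at h
  obtain ⟨u, huE, huH, x0, s0, hs0, hne⟩ := h
  obtain ⟨N, hN⟩ : ∃ N : ℝ, N = |u x0| + |u (x0 * s0)| := ⟨_, rfl⟩
  have hN0 : 0 ≤ N := by rw [hN]; positivity
  obtain ⟨w, hw⟩ : ∃ w : G → ℝ, w = fun x => max (-N) (min N (u x)) := ⟨_, rfl⟩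
  have hwb : Bdd w := ⟨N, fun x => by
    rw [hw]
    exact abs_le.2 ⟨le_max_left _ _, max_le (by linarith) (min_le_left _ _)⟩⟩
  have hwE : FinEn S w := (finEn_of_le huE huE (L := 1) (M := 0) zero_le_one Set.finite_empty
    (fun e he => absurd he (Set.notMem_empty e)) (fun x s _ _ => by
      have h1 := coreMain_lip (-N) N (u (x * s)) (u x)
      rw [hw, one_mul]
      exact h1.trans (le_add_of_nonneg_right (abs_nonneg _)))).1
  have hfix : ∀ x, |u x| ≤ N → w x = u x := fun x hx => by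
    rw [hw]
    change max (-N) (min N (u x)) = u x
    rw [min_eq_right (abs_le.1 hx).2, max_eq_right (abs_le.1 hx).1]
  have hnc : ¬ ∃ κ : ℝ, ∀ᵐ ξ ∂B.μ 1, hat w ξ = κ := by
    rintro ⟨κ, hκ⟩
    have hb2 : Bdd fun x => w x - κ := by
      obtain ⟨C, hC⟩ := hwb
      exact ⟨C + |κ|, fun x => (abs_sub _ _).trans (add_le_add (hC x) le_rfl)⟩
    have hp : SqSum fun x => w x - κ := by
      refine Bdry.sqSum_of_hat_zero (B := B) hS hg hb2 (hwE.sub (finEn_const κ)) ?_
      filter_upwards [hκ] with ξ hξ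
      have h1 := (hwb.tendsto_hat ξ).sub_const κ
      rw [hξ, sub_self] at h1
      exact hat_eq_of_tendsto h1
    have h0 := hS.orth huE huH hp
    simp only [sub_sub_sub_cancel_right] at h0
    have hterm : ∀ x s, 0 ≤ (u (x * s) - u x) * (w (x * s) - w x) := fun x s => by
      rw [hw]
      exact coreMain_mono (-N) N _ _
    have hsum : Summable fun x => ∑ s ∈ S, (u (x * s) - u x) * (w (x * s) - w x) :=
      summable_sum fun s hs => ry_mul (ry_edge huE hs) (ry_edge hwE hs)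
    have h1 := hsum.le_tsum x0 fun x _ => Finset.sum_nonneg fun s _ => hterm x s
    have h2 := Finset.single_le_sum (f := fun s => (u (x0 * s) - u x0) * (w (x0 * s) - w x0))
      (fun s _ => hterm x0 s) hs0
    rw [h0] at h1
    have h3 := h2.trans h1
    rw [hfix x0 (by rw [hN]; exact le_add_of_nonneg_right (abs_nonneg _)),
      hfix (x0 * s0) (by rw [hN]; exact le_add_of_nonneg_left (abs_nonneg _))] at h3
    exact absurd (mul_self_pos.2 (sub_ne_zero.2 hne)) (not_lt.2 h3)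
  obtain ⟨a, b, hab, ha, hb⟩ : ∃ a b : ℝ, a < b ∧ B.μ 1 {ξ | hat w ξ < a} ≠ 0 ∧
      B.μ 1 {ξ | b < hat w ξ} ≠ 0 := by
    by_contra hcon
    refine hnc (coreMain_const (B.μ 1) hwb.bdd_hat fun a b hab => ?_)
    by_contra h1
    rw [not_or] at h1
    exact hcon ⟨a, b, hab, h1.1, h1.2⟩
  have hd : 0 < 2 * (b - a) := by linarith
  have hD := (Bdry.isD_hat (B := B) hwb hwE).lip₁ hS hg
    (F := fun t => max 0 (min 1 (1 / 4 + (t - a) / (2 * (b - a))))) (L := 1 / (2 * (b - a)))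
    (by positivity) (fun s t => by
      refine (coreMain_lip _ _ _ _).trans (le_of_eq ?_)
      rw [add_sub_add_left_eq_sub, ← sub_div, sub_sub_sub_cancel_right, abs_div, abs_of_pos hd]
      ring)
  refine ⟨_, ⟨hD, fun ξ => ⟨le_max_left _ _, max_le zero_le_one (min_le_left _ _)⟩⟩,
    fun h => ha (measure_mono_null (fun ξ hξ => ?_) h),
    fun h => hb (measure_mono_null (fun ξ hξ => ?_) h)⟩
  · have h1 : hat w ξ < a := hξ
    have h2 : (hat w ξ - a) / (2 * (b - a)) < 0 := div_neg_of_neg_of_pos (by linarith) hd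
    change max 0 (min 1 (1 / 4 + (hat w ξ - a) / (2 * (b - a)))) < 1 / 4
    exact max_lt (by norm_num) (min_lt_of_right_lt (by linarith))
  · have h1 : b < hat w ξ := hξ
    have h2 : 1 / 2 < (hat w ξ - a) / (2 * (b - a)) := by
      rw [lt_div_iff₀ hd]
      linarith
    change 3 / 4 < max 0 (min 1 (1 / 4 + (hat w ξ - a) / (2 * (b - a))))
    exact lt_max_of_lt_right (lt_min (by norm_num) (by linarith))

theorem core (hS : Cay S) (h1 : OneEnded S) (h2 : Cofill S l) (ht : TorsionFree G) :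
    HarmVanish S := by
  rcases hS.folner_or_gap with hF | hg
  · exact hS.harmVanish_of_folner hF
  · by_contra h
    obtain ⟨B⟩ := hS.exists_bdry hg
    obtain ⟨u, hu, hlo, hhi⟩ := B.exists_nonconst hS hg h
    have hH : Hyp S l := ⟨hS, hg, h1, h2, ht⟩
    obtain ⟨Φ⟩ := Bdry.exists_family hH hu hlo hhi
    exact Φ.false hH

end Vale.Agent.P239
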