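import Vale.Agent.P239.Defs
import Vale.Agent.P239.Core

/-! Free `G`-chain complexes as finitely supported functions on `G × ι`. -/

noncomputable section

open Classical Filter Topology Set

namespace Vale.Agent.P239

universe u
variable {G : Type u} [Group G]

/-- Free `ℤG`-module on `ι`, as finitely supported functions on `G × ι`. -/
abbrev Ch (G : Type u) (ι : Type*) := (G × ι) →₀ ℤ

/-- Left translation of chains. -/
def tr {ι : Type*} (g : G) : Ch G ι →+ Ch G ι :=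
  Finsupp.mapDomain.addMonoidHom fun p => (g * p.1, p.2)

/-- Equivariant homomorphisms. -/
def Eqv {ι κ : Type*} (f : Ch G ι →+ Ch G κ) : Prop := ∀ g z, f (tr g z) = tr g (f z)

/-- `ℓ¹` norm. -/
def ms {α : Type*} (z : α →₀ ℤ) : ℕ := z.sum fun _ a => a.natAbs

/-- Basis element. -/
abbrev bs {ι : Type*} (p : G × ι) : Ch G ι := Finsupp.single p 1

/-- Pairing of a real function with a chain. -/
def pair {α : Type*} (c : α → ℝ) (z : α →₀ ℤ) : ℝ := z.sum fun p a => (a : ℝ) * c p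

/-- Pairing of an integer function with a chain. -/
def pairZ {α : Type*} (c : α → ℤ) (z : α →₀ ℤ) : ℤ := z.sum fun p a => a * c p

/-- A free resolution of `ℤ` of length four. -/
structure Cx (G : Type u) [Group G] (n0 n1 n2 n3 n4 : ℕ) where
  d1 : Ch G (Fin n1) →+ Ch G (Fin n0)
  d2 : Ch G (Fin n2) →+ Ch G (Fin n1)
  d3 : Ch G (Fin n3) →+ Ch G (Fin n2)
  d4 : Ch G (Fin n4) →+ Ch G (Fin n3)
  aug : Ch G (Fin n0) →+ ℤ
  e1 : Eqv d1
  e2 : Eqv d2
  e3 : Eqv d3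
  e4 : Eqv d4
  aug_tr : ∀ g z, aug (tr g z) = aug z
  aug_surj : Function.Surjective aug
  exact0 : Function.Exact d1 aug
  exact1 : Function.Exact d2 d1
  exact2 : Function.Exact d3 d2
  exact3 : Function.Exact d4 d3
  inj4 : Function.Injective d4

/-- `e` is the transpose of `d`, twisted by the character `χ`. -/
def IsTw {ι κ : Type*} (χ : G →* ℤˣ) (d : Ch G ι →+ Ch G κ) (e : Ch G κ →+ Ch G ι) : Prop :=
  ∀ p q, e (bs q) p = (χ p.1 : ℤ) * (χ q.1 : ℤ) * d (bs p) q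

variable {n0 n1 n2 n3 n4 : ℕ}

/-- `D` is the twisted dual complex of `F`. -/
structure Dual (F : Cx G n0 n1 n2 n3 n4) (D : Cx G n4 n3 n2 n1 n0) (χ : G →* ℤˣ) : Prop where
  t1 : IsTw χ F.d4 D.d1
  t2 : IsTw χ F.d3 D.d2
  t3 : IsTw χ F.d2 D.d3
  t4 : IsTw χ F.d1 D.d4

/-- Filling inequality for 2-cycles. -/
def Cx.Fill (F : Cx G n0 n1 n2 n3 n4) (α : ℝ) : Prop :=
  ∃ C : ℝ, 0 ≤ C ∧ ∀ z, F.d2 z = 0 → ∃ y, F.d3 y = z ∧ (ms y : ℝ) ≤ C * (ms z : ℝ) ^ α

/-- Boundary map of the Cayley graph. -/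
def cayD (S : Finset G) : Ch G S →+ Ch G Unit :=
  Finsupp.liftAddHom fun p => (zmultiplesHom (Ch G Unit)) (bs (p.1 * p.2, ()) - bs (p.1, ()))

/-- Augmentation of the Cayley graph. -/
def cayAug : Ch G Unit →+ ℤ := Finsupp.liftAddHom fun _ => AddMonoidHom.id ℤ

/-- Chain maps and homotopies between `F` and the Cayley graph in degrees `≤ 1`. -/
structure Cmp (F : Cx G n0 n1 n2 n3 n4) (S : Finset G) where
  a0 : Ch G (Fin n0) →+ Ch G Unit
  a1 : Ch G (Fin n1) →+ Ch G S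
  b0 : Ch G Unit →+ Ch G (Fin n0)
  b1 : Ch G S →+ Ch G (Fin n1)
  h0 : Ch G Unit →+ Ch G S
  k : Ch G S →+ Ch G S
  h0' : Ch G (Fin n0) →+ Ch G (Fin n1)
  k' : Ch G (Fin n1) →+ Ch G (Fin n2)
  ea0 : Eqv a0
  ea1 : Eqv a1
  eb0 : Eqv b0
  eb1 : Eqv b1
  eh0 : Eqv h0
  ek : Eqv k
  eh0' : Eqv h0'
  ek' : Eqv k'
  a_comm : ∀ z, cayD S (a1 z) = a0 (F.d1 z)
  b_comm : ∀ z, F.d1 (b1 z) = b0 (cayD S z)
  aug_b0 : ∀ z, F.aug (b0 z) = cayAug z
  hom0 : ∀ z, a0 (b0 z) = z + cayD S (h0 z)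
  k_cyc : ∀ z, cayD S (k z) = 0
  hom1 : ∀ z, a1 (b1 z) = z + h0 (cayD S z) + k z
  hom1' : ∀ z, z = b1 (a1 z) + h0' (F.d1 z) + F.d2 (k' z)

/-- `c` vanishes on the image of `d`. -/
def Cocyc {ι κ : Type*} (d : Ch G ι →+ Ch G κ) (c : G × κ → ℝ) : Prop := ∀ z, pair c (d z) = 0

/-- `c` is orthogonal to all coboundaries of basis cochains. -/
def Coclosed {κ μ : Type*} (e : Ch G κ →+ Ch G μ) (c : G × κ → ℝ) : Prop :=
  ∀ q, ∑' p, c p * (e (bs p) q : ℝ) = 0

/-- No square summable harmonic cochains. -/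
def HV {ι κ μ : Type*} (d : Ch G ι →+ Ch G κ) (e : Ch G κ →+ Ch G μ) : Prop :=
  ∀ c : G × κ → ℝ, SqSum c → Cocyc d c → Coclosed e c → c = 0

/-- Support condition with respect to a length function. -/
def Within {ι : Type*} (len : G → ℕ) (x : G) (r : ℕ) (z : Ch G ι) : Prop :=
  ∀ p ∈ z.support, len (x⁻¹ * p.1) ≤ r

/-- Proper length functions. -/
structure IsLen (len : G → ℕ) : Prop where
  mul : ∀ g h, len (g * h) ≤ len g + len h
  inv : ∀ g, len g⁻¹ = len g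
  fin : ∀ r, {g | len g ≤ r}.Finite

/-- Cone inequalities in degrees one and two. -/
structure Cx.Cone (F : Cx G n0 n1 n2 n3 n4) (len : G → ℕ) (C : ℕ) : Prop where
  one : ∀ x r z, F.d1 z = 0 → Within len x r z →
    ∃ y, F.d2 y = z ∧ ms y ≤ C * (r + 1) * ms z ∧ Within len x (C * (r + 1)) y
  two : ∀ x r z, F.d2 z = 0 → Within len x r z →
    ∃ y, F.d3 y = z ∧ ms y ≤ C * (r + 1) * ms z

theorem toCh_aux {n : ℕ} (x : Free G n) (g : G) (i : Fin n) :
    (∑ j, Finsupp.mapDomain (fun g => (g, j)) (x j).coeff : Ch G (Fin n)) (g, i) =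
      (x i).coeff g := by
  rw [Finsupp.finsetSum_apply, Finset.sum_eq_single i]
  · exact Finsupp.mapDomain_apply (f := fun g => (g, i)) (fun _ _ h => (Prod.ext_iff.1 h).1) _ _
  · intro j _ hj
    apply Finsupp.mapDomain_of_notMem_range
    rintro ⟨a, ha⟩
    exact hj (Prod.ext_iff.1 ha).2
  · simp

/-- Coordinates on a free module of finite rank. -/
def toCh (G : Type u) [Group G] (n : ℕ) : Free G n ≃+ Ch G (Fin n) where
  toFun x := ∑ i, Finsupp.mapDomain (fun g => (g, i)) (x i).coeff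
  invFun z i := MonoidAlgebra.ofCoeff (z.comapDomain (fun g => (g, i))
    (fun _ _ _ _ h => (Prod.ext_iff.1 h).1))
  left_inv x := by
    funext i
    apply MonoidAlgebra.coeffEquiv.injective
    ext g
    exact toCh_aux x g i
  right_inv z := by
    ext ⟨g, i⟩
    exact toCh_aux _ g i
  map_add' x y := by
    simp [Finsupp.mapDomain_add, Finset.sum_add_distrib]

theorem toCh_apply {n : ℕ} (x : Free G n) (g : G) (i : Fin n) :
    toCh G n x (g, i) = (x i).coeff g := toCh_aux x g i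

/-- A linear map in coordinates. -/
def conj {n m : ℕ} (d : Free G n →ₗ[ZG G] Free G m) : Ch G (Fin n) →+ Ch G (Fin m) :=
  (toCh G m).toAddMonoidHom.comp (d.toAddMonoidHom.comp (toCh G n).symm.toAddMonoidHom)

/-- `F` is the resolution `R` in coordinates. -/
structure Coord (R : FreeRes4 G) (F : Cx G R.n0 R.n1 R.n2 R.n3 R.n4) : Prop where
  c1 : F.d1 = conj R.d1
  c2 : F.d2 = conj R.d2
  c3 : F.d3 = conj R.d3
  c4 : F.d4 = conj R.d4

end Vale.Agent.P239
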