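import Vale.Agent.P239.CxCmp

/-! Task CxCay: from duality to `OneEnded` and `Cofill`. Let `M : Cmp F S`, `τ c p = χ p.1 * c p`. From `IsTw`: for `c : Ch`, `D.d3 c p = χ p.1 * pairZ (τ c) (F.d2 (bs p))` and similarly in the other degrees.
`oneEnded`: `lam (g,s) = 1_U (g s) - 1_U g` has finite support and `pairZ lam z = pairZ 1_U (cayD z)`. `c1 p = pairZ lam (a1 (bs p))` is finitely supported (`Eqv.finite_rev`), `D.d3 (τ c1) = 0` since `cayD a1 d2 = a0 d1 d2 = 0`; by `D.exact3`, `τ c1 = D.d4 y`, so with `φ = τ y`, `c1 p = pairZ φ (d1 (bs p))`.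
`z ↦ pairZ 1_U (a0 z) - pairZ φ z` kills `range d1`, so equals `aug z * m` (`exists_const`). Evaluate at `b0 (bs (g,()))`, use `hom0`, `aug_b0`: `1_U g - m = pairZ φ (b0 (bs (g,()))) - pairZ lam (h0 (bs (g,())))` is finitely supported. If `m = 0`, `U` is finite; if `m ≠ 0`, `Uᶜ` is finite.
`cofill`: choose `l` with the first coordinates of the supports of `a1 (d2 (bs (1,j)))` and `k (bs (1,s))` in `ball S l`. `lam (g,s) = c g s`. If `c` is locally exact at `g` with potential `P`, and `z` is a `cayD`-cycle supported over `g * ball l`, then `pairZ lam z = pairZ P (cayD z) = 0`.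
So `σ p = pairZ lam (a1 (d2 (bs p)))` is supported over the bad set, `|σ p| ≤ C1`, `ms σ ≤ C1 n2 a`, `D.d2 (τ σ) = 0` because `d2 d3 = 0`. Fill `τ σ = D.d3 y`, `c1 = τ y`. `z ↦ pairZ lam (a1 z) - pairZ c1 z` kills `range d2`, so it is `Ω ∘ d1` (`exists_hom_factor`).
`w g = Ω (b0 (bs (g,()))) - pairZ lam (h0 (bs (g,())))`; by `hom1`, `lam e - dw e = pairZ c1 (b1 (bs e)) - pairZ lam (k (bs e))`, nonzero for at most `C2 * card (support y) + card S * a` edges.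
-/

noncomputable section

open Classical Filter Topology Set

namespace Vale.Agent.P239

universe u
variable {G : Type u} [Group G] {S : Finset G} {n0 n1 n2 n3 n4 : ℕ}

section
variable {ι κ : Type*}

theorem cc_pairZ_sum {α : Type*} (c : α → ℤ) (z : α →₀ ℤ) (s : Finset α)
    (h : ∀ q, q ∉ s → c q = 0) : pairZ c z = ∑ q ∈ s, z q * c q := by
  have h1 : pairZ c z = ∑ q ∈ z.support ∪ s, z q * c q :=
    Finsupp.sum_of_support_subset z Finset.subset_union_left _ fun _ _ => zero_mul _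
  rw [h1]
  exact (Finset.sum_subset Finset.subset_union_right fun q _ hq => by rw [h q hq, mul_zero]).symm

theorem cc_pairZ_congr {α : Type*} {c c' : α → ℤ} {z : α →₀ ℤ} (h : ∀ q, z q ≠ 0 → c q = c' q) :
    pairZ c z = pairZ c' z :=
  Finset.sum_congr rfl fun q hq => congrArg (z q * ·) (h q (Finsupp.mem_support_iff.1 hq))

theorem cc_pairZ_zero {α : Type*} (c : α → ℤ) : pairZ c 0 = 0 := (pairZHom c).map_zero

theorem cc_pairZ_add {α : Type*} (c : α → ℤ) (z w : α →₀ ℤ) :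
    pairZ c (z + w) = pairZ c z + pairZ c w := (pairZHom c).map_add z w

theorem cc_natAbs_le {α : Type*} {c : α → ℤ} (hc : ∀ q, |c q| ≤ 1) (z : α →₀ ℤ) :
    (pairZ c z).natAbs ≤ ms z := by
  have h1 : |pairZ c z| ≤ ∑ q ∈ z.support, |z q| := by
    refine (Finset.abs_sum_le_sum_abs _ _).trans (Finset.sum_le_sum fun q _ => ?_)
    rw [abs_mul]
    exact mul_le_of_le_one_right (abs_nonneg _) (hc q)
  have h2 : ((ms z : ℕ) : ℤ) = ∑ q ∈ z.support, |z q| := by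
    rw [cl_ms z (Finset.Subset.refl _), Nat.cast_sum]
    exact Finset.sum_congr rfl fun q _ => Int.natCast_natAbs _
  rw [← h2, ← Int.natCast_natAbs] at h1
  exact_mod_cast h1

theorem cc_chi (χ : G →* ℤˣ) (g : G) (a : ℤ) : (χ g : ℤ) * ((χ g : ℤ) * a) = a := by
  rw [← mul_assoc, ← Units.val_mul, Int.units_mul_self, Units.val_one, one_mul]

theorem cc_tw_apply {χ : G →* ℤˣ} {d : Ch G ι →+ Ch G κ} {e : Ch G κ →+ Ch G ι} (h : IsTw χ d e)
    (y : Ch G κ) (p : G × ι) :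
    e y p = (χ p.1 : ℤ) * pairZ (fun q => (χ q.1 : ℤ) * y q) (d (bs p)) := by
  rw [cc_pairZ_sum _ _ y.support fun q hq => by rw [Finsupp.notMem_support_iff.1 hq, mul_zero],
    cl_expand e y, Finsupp.finsetSum_apply, Finset.mul_sum]
  refine Finset.sum_congr rfl fun q _ => ?_
  rw [Finsupp.smul_apply, h p q, smul_eq_mul]
  ring

theorem cc_tw_cyc {χ : G →* ℤˣ} {d : Ch G ι →+ Ch G κ} {e : Ch G κ →+ Ch G ι} (h : IsTw χ d e)
    {c : G × κ → ℤ} {x : Ch G κ} (hx : ∀ q, x q = (χ q.1 : ℤ) * c q)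
    (hc : ∀ z, pairZ c (d z) = 0) : e x = 0 := by
  ext p
  rw [cc_tw_apply h]
  simp only [hx, cc_chi]
  rw [hc, mul_zero, Finsupp.zero_apply]

theorem cc_tw_solve {χ : G →* ℤˣ} {d : Ch G ι →+ Ch G κ} {e : Ch G κ →+ Ch G ι} (h : IsTw χ d e)
    {c : G × ι → ℤ} {y : Ch G κ} (hy : ∀ p, e y p = (χ p.1 : ℤ) * c p) (z : Ch G ι) :
    pairZ c z = pairZ (fun q => (χ q.1 : ℤ) * y q) (d z) := by
  rw [← pairZ_comp]
  refine cc_pairZ_congr fun p _ => ?_
  rw [← cc_chi χ p.1 (c p), ← hy, cc_tw_apply h, cc_chi]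

theorem cc_twist (χ : G →* ℤˣ) {c : G × ι → ℤ} (hc : {p | c p ≠ 0}.Finite) :
    ∃ x : Ch G ι, ∀ q, x q = (χ q.1 : ℤ) * c q :=
  ⟨Finsupp.ofSupportFinite (fun q => (χ q.1 : ℤ) * c q)
    (hc.subset fun _ hq => right_ne_zero_of_mul hq), fun _ => rfl⟩

theorem cc_pull [Finite ι] {f : Ch G ι →+ Ch G κ} (hf : Eqv f) :
    ∃ C : ℕ, ∀ (c : G × κ → ℤ) (s : Finset (G × κ)), (∀ q, c q ≠ 0 → q ∈ s) →
      ∃ t : Finset (G × ι), t.card ≤ s.card * C ∧ ∀ p, pairZ c (f (bs p)) ≠ 0 → p ∈ t := by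
  obtain ⟨C, hC⟩ := hf.finite_rev
  refine ⟨C, fun c s hs => ⟨s.biUnion fun q => (hC q).1.toFinset,
    Finset.card_biUnion_le_card_mul _ _ _ fun q _ => ?_, fun p hp => ?_⟩⟩
  · rw [← ncard_eq_toFinset_card _ (hC q).1]
    exact (hC q).2
  · obtain ⟨q, -, hq⟩ := Finset.exists_ne_zero_of_sum_ne_zero hp
    exact Finset.mem_biUnion.2 ⟨q, hs q (right_ne_zero_of_mul hq),
      (hC q).1.mem_toFinset.2 (left_ne_zero_of_mul hq)⟩

theorem cc_pull_finite [Finite ι] {f : Ch G ι →+ Ch G κ} (hf : Eqv f) {c : G × κ → ℤ}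
    (hc : {q | c q ≠ 0}.Finite) : {p | pairZ c (f (bs p)) ≠ 0}.Finite := by
  obtain ⟨C, hC⟩ := cc_pull hf
  obtain ⟨t, -, ht⟩ := hC c hc.toFinset fun q hq => hc.mem_toFinset.2 hq
  exact t.finite_toSet.subset ht

end

theorem cc_grad (P : G × Unit → ℤ) (e : G × S) :
    pairZ P (cayD S (bs e)) = P (e.1 * e.2, ()) - P (e.1, ()) := by
  rw [cayD_bs, ← pairZHom_apply, map_sub, pairZHom_apply, pairZHom_apply, pairZ_single, pairZ_single]

theorem cc_loc {l : ℕ} {c : G → G → ℤ} {g : G} (h : LocExact S l c g) {z : Ch G S}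
    (hz : cayD S z = 0) (hs : ∀ q, z q ≠ 0 → g⁻¹ * q.1 ∈ ball S l) :
    pairZ (fun e : G × S => c e.1 e.2) z = 0 := by
  obtain ⟨P, hP⟩ := h
  have h1 := pairZ_comp (fun p : G × Unit => P p.1) (cayD S) z
  rw [hz, cc_pairZ_zero] at h1
  rw [← h1]
  refine cc_pairZ_congr fun q hq => ?_
  have h2 := hP _ (hs q hq) q.2 q.2.2
  rw [mul_inv_cancel_left] at h2
  rw [h2]
  exact (cc_grad (fun p : G × Unit => P p.1) q).symm

theorem Dual.oneEnded {F : Cx G n0 n1 n2 n3 n4} {D : Cx G n4 n3 n2 n1 n0} {χ : G →* ℤˣ}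
    (h : Dual F D χ) (hS : Cay S) : OneEnded S := by
  intro U hU
  obtain ⟨M⟩ := F.exists_cmp hS
  obtain ⟨ind, hind⟩ : ∃ ind : G × Unit → ℤ, ∀ p, ind p = if p.1 ∈ U then 1 else 0 :=
    ⟨_, fun _ => rfl⟩
  obtain ⟨lam, hlam⟩ : ∃ lam : G × S → ℤ, lam = fun e => pairZ ind (cayD S (bs e)) := ⟨_, rfl⟩
  have hl : ∀ z, pairZ lam z = pairZ ind (cayD S z) := fun z => by
    rw [hlam]
    exact pairZ_comp ind (cayD S) z
  have hfin : {e | lam e ≠ 0}.Finite := by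
    refine Finite.of_finite_image (f := fun e : G × S => (e.1, (e.2 : G))) (hU.subset ?_) ?_
    · rintro _ ⟨e, he, rfl⟩
      refine ⟨e.2.2, fun h1 => he ?_⟩
      rw [hlam]
      beta_reduce
      rw [cc_grad, hind, hind, if_congr h1 rfl rfl, sub_self]
    · intro a _ b _ hab
      exact Prod.ext (Prod.ext_iff.1 hab).1 (Subtype.ext (Prod.ext_iff.1 hab).2)
  obtain ⟨x, hx⟩ := cc_twist χ (cc_pull_finite M.ea1 hfin)
  have h1 : D.d3 x = 0 := cc_tw_cyc h.t3 hx fun z => by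
    rw [pairZ_comp, hl, M.a_comm, F.exact1.apply_apply_eq_zero, map_zero, cc_pairZ_zero]
  obtain ⟨y, hy⟩ := (D.exact3 x).1 h1
  have h2 := cc_tw_solve h.t4 (y := y) (fun p => by rw [hy, hx])
  obtain ⟨φ, hφ⟩ : ∃ φ : G × Fin n0 → ℤ, φ = fun q => (χ q.1 : ℤ) * y q := ⟨_, rfl⟩
  rw [← hφ] at h2
  have hφf : {q | φ q ≠ 0}.Finite := y.support.finite_toSet.subset fun q hq => by
    rw [hφ] at hq
    exact Finsupp.mem_support_iff.2 (right_ne_zero_of_mul hq)
  obtain ⟨m, hm⟩ := F.exists_const ((pairZHom ind).comp M.a0 - pairZHom φ) fun z => by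
    change pairZ ind (M.a0 (F.d1 z)) - pairZ φ (F.d1 z) = 0
    rw [← h2, pairZ_comp, hl, M.a_comm, sub_self]
  have h3 : ∀ p : G × Unit, ind p - m = pairZ φ (M.b0 (bs p)) - pairZ lam (M.h0 (bs p)) := by
    intro p
    have h4 : pairZ ind (M.a0 (M.b0 (bs p))) - pairZ φ (M.b0 (bs p)) = F.aug (M.b0 (bs p)) • m :=
      hm _
    rw [M.hom0, M.aug_b0, cayAug_bs, one_smul, cc_pairZ_add, pairZ_single, ← hl] at h4
    linarith
  have h4 : {g : G | ind (g, ()) ≠ m}.Finite := by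
    refine Finite.of_finite_image (f := fun g : G => (g, ()))
      (((cc_pull_finite M.eb0 hφf).union (cc_pull_finite M.eh0 hfin)).subset ?_)
      fun a _ b _ hab => (Prod.ext_iff.1 hab).1
    rintro _ ⟨g, hg, rfl⟩
    by_contra h5
    simp only [mem_union, mem_ofPred_eq, not_or, not_not] at h5
    have h6 := h3 (g, ())
    rw [h5.1, h5.2, sub_self, sub_eq_zero] at h6
    exact hg h6
  by_cases hm0 : m = 0
  · refine Or.inl (h4.subset fun g hg => ?_)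
    rw [mem_ofPred_eq, hind, if_pos hg, hm0]
    exact one_ne_zero
  · refine Or.inr (h4.subset fun g hg => ?_)
    rw [mem_ofPred_eq, hind, if_neg hg]
    exact Ne.symm hm0

theorem Dual.cofill {F : Cx G n0 n1 n2 n3 n4} {D : Cx G n4 n3 n2 n1 n0} {χ : G →* ℤˣ}
    (h : Dual F D χ) (hS : Cay S) {α : ℝ} (h1 : 1 ≤ α) (h2 : α < 2) (hD : D.Fill α) :
    ∃ l, Cofill S l := by
  obtain ⟨M⟩ := F.exists_cmp hS
  obtain ⟨T1, hT1⟩ := (M.ea1.comp F.e2).exists_finset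
  obtain ⟨T2, hT2⟩ := M.ek.exists_finset
  obtain ⟨l, hl⟩ := hS.finite_subset_ball (T1.finite_toSet.union T2.finite_toSet)
  obtain ⟨C1, hC1⟩ := (M.ea1.comp F.e2).ms_le
  obtain ⟨C2, hC2⟩ := cc_pull M.eb1
  obtain ⟨C, hC0, hC⟩ := hD
  refine ⟨l, C2 * C * ((n2 * C1 : ℕ) : ℝ) ^ α + S.card, α, by positivity, h1, h2,
    fun c hc hbad => ?_⟩
  obtain ⟨lam, hlam⟩ : ∃ lam : G × S → ℤ, lam = fun e : G × S => c e.1 e.2 := ⟨_, rfl⟩
  obtain ⟨σ, hσ⟩ : ∃ σ : G × Fin n2 → ℤ, σ = fun p => pairZ lam (M.a1.comp F.d2 (bs p)) :=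
    ⟨_, rfl⟩
  have hσp : ∀ z, pairZ σ z = pairZ lam (M.a1 (F.d2 z)) := fun z => by
    rw [hσ]
    exact pairZ_comp lam (M.a1.comp F.d2) z
  have hσs : ∀ p, σ p ≠ 0 → p ∈ hbad.toFinset ×ˢ (Finset.univ : Finset (Fin n2)) := by
    intro p hp
    refine Finset.mem_product.2 ⟨hbad.mem_toFinset.2 fun hx => hp ?_, Finset.mem_univ _⟩
    rw [hσ, hlam]
    refine cc_loc hx ?_ fun q hq => hl _ (Or.inl (hT1 p q hq))
    rw [AddMonoidHom.comp_apply, M.a_comm, F.exact1.apply_apply_eq_zero, map_zero]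
  have hσb : ∀ p, (σ p).natAbs ≤ C1 := fun p => by
    rw [hσ]
    refine (cc_natAbs_le (fun q => by rw [hlam]; exact hc _ _) _).trans ((hC1 _).trans ?_)
    rw [ms_single, Int.natAbs_one, mul_one]
  obtain ⟨x, hx⟩ := cc_twist χ (c := σ) ((Finset.finite_toSet _).subset hσs)
  have hxm : ms x ≤ n2 * C1 * {y | ¬ LocExact S l c y}.ncard := by
    rw [cl_ms x (s := hbad.toFinset ×ˢ (Finset.univ : Finset (Fin n2))) fun q hq =>
      hσs q (right_ne_zero_of_mul (hx q ▸ Finsupp.mem_support_iff.1 hq))]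
    refine (Finset.sum_le_card_nsmul _ _ C1 fun q _ => ?_).trans (le_of_eq ?_)
    · rw [hx, Int.natAbs_mul, Int.units_natAbs, one_mul]
      exact hσb q
    · rw [Finset.card_product, Finset.card_univ, Fintype.card_fin, ncard_eq_toFinset_card _ hbad,
        smul_eq_mul]
      ring
  obtain ⟨y, hy, hym⟩ := hC x (cc_tw_cyc h.t2 hx fun z => by
    rw [hσp, F.exact2.apply_apply_eq_zero, map_zero, cc_pairZ_zero])
  have h3 := cc_tw_solve h.t3 (y := y) (fun p => by rw [hy, hx])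
  obtain ⟨c1, hc1⟩ : ∃ c1 : G × Fin n1 → ℤ, c1 = fun q => (χ q.1 : ℤ) * y q := ⟨_, rfl⟩
  rw [← hc1] at h3
  obtain ⟨t, ht1, ht2⟩ := hC2 c1 y.support fun q hq => by
    rw [hc1] at hq
    exact Finsupp.mem_support_iff.2 (right_ne_zero_of_mul hq)
  obtain ⟨Ω, hΩ⟩ := F.exists_hom_factor ((pairZHom lam).comp M.a1 - pairZHom c1) fun z => by
    change pairZ lam (M.a1 (F.d2 z)) - pairZ c1 (F.d2 z) = 0
    rw [← h3, hσp, sub_self]
  obtain ⟨W, hW⟩ : ∃ W : Ch G Unit →+ ℤ, W = Ω.comp M.b0 - (pairZHom lam).comp M.h0 := ⟨_, rfl⟩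
  have h4 : ∀ e : G × S, W (bs (e.1 * e.2, ())) - W (bs (e.1, ())) =
      lam e + pairZ lam (M.k (bs e)) - pairZ c1 (M.b1 (bs e)) := by
    intro e
    have h5 : pairZ lam (M.a1 (M.b1 (bs e))) - pairZ c1 (M.b1 (bs e)) = Ω (F.d1 (M.b1 (bs e))) :=
      hΩ _
    rw [M.hom1, cc_pairZ_add, cc_pairZ_add, pairZ_single, M.b_comm] at h5
    rw [← map_sub, ← cayD_bs, hW]
    change Ω (M.b0 (cayD S (bs e))) - pairZ lam (M.h0 (cayD S (bs e))) = _
    linarith
  have h5 : defect S c (fun g => W (bs (g, ()))) ⊆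
      ((t.image (fun e : G × S => (e.1, (e.2 : G))) ∪ hbad.toFinset ×ˢ S : Finset (G × G)) :
        Set (G × G)) := by
    rintro ⟨g, s⟩ ⟨hs, he⟩
    refine Finset.mem_coe.2 (Finset.mem_union.2 ?_)
    by_cases hg : LocExact S l c g
    · refine Or.inl (Finset.mem_image.2 ⟨(g, ⟨s, hs⟩), ht2 _ fun h6 => he ?_, rfl⟩)
      have h7 := h4 (g, ⟨s, hs⟩)
      have h8 : pairZ lam (M.k (bs (g, ⟨s, hs⟩))) = 0 := by
        rw [hlam]
        exact cc_loc hg (M.k_cyc _) fun q hq => hl _ (Or.inr (hT2 _ q hq))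
      rw [h6, h8, add_zero, sub_zero, hlam] at h7
      exact h7.symm
    · exact Or.inr (Finset.mem_product.2 ⟨hbad.mem_toFinset.2 hg, hs⟩)
  refine ⟨fun g => W (bs (g, ())), (Finset.finite_toSet _).subset h5, ?_⟩
  have h6 : (defect S c fun g => W (bs (g, ()))).ncard ≤
      ms y * C2 + {y | ¬ LocExact S l c y}.ncard * S.card := by
    refine (ncard_le_ncard h5 (Finset.finite_toSet _)).trans ?_
    rw [ncard_coe_finset]
    refine (Finset.card_union_le _ _).trans (Nat.add_le_add (Finset.card_image_le.trans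
      (ht1.trans (Nat.mul_le_mul_right _ (card_support_le_ms y)))) (le_of_eq ?_))
    rw [Finset.card_product, ncard_eq_toFinset_card _ hbad]
  generalize {y | ¬ LocExact S l c y}.ncard = a at h6 hxm ⊢
  have h7 : (a : ℝ) ≤ (a : ℝ) ^ α := by
    rcases Nat.eq_zero_or_pos a with rfl | ha
    · rw [Nat.cast_zero]
      exact Real.rpow_nonneg le_rfl _
    · exact Real.self_le_rpow_of_one_le (by exact_mod_cast ha) h1
  have h8 : (ms x : ℝ) ^ α ≤ ((n2 * C1 : ℕ) : ℝ) ^ α * (a : ℝ) ^ α := by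
    rw [← Real.mul_rpow (Nat.cast_nonneg _) (Nat.cast_nonneg _)]
    exact Real.rpow_le_rpow (Nat.cast_nonneg _) (by exact_mod_cast hxm) (zero_le_one.trans h1)
  have h9 : ((defect S c fun g => W (bs (g, ()))).ncard : ℝ) ≤ ms y * C2 + a * S.card := by
    exact_mod_cast h6
  have h10 := mul_le_mul_of_nonneg_right (hym.trans (mul_le_mul_of_nonneg_left h8 hC0))
    (Nat.cast_nonneg C2)
  have h11 := mul_le_mul_of_nonneg_right h7 (Nat.cast_nonneg S.card)
  linarith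

end Vale.Agent.P239
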