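import Vale.Agent.P239.CxLift
import Vale.Agent.P239.Ball

/-! Task CxCmp: comparison maps (fundamental lemma of homological algebra, by `exists_lift0`, `exists_lift`).
`cay_exact`: modulo `range (cayD S)` every `bs (g, ())` is congruent to `bs (1, ())` (`Cay.const_of_edges` applied to the class in the quotient group), so `z ≡ cayAug z • bs (1,())`.
`exists_cmp`: `a0, b0` preserve augmentations; `a1, b1` lifts; `h0` with `cayD (h0 z) = a0 (b0 z) - z`; `k = a1 b1 - id - h0 cayD`; `h0'` with `d1 (h0' z) = z - b0 (a0 z)`; `k'` lifts the cycle `z - b1 (a1 z) - h0' (d1 z)`.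
`Fill.transfer`: chain maps `φ0..φ2 : D → F`, `ψ0..ψ3 : F → D`, homotopies `s0, s1, s2` on `D` with `z - ψ φ z = d s z + s d z`. For a 2-cycle `z` of `D`: fill `φ2 z = d3 y` in `F`, then `z = d3 (ψ3 y + s2 z)`; masses by `Eqv.ms_le`; `m ≤ m^α` for natural `m` since `1 ≤ α`.
-/

noncomputable section

open Classical Filter Topology Set

namespace Vale.Agent.P239

universe u
variable {G : Type u} [Group G] {S : Finset G} {n0 n1 n2 n3 n4 : ℕ}

theorem cxCmp_aug_tr (g : G) (z : Ch G Unit) : cayAug (tr g z) = cayAug z := by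
  have h : (cayAug (G := G)).comp (tr g) = cayAug := by
    refine hom_ext_bs fun p => ?_
    change cayAug (tr g (bs p)) = cayAug (bs p)
    rw [tr_bs, cayAug_bs, cayAug_bs]
  exact DFunLike.congr_fun h z

theorem cxCmp_aug_surj : Function.Surjective (cayAug (G := G)) := fun a =>
  ⟨a • bs (1, ()), by rw [map_zsmul, cayAug_bs, smul_eq_mul, mul_one]⟩

theorem cxCmp_aug_d (z : Ch G S) : cayAug (cayD S z) = 0 := by
  have h : (cayAug (G := G)).comp (cayD S) = 0 := by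
    refine hom_ext_bs fun p => ?_
    change cayAug (cayD S (bs p)) = 0
    rw [cayD_bs, map_sub, cayAug_bs, cayAug_bs, sub_self]
  exact DFunLike.congr_fun h z

theorem Cay.cay_exact (hS : Cay S) : Function.Exact (cayD S) (cayAug (G := G)) := by
  intro z
  refine ⟨fun hz => ?_, ?_⟩
  · have h1 := hS.const_of_edges
      (fun g => QuotientAddGroup.mk' (cayD S).range (bs (g, ()) : Ch G Unit)) (fun x s hs => by
        rw [← sub_eq_zero, ← map_sub, QuotientAddGroup.mk'_apply, QuotientAddGroup.eq_zero_iff]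
        exact ⟨bs (x, ⟨s, hs⟩), cayD_bs _⟩)
    have h2 : QuotientAddGroup.mk' (cayD S).range =
        (zmultiplesHom _ (QuotientAddGroup.mk' (cayD S).range (bs (1, ()) : Ch G Unit))).comp
          cayAug := by
      refine hom_ext_bs fun p => ?_
      change _ = zmultiplesHom _ _ (cayAug (bs p))
      rw [cayAug_bs, zmultiplesHom_apply, one_smul]
      exact h1 p.1 1
    have h3 := DFunLike.congr_fun h2 z
    rw [AddMonoidHom.comp_apply, hz, map_zero, QuotientAddGroup.mk'_apply,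
      QuotientAddGroup.eq_zero_iff] at h3
    exact h3
  · rintro ⟨y, rfl⟩
    exact cxCmp_aug_d y

theorem Cx.exists_cmp (F : Cx G n0 n1 n2 n3 n4) (hS : Cay S) : Nonempty (Cmp F S) := by
  have hex := hS.cay_exact
  obtain ⟨a0, ea0, ha0⟩ := exists_lift0 (a := F.aug) (a' := cayAug) F.aug_tr cxCmp_aug_tr
    cxCmp_aug_surj
  obtain ⟨b0, eb0, hb0⟩ := exists_lift0 (a := cayAug) (a' := F.aug) cxCmp_aug_tr F.aug_tr
    F.aug_surj
  obtain ⟨a1, ea1, ha1⟩ := exists_lift (d := cayD S) (f := a0.comp F.d1) eqv_cayD (ea0.comp F.e1)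
    fun z => (hex _).1 (by rw [AddMonoidHom.comp_apply, ha0, F.exact0.apply_apply_eq_zero])
  obtain ⟨b1, eb1, hb1⟩ := exists_lift (d := F.d1) (f := b0.comp (cayD S)) F.e1 (eb0.comp eqv_cayD)
    fun z => (F.exact0 _).1 (by rw [AddMonoidHom.comp_apply, hb0, cxCmp_aug_d])
  obtain ⟨h0, eh0, hh0⟩ := exists_lift (d := cayD S) (f := a0.comp b0 - AddMonoidHom.id _) eqv_cayD
    ((ea0.comp eb0).sub eqv_id) fun z => (hex _).1 (by
      rw [AddMonoidHom.sub_apply, AddMonoidHom.comp_apply, AddMonoidHom.id_apply, map_sub, ha0, hb0,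
        sub_self])
  obtain ⟨h0', eh0', hh0'⟩ := exists_lift (d := F.d1) (f := AddMonoidHom.id _ - b0.comp a0) F.e1
    (eqv_id.sub (eb0.comp ea0)) fun z => (F.exact0 _).1 (by
      rw [AddMonoidHom.sub_apply, AddMonoidHom.comp_apply, AddMonoidHom.id_apply, map_sub, hb0, ha0,
        sub_self])
  simp only [AddMonoidHom.sub_apply, AddMonoidHom.comp_apply, AddMonoidHom.id_apply]
    at ha1 hb1 hh0 hh0'
  obtain ⟨k', ek', hk'⟩ := exists_lift (d := F.d2)
    (f := AddMonoidHom.id _ - b1.comp a1 - h0'.comp F.d1) F.e2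
    ((eqv_id.sub (eb1.comp ea1)).sub (eh0'.comp F.e1)) fun z => (F.exact1 _).1 (by
      simp only [AddMonoidHom.sub_apply, AddMonoidHom.comp_apply, AddMonoidHom.id_apply, map_sub,
        hb1, ha1, hh0', sub_self])
  simp only [AddMonoidHom.sub_apply, AddMonoidHom.comp_apply, AddMonoidHom.id_apply] at hk'
  refine ⟨⟨a0, a1, b0, b1, h0, a1.comp b1 - AddMonoidHom.id _ - h0.comp (cayD S), h0', k', ea0, ea1,
    eb0, eb1, eh0, ((ea1.comp eb1).sub eqv_id).sub (eh0.comp eqv_cayD), eh0', ek', ha1, hb1, hb0,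
    fun z => ?_, fun z => ?_, fun z => ?_, fun z => ?_⟩⟩
  · rw [hh0, add_sub_cancel]
  · simp only [AddMonoidHom.sub_apply, AddMonoidHom.comp_apply, AddMonoidHom.id_apply, map_sub,
      ha1, hb1, hh0, sub_self]
  · simp only [AddMonoidHom.sub_apply, AddMonoidHom.comp_apply, AddMonoidHom.id_apply]
    abel
  · rw [hk']
    abel

theorem cxCmp_chain {m0 m1 m2 m3 m4 : ℕ} (D : Cx G m0 m1 m2 m3 m4) (F : Cx G n0 n1 n2 n3 n4) :
    ∃ (φ0 : Ch G (Fin m0) →+ Ch G (Fin n0)) (φ1 : Ch G (Fin m1) →+ Ch G (Fin n1))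
      (φ2 : Ch G (Fin m2) →+ Ch G (Fin n2)) (φ3 : Ch G (Fin m3) →+ Ch G (Fin n3)),
      Eqv φ0 ∧ Eqv φ1 ∧ Eqv φ2 ∧ Eqv φ3 ∧ (∀ z, F.aug (φ0 z) = D.aug z) ∧
      (∀ z, F.d1 (φ1 z) = φ0 (D.d1 z)) ∧ (∀ z, F.d2 (φ2 z) = φ1 (D.d2 z)) ∧
      (∀ z, F.d3 (φ3 z) = φ2 (D.d3 z)) := by
  obtain ⟨φ0, e0, h0⟩ := exists_lift0 (a := D.aug) (a' := F.aug) D.aug_tr F.aug_tr F.aug_surj
  obtain ⟨φ1, e1, h1⟩ := exists_lift (d := F.d1) (f := φ0.comp D.d1) F.e1 (e0.comp D.e1)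
    fun z => (F.exact0 _).1 (by rw [AddMonoidHom.comp_apply, h0, D.exact0.apply_apply_eq_zero])
  obtain ⟨φ2, e2, h2⟩ := exists_lift (d := F.d2) (f := φ1.comp D.d2) F.e2 (e1.comp D.e2)
    fun z => (F.exact1 _).1 (by
      rw [AddMonoidHom.comp_apply, h1, AddMonoidHom.comp_apply, D.exact1.apply_apply_eq_zero,
        map_zero])
  obtain ⟨φ3, e3, h3⟩ := exists_lift (d := F.d3) (f := φ2.comp D.d3) F.e3 (e2.comp D.e3)
    fun z => (F.exact2 _).1 (by
      rw [AddMonoidHom.comp_apply, h2, AddMonoidHom.comp_apply, D.exact2.apply_apply_eq_zero,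
        map_zero])
  exact ⟨φ0, φ1, φ2, φ3, e0, e1, e2, e3, h0, h1, h2, h3⟩

theorem Cx.Fill.transfer {m0 m1 m2 m3 m4 : ℕ} {F : Cx G n0 n1 n2 n3 n4} {α : ℝ} (h : F.Fill α)
    (hα : 1 ≤ α) (D : Cx G m0 m1 m2 m3 m4) : D.Fill α := by
  obtain ⟨C, hC0, hC⟩ := h
  obtain ⟨φ0, φ1, φ2, -, eφ0, eφ1, eφ2, -, hφ0, hφ1, hφ2, -⟩ := cxCmp_chain D F
  obtain ⟨ψ0, ψ1, ψ2, ψ3, eψ0, eψ1, eψ2, eψ3, hψ0, hψ1, hψ2, hψ3⟩ := cxCmp_chain F D
  obtain ⟨s0, es0, hs0⟩ := exists_lift (d := D.d1) (f := AddMonoidHom.id _ - ψ0.comp φ0) D.e1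
    (eqv_id.sub (eψ0.comp eφ0)) fun z => (D.exact0 _).1 (by
      simp only [AddMonoidHom.sub_apply, AddMonoidHom.comp_apply, AddMonoidHom.id_apply, map_sub,
        hψ0, hφ0, sub_self])
  simp only [AddMonoidHom.sub_apply, AddMonoidHom.comp_apply, AddMonoidHom.id_apply] at hs0
  obtain ⟨s1, es1, hs1⟩ := exists_lift (d := D.d2)
    (f := AddMonoidHom.id _ - ψ1.comp φ1 - s0.comp D.d1) D.e2
    ((eqv_id.sub (eψ1.comp eφ1)).sub (es0.comp D.e1)) fun z => (D.exact1 _).1 (by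
      simp only [AddMonoidHom.sub_apply, AddMonoidHom.comp_apply, AddMonoidHom.id_apply, map_sub,
        hψ1, hφ1, hs0, sub_self])
  simp only [AddMonoidHom.sub_apply, AddMonoidHom.comp_apply, AddMonoidHom.id_apply] at hs1
  obtain ⟨s2, es2, hs2⟩ := exists_lift (d := D.d3)
    (f := AddMonoidHom.id _ - ψ2.comp φ2 - s1.comp D.d2) D.e3
    ((eqv_id.sub (eψ2.comp eφ2)).sub (es1.comp D.e2)) fun z => (D.exact2 _).1 (by
      simp only [AddMonoidHom.sub_apply, AddMonoidHom.comp_apply, AddMonoidHom.id_apply, map_sub,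
        hψ2, hφ2, hs1, D.exact1.apply_apply_eq_zero, map_zero, sub_zero, sub_self])
  simp only [AddMonoidHom.sub_apply, AddMonoidHom.comp_apply, AddMonoidHom.id_apply] at hs2
  obtain ⟨A, hA⟩ := eφ2.ms_le
  obtain ⟨B, hB⟩ := eψ3.ms_le
  obtain ⟨E, hE⟩ := es2.ms_le
  have hα0 : 0 ≤ α := by linarith
  refine ⟨B * (C * (A : ℝ) ^ α) + E, by positivity, fun z hz => ?_⟩
  obtain ⟨y, hy, hym⟩ := hC (φ2 z) (by rw [hφ2, hz, map_zero])
  refine ⟨ψ3 y + s2 z, ?_, ?_⟩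
  · rw [map_add, hψ3, hy, hs2, hz, map_zero, sub_zero, add_sub_cancel]
  · have h1 : (ms (ψ3 y + s2 z) : ℝ) ≤ B * ms y + E * ms z := by
      exact_mod_cast (ms_add_le _ _).trans (add_le_add (hB y) (hE z))
    have h2 : (ms (φ2 z) : ℝ) ^ α ≤ (A : ℝ) ^ α * (ms z : ℝ) ^ α := by
      rw [← Real.mul_rpow (Nat.cast_nonneg _) (Nat.cast_nonneg _)]
      exact Real.rpow_le_rpow (Nat.cast_nonneg _) (by exact_mod_cast hA z) hα0
    have h3 : (ms z : ℝ) ≤ (ms z : ℝ) ^ α := by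
      rcases Nat.eq_zero_or_pos (ms z) with h0 | h0
      · rw [h0, Nat.cast_zero]
        exact Real.rpow_nonneg le_rfl _
      · exact Real.self_le_rpow_of_one_le (by exact_mod_cast h0) hα
    have h4 := mul_le_mul_of_nonneg_left (hym.trans (mul_le_mul_of_nonneg_left h2 hC0))
      (Nat.cast_nonneg (α := ℝ) B)
    have h5 := mul_le_mul_of_nonneg_left h3 (Nat.cast_nonneg (α := ℝ) E)
    linarith

end Vale.Agent.P239
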