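import Vale.Agent.P239.CxLift

/-! Task CxDual: coordinates for the resolution and its dual.
`toCh (of g • x) = tr g (toCh x)` (coefficients of `single g 1 * a`), so `conj d` is equivariant, exactness is transported along the additive equivalences.
Dual: identify `f : Free G n →ₗ ZG G` with the finitely supported function `co f (g, i) = (f (Pi.single i 1)).coeff g⁻¹` (an additive equivalence onto `Ch G (Fin n)`; a linear map on `Fin n → ZG G` is determined by, and can be prescribed on, the basis).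
One has `(f x).coeff 1 = pairZ (co f) (toCh x)`, hence `co (f ∘ d) p = pairZ (co f) (conj d (bs p))`, i.e. `δ c p = ∑ q, c q * conj d (bs p) q`. Translation `tr g` on `co f` corresponds to `x ↦ f x * of g⁻¹`; so `δ` is equivariant (or check directly from `Eqv.apply_bs`).
`η' = η ∘ co⁻¹ : Ch →+ ℤ` is onto with kernel `range δ4`, which is `tr`-invariant, so `η' (tr g c) = χ g * η' c` with `χ g = η' (tr g v)`, `η' v = 1`; `χ` is multiplicative with `χ 1 = 1`, giving `χ : G →* ℤˣ`. Let `τ c p = χ p.1 * c p` (an involution, `τ (tr h c) = χ h • tr h (τ c)`), and put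
`D.d_j = τ ∘ δ_(5-j) ∘ τ`, `D.aug = η' ∘ τ`.
`fill`: `ms (toCh x) = mass x`; use exponent `max α 1`: for `z ≠ 0`, `mass z ≥ 1`; for `z = 0` take `y = 0`; replace `C` by `max C 0`.
-/

noncomputable section

open Classical Filter Topology Set

namespace Vale.Agent.P239

universe u
variable {G : Type u} [Group G] {S : Finset G} {n0 n1 n2 n3 n4 : ℕ}

theorem toCh_smul {n : ℕ} (g : G) (x : Free G n) :
    toCh G n (MonoidAlgebra.of ℤ G g • x) = tr g (toCh G n x) := by
  ext ⟨h, i⟩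
  rw [tr_apply, toCh_apply, toCh_apply, Pi.smul_apply, smul_eq_mul, MonoidAlgebra.of_apply,
    MonoidAlgebra.coeff_single_mul_apply, one_mul]

theorem toCh_single {n : ℕ} (i : Fin n) : toCh G n (Pi.single i 1) = bs (1, i) := by
  ext ⟨h, j⟩
  rw [toCh_apply]
  by_cases hj : j = i
  · subst hj
    rw [Pi.single_eq_same, MonoidAlgebra.one_def, MonoidAlgebra.coeff_single, Finsupp.single_apply,
      Finsupp.single_apply]
    simp only [Prod.mk.injEq, and_true]
  · rw [Pi.single_eq_of_ne hj, Finsupp.single_eq_of_ne fun h => hj (Prod.ext_iff.1 h).2]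
    rfl

theorem ms_toCh {n : ℕ} (x : Free G n) : ms (toCh G n x) = mass x := by
  have h1 : (toCh G n x).support ⊆
      (Finset.univ.biUnion fun i => (x i).coeff.support) ×ˢ (Finset.univ : Finset (Fin n)) := by
    rintro ⟨g, i⟩ hp
    rw [Finsupp.mem_support_iff, toCh_apply] at hp
    exact Finset.mem_product.2 ⟨Finset.mem_biUnion.2
      ⟨i, Finset.mem_univ _, Finsupp.mem_support_iff.2 hp⟩, Finset.mem_univ _⟩
  rw [cl_ms _ h1, Finset.sum_product_right]
  refine Finset.sum_congr rfl fun i _ => ?_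
  simp only [toCh_apply]
  exact (cl_ms (x i).coeff
    (Finset.subset_biUnion_of_mem (fun i => (x i).coeff.support) (Finset.mem_univ i))).symm

theorem cd_conj {n m : ℕ} (d : Free G n →ₗ[ZG G] Free G m) (x : Free G n) :
    conj d (toCh G n x) = toCh G m (d x) := by
  change toCh G m (d ((toCh G n).symm (toCh G n x))) = _
  rw [AddEquiv.symm_apply_apply]

theorem cd_exact {A B C A' B' C' : Type*} [AddCommGroup A] [AddCommGroup B] [AddCommGroup C]
    [AddCommGroup A'] [AddCommGroup B'] [AddCommGroup C'] (a : A ≃+ A') (b : B ≃+ B') (c : C ≃+ C')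
    {f : A → B} {g : B → C} {f' : A' → B'} {g' : B' → C'} (hf : ∀ x, f' (a x) = b (f x))
    (hg : ∀ x, g' (b x) = c (g x)) (h : Function.Exact f g) : Function.Exact f' g' := by
  intro y
  obtain ⟨y, rfl⟩ := b.surjective y
  rw [hg, c.map_eq_zero_iff, h y]
  constructor
  · rintro ⟨x, rfl⟩
    exact ⟨a x, hf x⟩
  · rintro ⟨x, hx⟩
    obtain ⟨x, rfl⟩ := a.surjective x
    rw [hf] at hx
    exact ⟨x, b.injective hx⟩

theorem cd_inj {A B A' B' : Type*} [AddCommGroup A] [AddCommGroup B]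
    [AddCommGroup A'] [AddCommGroup B'] (a : A ≃+ A') (b : B ≃+ B')
    {f : A → B} {f' : A' → B'} (hf : ∀ x, f' (a x) = b (f x))
    (h : Function.Injective f) : Function.Injective f' := by
  intro x y hxy
  obtain ⟨x, rfl⟩ := a.surjective x
  obtain ⟨y, rfl⟩ := a.surjective y
  rw [hf, hf] at hxy
  rw [h (b.injective hxy)]

theorem eqv_conj {n m : ℕ} (d : Free G n →ₗ[ZG G] Free G m) : Eqv (conj d) := by
  intro g z
  obtain ⟨x, rfl⟩ := (toCh G n).surjective z
  rw [← toCh_smul, cd_conj, cd_conj, map_smul, toCh_smul]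

theorem FreeRes4.exists_coord (R : FreeRes4 G) :
    ∃ F : Cx G R.n0 R.n1 R.n2 R.n3 R.n4, Coord R F := by
  have ha : ∀ x, (R.aug.comp (toCh G R.n0).symm.toAddMonoidHom) (toCh G R.n0 x) = R.aug x :=
    fun x => congrArg R.aug ((toCh G R.n0).symm_apply_apply x)
  refine ⟨{ d1 := conj R.d1
            d2 := conj R.d2
            d3 := conj R.d3
            d4 := conj R.d4
            aug := R.aug.comp (toCh G R.n0).symm.toAddMonoidHom
            e1 := eqv_conj _
            e2 := eqv_conj _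
            e3 := eqv_conj _
            e4 := eqv_conj _
            aug_tr := fun g z => ?_
            aug_surj := R.aug_surj.comp (toCh G R.n0).symm.surjective
            exact0 := cd_exact _ _ (AddEquiv.refl ℤ) (cd_conj _) ha R.exact0
            exact1 := cd_exact _ _ _ (cd_conj _) (cd_conj _) R.exact1
            exact2 := cd_exact _ _ _ (cd_conj _) (cd_conj _) R.exact2
            exact3 := cd_exact _ _ _ (cd_conj _) (cd_conj _) R.exact3
            inj4 := cd_inj _ _ (cd_conj _) R.inj4 }, rfl, rfl, rfl, rfl⟩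
  obtain ⟨x, rfl⟩ := (toCh G R.n0).surjective z
  rw [← toCh_smul, ha, ha, R.aug_smul]

/-- Multiplication by a sign character. -/
def cdTwF {ι : Type*} (χ : G →* ℤˣ) (c : Ch G ι) : Ch G ι :=
  Finsupp.onFinset c.support (fun p => (χ p.1 : ℤ) * c p)
    fun _ hp => Finsupp.mem_support_iff.2 (right_ne_zero_of_mul hp)

theorem cdTwF_apply {ι : Type*} (χ : G →* ℤˣ) (c : Ch G ι) (p : G × ι) :
    cdTwF χ c p = (χ p.1 : ℤ) * c p := rfl

theorem cdTwF_invol {ι : Type*} (χ : G →* ℤˣ) (c : Ch G ι) : cdTwF χ (cdTwF χ c) = c := by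
  ext p
  rw [cdTwF_apply, cdTwF_apply, ← mul_assoc, Int.units_coe_mul_self, one_mul]

/-- Multiplication by a sign character as an equivalence. -/
def cdTw {ι : Type*} (χ : G →* ℤˣ) : Ch G ι ≃+ Ch G ι where
  toFun := cdTwF χ
  invFun := cdTwF χ
  left_inv := cdTwF_invol χ
  right_inv := cdTwF_invol χ
  map_add' x y := by
    ext p
    rw [Finsupp.add_apply, cdTwF_apply, cdTwF_apply, cdTwF_apply, Finsupp.add_apply, mul_add]

theorem cdTw_apply {ι : Type*} (χ : G →* ℤˣ) (c : Ch G ι) (p : G × ι) :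
    cdTw χ c p = (χ p.1 : ℤ) * c p := rfl

theorem cdTw_symm {ι : Type*} (χ : G →* ℤˣ) (c : Ch G ι) : (cdTw χ).symm c = cdTw χ c := rfl

theorem cdTw_one {ι : Type*} (c : Ch G ι) : cdTw (1 : G →* ℤˣ) c = c := by
  ext p
  rw [cdTw_apply, MonoidHom.one_apply, Units.val_one, one_mul]

theorem cdTw_tr {ι : Type*} (χ : G →* ℤˣ) (h : G) (c : Ch G ι) :
    cdTw χ (tr h c) = (χ h : ℤ) • tr h (cdTw χ c) := by
  ext p
  rw [Finsupp.smul_apply, cdTw_apply, tr_apply, tr_apply, cdTw_apply, smul_eq_mul, ← mul_assoc,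
    ← Units.val_mul, ← map_mul, mul_inv_cancel_left]

/-- Coordinates on the dual module. -/
def cdCo (G : Type u) [Group G] (n : ℕ) : (Free G n →ₗ[ZG G] ZG G) ≃+ Ch G (Fin n) :=
  (((Pi.basisFun (ZG G) (Fin n)).constr ℕ).symm.toAddEquiv.trans (toCh G n)).trans
    (Finsupp.domCongr ((Equiv.inv G).prodCongr (Equiv.refl (Fin n))))

theorem cdCo_apply {n : ℕ} (f : Free G n →ₗ[ZG G] ZG G) (g : G) (i : Fin n) :
    cdCo G n f (g, i) = (f (Pi.single i 1)).coeff g⁻¹ := by
  have h : cdCo G n f (g, i) =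
      toCh G n (((Pi.basisFun (ZG G) (Fin n)).constr ℕ).symm f) (g⁻¹, i) := rfl
  rw [h, toCh_apply, Module.Basis.constr_symm_apply, Pi.basisFun_apply]

theorem cd_bs {n : ℕ} (g : G) (i : Fin n) :
    toCh G n (MonoidAlgebra.of ℤ G g • Pi.single i 1) = bs (g, i) := by
  rw [toCh_smul, toCh_single, tr_bs, mul_one]

theorem cd_coeff (g : G) (a : ZG G) : (MonoidAlgebra.of ℤ G g • a).coeff 1 = a.coeff g⁻¹ := by
  rw [smul_eq_mul, MonoidAlgebra.of_apply, MonoidAlgebra.coeff_single_mul_apply, one_mul, mul_one]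

theorem cd_pair {n : ℕ} (f : Free G n →ₗ[ZG G] ZG G) (x : Free G n) :
    (f x).coeff 1 = pairZ (cdCo G n f) (toCh G n x) := by
  have h : ((Finsupp.applyAddHom (1 : G)).comp
      (MonoidAlgebra.coeffAddEquiv.toAddMonoidHom.comp
        (f.toAddMonoidHom.comp (toCh G n).symm.toAddMonoidHom))) = pairZHom (cdCo G n f) := by
    refine hom_ext_bs fun p => ?_
    rw [pairZHom_apply, pairZ_single]
    change (f ((toCh G n).symm (bs (p.1, p.2)))).coeff 1 = cdCo G n f (p.1, p.2)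
    rw [← cd_bs, AddEquiv.symm_apply_apply, map_smul, cd_coeff, cdCo_apply]
  have h2 := DFunLike.congr_fun h (toCh G n x)
  rw [pairZHom_apply] at h2
  rw [← h2]
  change _ = (f ((toCh G n).symm (toCh G n x))).coeff 1
  rw [AddEquiv.symm_apply_apply]

/-- Twisted coordinates on the dual module. -/
def cdCt (χ : G →* ℤˣ) (n : ℕ) : (Free G n →ₗ[ZG G] ZG G) ≃+ Ch G (Fin n) :=
  (cdCo G n).trans (cdTw χ)

/-- The twisted coboundary in coordinates. -/
def cdD (χ : G →* ℤˣ) {n m : ℕ} (d : Free G n →ₗ[ZG G] Free G m) :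
    Ch G (Fin m) →+ Ch G (Fin n) :=
  (cdCt χ n).toAddMonoidHom.comp
    ((AddMonoidHom.mk' (dualMap d) fun f g => LinearMap.add_comp d g f).comp
      (cdCt χ m).symm.toAddMonoidHom)

theorem cdD_apply (χ : G →* ℤˣ) {n m : ℕ} (d : Free G n →ₗ[ZG G] Free G m)
    (f : Free G m →ₗ[ZG G] ZG G) : cdD χ d (cdCt χ m f) = cdCt χ n (dualMap d f) := by
  change cdCt χ n (dualMap d ((cdCt χ m).symm (cdCt χ m f))) = _
  rw [AddEquiv.symm_apply_apply]

theorem cdD_tw (χ : G →* ℤˣ) {n m : ℕ} (d : Free G n →ₗ[ZG G] Free G m) :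
    IsTw χ (conj d) (cdD χ d) := by
  rintro ⟨g, i⟩ q
  obtain ⟨f, hf⟩ := (cdCt χ m).surjective (bs q)
  have h1 : cdCo G m f = cdTw χ (bs q) := by
    rw [← cdTw_symm, ← hf]
    exact ((cdTw χ).symm_apply_apply _).symm
  rw [← hf, cdD_apply]
  change (χ g : ℤ) * cdCo G n (f.comp d) (g, i) = _
  rw [cdCo_apply, ← cd_coeff, ← map_smul, LinearMap.comp_apply, cd_pair, ← cd_conj, cd_bs, h1,
    mul_assoc]
  congr 1
  unfold pairZ
  rw [Finsupp.sum_eq_single q]
  · rw [cdTw_apply, Finsupp.single_eq_same, mul_one, mul_comm]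
  · intro b _ hb
    rw [cdTw_apply, Finsupp.single_eq_of_ne hb, mul_zero, mul_zero]
  · intro _
    rw [zero_mul]

theorem cd_tw_eqv {ι κ : Type*} {χ : G →* ℤˣ} {d : Ch G ι →+ Ch G κ} {e : Ch G κ →+ Ch G ι}
    (h : IsTw χ d e) (hd : Eqv d) : Eqv e := by
  intro g z
  have h1 : e.comp (tr g) = (tr g).comp e := by
    refine hom_ext_bs fun q => ?_
    ext p
    change e (tr g (bs q)) p = tr g (e (bs q)) p
    have h2 : (bs (g⁻¹ * p.1, p.2) : Ch G ι) = tr g⁻¹ (bs p) := (tr_bs _ _).symm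
    rw [tr_bs, tr_apply, h, h, h2, hd, tr_apply, inv_inv]
    congr 1
    simp only [map_mul, map_inv, Int.units_inv_eq_self, Units.val_mul]
    ring
  exact DFunLike.congr_fun h1 z

theorem cd_char {ι κ : Type*} {δ : Ch G ι →+ Ch G κ} (hδ : Eqv δ) {η : Ch G κ →+ ℤ}
    (hs : Function.Surjective η) (he : Function.Exact δ η) :
    ∃ χ : G →* ℤˣ, ∀ g z, η (tr g z) = (χ g : ℤ) * η z := by
  obtain ⟨v, hv⟩ := hs 1
  have h1 : ∀ g z, η (tr g z) = η (tr g v) * η z := by
    intro g z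
    obtain ⟨w, hw⟩ := (he (z - η z • v)).1
      (by rw [map_sub, map_zsmul, hv, smul_eq_mul, mul_one, sub_self])
    have h2 := he.apply_apply_eq_zero (tr g w)
    rw [hδ, hw, map_sub, map_sub, map_zsmul, map_zsmul, sub_eq_zero, smul_eq_mul] at h2
    rw [h2, mul_comm]
  let a : G →* ℤ :=
    { toFun := fun g => η (tr g v)
      map_one' := by rw [tr_one, hv]
      map_mul' := fun g h => by rw [tr_mul, h1] }
  exact ⟨a.toHomUnits, fun g z => h1 g z⟩

theorem Coord.exists_dual {R : FreeRes4 G} {F : Cx G R.n0 R.n1 R.n2 R.n3 R.n4} (h : Coord R F)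
    (hR : R.IsPD4) : ∃ (D : Cx G R.n4 R.n3 R.n2 R.n1 R.n0) (χ : G →* ℤˣ), Dual F D χ := by
  obtain ⟨h0, h1, h2, h3, η, hs, h4⟩ := hR
  have ha : ∀ (χ : G →* ℤˣ) x, (η.comp (cdCt χ R.n4).symm.toAddMonoidHom) (cdCt χ R.n4 x) = η x :=
    fun χ x => congrArg η ((cdCt χ R.n4).symm_apply_apply x)
  have hE : ∀ (χ : G →* ℤˣ) {n m : ℕ} (d : Free G n →ₗ[ZG G] Free G m), Eqv (cdD χ d) :=
    fun χ _ _ d => cd_tw_eqv (cdD_tw χ d) (eqv_conj d)
  have hx : ∀ χ : G →* ℤˣ,
      Function.Exact (cdD χ R.d4) (η.comp (cdCt χ R.n4).symm.toAddMonoidHom) :=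
    fun χ => cd_exact _ _ (AddEquiv.refl ℤ) (cdD_apply χ _) (ha χ) h4
  obtain ⟨χ, hχ⟩ := cd_char (hE 1 R.d4) (hs.comp (cdCt 1 R.n4).symm.surjective) (hx 1)
  have hb : ∀ z, (η.comp (cdCt χ R.n4).symm.toAddMonoidHom) z =
      (η.comp (cdCt 1 R.n4).symm.toAddMonoidHom) (cdTw χ z) := by
    intro z
    change η ((cdCo G R.n4).symm (cdTw χ z)) = η ((cdCo G R.n4).symm (cdTw 1 (cdTw χ z)))
    rw [cdTw_one]
  refine ⟨{ d1 := cdD χ R.d4
            d2 := cdD χ R.d3
            d3 := cdD χ R.d2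
            d4 := cdD χ R.d1
            aug := η.comp (cdCt χ R.n4).symm.toAddMonoidHom
            e1 := hE χ _
            e2 := hE χ _
            e3 := hE χ _
            e4 := hE χ _
            aug_tr := fun g z => ?_
            aug_surj := hs.comp (cdCt χ R.n4).symm.surjective
            exact0 := hx χ
            exact1 := cd_exact _ _ _ (cdD_apply χ _) (cdD_apply χ _) h3
            exact2 := cd_exact _ _ _ (cdD_apply χ _) (cdD_apply χ _) h2
            exact3 := cd_exact _ _ _ (cdD_apply χ _) (cdD_apply χ _) h1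
            inj4 := cd_inj _ _ (cdD_apply χ _) h0 }, χ, ?_, ?_, ?_, ?_⟩
  · rw [hb, hb, cdTw_tr, map_zsmul, hχ, smul_eq_mul, ← mul_assoc, Int.units_coe_mul_self, one_mul]
  · rw [h.c4]
    exact cdD_tw χ _
  · rw [h.c3]
    exact cdD_tw χ _
  · rw [h.c2]
    exact cdD_tw χ _
  · rw [h.c1]
    exact cdD_tw χ _

theorem Coord.fill {R : FreeRes4 G} {F : Cx G R.n0 R.n1 R.n2 R.n3 R.n4} (h : Coord R F)
    (hR : R.SubquadraticFilling) : ∃ α : ℝ, 1 ≤ α ∧ α < 2 ∧ F.Fill α := by
  obtain ⟨C, α, hα, hf⟩ := hR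
  refine ⟨max α 1, le_max_right _ _, max_lt hα one_lt_two, max C 0, le_max_right _ _, fun z hz => ?_⟩
  by_cases h0 : z = 0
  · refine ⟨0, by rw [h0, map_zero], ?_⟩
    rw [ms_eq_zero.2 rfl, Nat.cast_zero]
    exact mul_nonneg (le_max_right _ _) (Real.rpow_nonneg (Nat.cast_nonneg _) _)
  · have h1 : (1 : ℝ) ≤ ms z := by
      exact_mod_cast Nat.one_le_iff_ne_zero.2 fun h2 => h0 (ms_eq_zero.1 h2)
    obtain ⟨x, rfl⟩ := (toCh G R.n2).surjective z
    rw [h.c2, cd_conj, AddEquiv.map_eq_zero_iff] at hz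
    obtain ⟨y, hy, hm⟩ := hf x (fun h2 => h0 (by rw [h2, map_zero])) hz
    refine ⟨toCh G R.n3 y, by rw [h.c3, cd_conj, hy], ?_⟩
    rw [ms_toCh] at h1
    rw [ms_toCh, ms_toCh]
    exact hm.trans (mul_le_mul (le_max_left _ _)
      (Real.rpow_le_rpow_of_exponent_le h1 (le_max_left _ _))
      (Real.rpow_nonneg (Nat.cast_nonneg _) _) (le_max_right _ _))

end Vale.Agent.P239
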