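import Vale.Agent.P239.CxLift

/-! Task CxGen: finite generation, infinitude, torsion freeness.
`exists_gen`: let `v` have `aug v = 1`, let `T` contain the first coordinates of the supports of `v` and of all `d1 (bs (1,j))`, `S = T ∪ T⁻¹`, `H` the subgroup generated. `φ : Ch →+ (G ⧸ H →₀ ℤ)`, `bs (g,i) ↦ single ⟦g⟧ (aug (bs (1,i)))`. For a chain `z` supported over `H`, `φ (tr g z) = single ⟦g⟧ (aug z)`.
So `φ ∘ d1 = 0`, hence `φ` kills `ker aug ∋ tr g v - v`: `single ⟦g⟧ 1 = single ⟦1⟧ 1`, `g ∈ H`.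
`infinite`: if `G` is finite, `c = ∑ q, (χ q.1 * aug (bs q)) • bs q` is nonzero (`aug` is onto) and `D.d4 c p = χ p.1 * aug (d1 (bs p)) = 0`, contradicting `D.inj4`.
`torsionFree`: let `g` have finite order `m`, `T = tr g - id`, `N = ∑ j < m, tr (g^j)`; these commute with the differentials. Call an invariant subgroup `K` of some `Ch` acyclic if for `x ∈ K`: `T x = 0 → ∃ y ∈ K, N y = x` and `N x = 0 → ∃ y ∈ K, T y = x`.
`⊤` is acyclic: choose representatives `ρ : G → G` of the orbits of left multiplication by `zpowers g` (`Quotient.out` for `QuotientGroup.rightRel`); if `T x = 0` take `y` the restriction of `x` to representatives; in general `x - π x ∈ range T` for `π = mapDomain (ρ × id)`, and `N x = 0` gives `N (π x) = 0` hence `π x = 0` (evaluate at representatives).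
If `ker d` is acyclic then so is `range d` (lift, two line chase using `N T = T N = 0`). Starting from `ker d4 = ⊥` get `ker d3`, `ker d2`, `ker d1`, `ker aug` acyclic. Finally for `v` with `aug v = 1`: `T v ∈ ker aug`, `N (T v) = 0`, so `T v = T k`, `k ∈ ker aug`, `v - k = N y`, `1 = m * aug y`, so `m = 1`.
-/

noncomputable section

open Classical Filter Topology Set

namespace Vale.Agent.P239

universe u
variable {G : Type u} [Group G] {S : Finset G} {n0 n1 n2 n3 n4 : ℕ}

theorem Cx.exists_gen (F : Cx G n0 n1 n2 n3 n4) :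
    ∃ S : Finset G, (∀ s ∈ S, s⁻¹ ∈ S) ∧ Subgroup.closure (S : Set G) = ⊤ := by
  obtain ⟨v, hv⟩ := F.aug_surj 1
  let T : Finset G := (v.support ∪ Finset.univ.biUnion fun j : Fin n1 =>
    (F.d1 (bs (1, j))).support).image Prod.fst
  refine ⟨T ∪ T.image fun x => x⁻¹, ?_, ?_⟩
  · intro s hs
    rcases Finset.mem_union.1 hs with h | h
    · exact Finset.mem_union_right _ (Finset.mem_image_of_mem _ h)
    · obtain ⟨x, hx, rfl⟩ := Finset.mem_image.1 h
      rw [inv_inv]
      exact Finset.mem_union_left _ hx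
  obtain ⟨H, hH⟩ : ∃ H, H = Subgroup.closure ((T ∪ T.image fun x => x⁻¹ : Finset G) : Set G) :=
    ⟨_, rfl⟩
  rw [← hH]
  have hT : ∀ x ∈ T, x ∈ H := fun x hx =>
    hH ▸ Subgroup.subset_closure (Finset.mem_coe.2 (Finset.mem_union_left _ hx))
  let ψ : Ch G (Fin n0) →+ ℤ := F.aug.comp (Finsupp.filterAddHom fun p => p.1 ∈ H)
  have key : ∀ (z : Ch G (Fin n0)) (g : G), (∀ p, z p ≠ 0 → p.1 ∈ H) →
      (g ∈ H → ψ (tr g z) = F.aug z) ∧ (g ∉ H → ψ (tr g z) = 0) := by
    intro z g hz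
    constructor
    · intro hg
      have : (tr g z).filter (fun p => p.1 ∈ H) = tr g z := by
        refine (Finsupp.filter_eq_self_iff _ _).2 fun p hp => ?_
        rw [tr_apply] at hp
        simpa using H.mul_mem hg (hz _ hp)
      change F.aug ((tr g z).filter fun p => p.1 ∈ H) = _
      rw [this, F.aug_tr]
    · intro hg
      have : (tr g z).filter (fun p => p.1 ∈ H) = 0 := by
        refine (Finsupp.filter_eq_zero_iff _ _).2 fun p hp => ?_
        rw [tr_apply]
        by_contra h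
        apply hg
        simpa using H.mul_mem hp (H.inv_mem (hz _ h))
      change F.aug ((tr g z).filter fun p => p.1 ∈ H) = _
      rw [this, map_zero]
  have hv' : ∀ p, v p ≠ 0 → p.1 ∈ H := fun p hp => hT _
    (Finset.mem_image_of_mem _ (Finset.mem_union_left _ (Finsupp.mem_support_iff.2 hp)))
  have h1 : ψ.comp F.d1 = 0 := by
    refine hom_ext_bs fun p => ?_
    have e : (Finsupp.single p 1 : Ch G (Fin n1)) = tr p.1 (bs (1, p.2)) := by
      rw [tr_bs, mul_one]
    have hk := key (F.d1 (bs (1, p.2))) p.1 fun q hq => hT _ (Finset.mem_image_of_mem _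
      (Finset.mem_union_right _ (Finset.mem_biUnion.2
        ⟨p.2, Finset.mem_univ _, Finsupp.mem_support_iff.2 hq⟩)))
    rw [AddMonoidHom.comp_apply, e, F.e1, AddMonoidHom.zero_apply]
    by_cases hp : p.1 ∈ H
    · rw [hk.1 hp, F.exact0.apply_apply_eq_zero]
    · exact hk.2 hp
  rw [eq_top_iff]
  intro g _
  by_contra hg
  obtain ⟨y, hy⟩ := (F.exact0 (tr g v - v)).1 (by rw [map_sub, F.aug_tr, sub_self])
  have h2 : ψ (F.d1 y) = 0 := DFunLike.congr_fun h1 y
  have h3 := (key v 1 hv').1 H.one_mem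
  rw [tr_one] at h3
  rw [hy, map_sub, (key v g hv').2 hg, h3, hv] at h2
  exact absurd h2 (by norm_num)

private theorem hom_eq_sum {α M : Type*} [Fintype α] [AddCommGroup M] (f : (α →₀ ℤ) →+ M)
    (z : α →₀ ℤ) : f z = ∑ q, z q • f (Finsupp.single q 1) := by
  conv_lhs => rw [← Finsupp.univ_sum_single z, map_sum]
  refine Finset.sum_congr rfl fun q _ => ?_
  rw [← map_zsmul, Finsupp.smul_single_one]

theorem Dual.infinite {F : Cx G n0 n1 n2 n3 n4} {D : Cx G n4 n3 n2 n1 n0} {χ : G →* ℤˣ}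
    (h : Dual F D χ) : Infinite G := by
  by_contra hG
  have : Finite G := not_infinite_iff_finite.1 hG
  have := Fintype.ofFinite G
  let c : Ch G (Fin n0) := Finsupp.equivFunOnFinite.symm fun q => (χ q.1 : ℤ) * F.aug (bs q)
  have hc : ∀ q, c q = (χ q.1 : ℤ) * F.aug (bs q) := fun q => rfl
  have hχ : ∀ x : G, (χ x : ℤ) * (χ x : ℤ) = 1 := fun x => by
    rw [← Units.val_mul, Int.units_mul_self, Units.val_one]
  have h1 : D.d4 c = 0 := by
    ext p
    have h2 := hom_eq_sum F.aug (F.d1 (bs p))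
    rw [F.exact0.apply_apply_eq_zero] at h2
    rw [hom_eq_sum, Finsupp.finsetSum_apply, Finsupp.zero_apply, ← mul_zero (χ p.1 : ℤ), h2,
      Finset.mul_sum]
    refine Finset.sum_congr rfl fun q _ => ?_
    rw [Finsupp.smul_apply, h.t4 p q, hc, smul_eq_mul, smul_eq_mul]
    linear_combination ((χ p.1 : ℤ) * F.d1 (bs p) q * F.aug (bs q)) * hχ q.1
  have h2 : c = 0 := D.inj4 (by rw [h1, map_zero])
  obtain ⟨v, hv⟩ := F.aug_surj 1
  rw [hom_eq_sum, Finset.sum_eq_zero] at hv
  · exact zero_ne_one hv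
  · intro q _
    have h3 := hc q
    rw [h2, Finsupp.zero_apply] at h3
    rw [(mul_eq_zero.1 h3.symm).resolve_left (Units.ne_zero _), smul_zero]

section tf

variable {ι κ : Type*}

/-- The map with prescribed values on the basis. -/
private def ofB {α M : Type*} [AddCommGroup M] (c : α → M) : (α →₀ ℤ) →+ M :=
  Finsupp.liftAddHom fun p => zmultiplesHom M (c p)

private theorem ofB_single {α M : Type*} [AddCommGroup M] (c : α → M) (p : α) :
    ofB c (Finsupp.single p 1) = c p := by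
  simp [ofB]

/-- The operator `g - 1`. -/
private def Tm (g : G) : Ch G ι →+ Ch G ι := tr g - AddMonoidHom.id _

/-- The norm operator. -/
private def Nm (g : G) : Ch G ι →+ Ch G ι := ∑ l ∈ Finset.range (orderOf g), tr (g ^ l)

private theorem Tm_apply (g : G) (z : Ch G ι) : Tm g z = tr g z - z := rfl

private theorem Nm_apply (g : G) (z : Ch G ι) :
    Nm g z = ∑ l ∈ Finset.range (orderOf g), tr (g ^ l) z := by
  rw [Nm, AddMonoidHom.finsetSum_apply]

private theorem Nm_Tm (g : G) (z : Ch G ι) : Nm g (Tm g z) = 0 := by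
  rw [Tm_apply, map_sub, Nm_apply, Nm_apply, ← Finset.sum_sub_distrib]
  simp only [← tr_mul, ← pow_succ]
  rw [Finset.sum_range_sub fun l => tr (g ^ l) z, pow_orderOf_eq_one, pow_zero, sub_self]

private theorem Tm_Nm (g : G) (z : Ch G ι) : Tm g (Nm g z) = 0 := by
  rw [Tm_apply, Nm_apply, map_sum, ← Finset.sum_sub_distrib]
  simp only [← tr_mul, ← pow_succ']
  rw [Finset.sum_range_sub fun l => tr (g ^ l) z, pow_orderOf_eq_one, pow_zero, sub_self]

private theorem Nm_pow (g : G) (z : Ch G ι) (i : ℕ) : Nm g (tr (g ^ i) z) = Nm g z := by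
  induction i with
  | zero => rw [pow_zero, tr_one]
  | succ i ih =>
    have := Nm_Tm g (tr (g ^ i) z)
    rw [Tm_apply, map_sub, ← tr_mul, ← pow_succ', ih] at this
    exact sub_eq_zero.1 this

private theorem exists_rep {g : G} (hg : IsOfFinOrder g) : ∃ (ρ : G → G) (j : G → ℕ),
    (∀ x, j x < orderOf g ∧ g ^ j x * ρ x = x) ∧
    ∀ x i, i < orderOf g → j (g ^ i * ρ x) = i ∧ ρ (g ^ i * ρ x) = ρ x := by
  let ρ : G → G := fun x =>
    (Quotient.mk (QuotientGroup.rightRel (Subgroup.zpowers g)) x).out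
  have h1 : ∀ x, x * (ρ x)⁻¹ ∈ Subgroup.zpowers g := fun x =>
    QuotientGroup.rightRel_apply.1 (Quotient.exact (Quotient.out_eq
      (Quotient.mk (QuotientGroup.rightRel (Subgroup.zpowers g)) x)))
  have h2 : ∀ x, ∃ i, i < orderOf g ∧ g ^ i * ρ x = x := by
    intro x
    obtain ⟨i, hi, e⟩ := Finset.mem_image.1 (hg.mem_zpowers_iff_mem_range_orderOf.1 (h1 x))
    exact ⟨i, Finset.mem_range.1 hi, by rw [e, inv_mul_cancel_right]⟩
  choose j hj using h2
  refine ⟨ρ, j, hj, fun x i hi => ?_⟩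
  have h3 : ρ (g ^ i * ρ x) = ρ x := by
    refine congrArg Quotient.out (Quotient.sound (QuotientGroup.rightRel_apply.2 ?_))
    rw [mul_inv_rev, ← mul_assoc]
    exact Subgroup.mul_mem _ (h1 x)
      (Subgroup.inv_mem _ (Subgroup.pow_mem _ (Subgroup.mem_zpowers g) i))
  refine ⟨?_, h3⟩
  have h4 := (hj (g ^ i * ρ x)).2
  rw [h3] at h4
  exact pow_injOn_Iio_orderOf (hj _).1 hi (mul_right_cancel h4)

private theorem exists_contr {g : G} (hg : IsOfFinOrder g) : ∃ h s : Ch G ι →+ Ch G ι,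
    (∀ z, Tm g (h z) + s (Nm g z) = z) ∧ ∀ z, h (Tm g z) + Nm g (s z) = z := by
  obtain ⟨ρ, j, h1, h2⟩ := exists_rep hg
  have hm := hg.orderOf_pos
  let h : Ch G ι →+ Ch G ι := ofB fun p => ∑ l ∈ Finset.range (j p.1), bs (g ^ l * ρ p.1, p.2)
  let s : Ch G ι →+ Ch G ι := ofB fun p => if j p.1 + 1 = orderOf g then bs (ρ p.1, p.2) else 0
  have hh : ∀ x a i, i < orderOf g →
      h (bs (g ^ i * ρ x, a)) = ∑ l ∈ Finset.range i, bs (g ^ l * ρ x, a) := by
    intro x a i hi
    simp only [h, bs, ofB_single, (h2 x i hi).1, (h2 x i hi).2]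
  have hs : ∀ x a i, i < orderOf g →
      s (bs (g ^ i * ρ x, a)) = if i + 1 = orderOf g then bs (ρ x, a) else 0 := by
    intro x a i hi
    simp only [s, bs, ofB_single, (h2 x i hi).1, (h2 x i hi).2]
  have hT : ∀ (r : G) (a : ι) i, Tm g (bs (g ^ i * r, a)) =
      bs (g ^ (i + 1) * r, a) - bs (g ^ i * r, a) := by
    intro r a i
    rw [Tm_apply, tr_bs, pow_succ', mul_assoc]
  have hN : ∀ (r : G) (a : ι), Nm g (bs (r, a)) =
      ∑ l ∈ Finset.range (orderOf g), bs (g ^ l * r, a) := by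
    intro r a
    simp only [Nm_apply, tr_bs]
  have e1 : (Tm g).comp h + s.comp (Nm g) = AddMonoidHom.id _ := by
    refine hom_ext_bs fun p => ?_
    obtain ⟨x, a⟩ := p
    change Tm g (h (bs (x, a))) + s (Nm g (bs (x, a))) = bs (x, a)
    obtain ⟨hi, e⟩ := h1 x
    rw [← e]
    generalize j x = i at hi
    have h3 : Nm g (bs (g ^ i * ρ x, a)) = Nm g (bs (ρ x, a)) := by
      rw [← Nm_pow g (bs (ρ x, a)) i, tr_bs]
    rw [hh x a i hi, h3, hN, map_sum, map_sum, Finset.sum_congr rfl fun l _ => hT (ρ x) a l,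
      Finset.sum_range_sub fun l => bs (g ^ l * ρ x, a),
      Finset.sum_congr rfl fun l hl => hs x a l (Finset.mem_range.1 hl),
      Finset.sum_eq_single (orderOf g - 1), if_pos (by omega), pow_zero, one_mul, sub_add_cancel]
    · intro l _ hl
      exact if_neg (by omega)
    · intro hl
      exact absurd (Finset.mem_range.2 (by omega)) hl
  have e2 : h.comp (Tm g) + (Nm g).comp s = AddMonoidHom.id _ := by
    refine hom_ext_bs fun p => ?_
    obtain ⟨x, a⟩ := p
    change h (Tm g (bs (x, a))) + Nm g (s (bs (x, a))) = bs (x, a)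
    obtain ⟨hi, e⟩ := h1 x
    rw [← e]
    generalize j x = i at hi
    rw [hT, map_sub, hh x a i hi, hs x a i hi]
    by_cases hi' : i + 1 = orderOf g
    · have h3 : g ^ (i + 1) = g ^ 0 := by rw [hi', pow_orderOf_eq_one, pow_zero]
      rw [if_pos hi', h3, hh x a 0 hm, hN, ← hi', Finset.sum_range_succ, Finset.sum_range_zero]
      abel
    · rw [if_neg hi', hh x a (i + 1) (by omega), Finset.sum_range_succ, map_zero]
      abel
  exact ⟨h, s, DFunLike.congr_fun e1, DFunLike.congr_fun e2⟩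

/-- Vanishing of Tate cohomology of the subgroup cut out by `K`. -/
private def Acy (g : G) (K : Ch G ι → Prop) : Prop :=
  (∀ x, K x → Tm g x = 0 → ∃ y, K y ∧ Nm g y = x) ∧
    ∀ x, K x → Nm g x = 0 → ∃ y, K y ∧ Tm g y = x

private theorem half {A B C : Type*} [AddCommGroup A] [AddCommGroup B] [AddCommGroup C]
    {d : A →+ B} {e : B →+ C} (hex : Function.Exact d e) {T N : A →+ A} {T' N' : B →+ B}
    (hT : ∀ x, d (T x) = T' (d x)) (hN : ∀ x, d (N x) = N' (d x)) (h0 : ∀ x, N (T x) = 0)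
    (h1 : ∀ x, T x = 0 → ∃ y, N y = x)
    (h2 : ∀ x, d x = 0 → N x = 0 → ∃ y, d y = 0 ∧ T y = x) :
    ∀ x, e x = 0 → T' x = 0 → ∃ y, e y = 0 ∧ N' y = x := by
  intro x hx hx'
  obtain ⟨a, rfl⟩ := (hex x).1 hx
  obtain ⟨k, hk, hk'⟩ := h2 (T a) (by rw [hT, hx']) (h0 a)
  obtain ⟨y, hy⟩ := h1 (a - k) (by rw [map_sub, hk', sub_self])
  exact ⟨d y, hex.apply_apply_eq_zero y, by rw [← hN, hy, map_sub, hk, sub_zero]⟩

private theorem acy_top {g : G} (hg : IsOfFinOrder g) :
    (∀ x : Ch G ι, Tm g x = 0 → ∃ y, Nm g y = x) ∧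
      ∀ x : Ch G ι, Nm g x = 0 → ∃ y, Tm g y = x := by
  obtain ⟨h, s, h1, h2⟩ := exists_contr (ι := ι) hg
  refine ⟨fun x hx => ⟨s x, ?_⟩, fun x hx => ⟨h x, ?_⟩⟩
  · have := h2 x
    rwa [hx, map_zero, zero_add] at this
  · have := h1 x
    rwa [hx, map_zero, add_zero] at this

private theorem Acy.step {g : G} (hg : IsOfFinOrder g) {C : Type*} [AddCommGroup C]
    {d : Ch G ι →+ Ch G κ} (hd : Eqv d) {e : Ch G κ →+ C} (hex : Function.Exact d e)
    (h : Acy g fun x => d x = 0) : Acy g fun x => e x = 0 := by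
  have hT : ∀ x, d (Tm g x) = Tm g (d x) := fun x => by rw [Tm_apply, Tm_apply, map_sub, hd]
  have hN : ∀ x, d (Nm g x) = Nm g (d x) := fun x => by
    rw [Nm_apply, Nm_apply, map_sum]
    exact Finset.sum_congr rfl fun l _ => hd _ _
  exact ⟨half hex hT hN (Nm_Tm g) (acy_top hg).1 h.2, half hex hN hT (Tm_Nm g) (acy_top hg).2 h.1⟩

end tf

theorem Cx.torsionFree (F : Cx G n0 n1 n2 n3 n4) : TorsionFree G := by
  intro g hg
  have h4 : Acy g fun x => F.d4 x = 0 := by
    have h0 : ∀ x, F.d4 x = 0 → x = 0 := fun x hx => F.inj4 (by rw [hx, map_zero])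
    constructor <;> exact fun x hx _ => ⟨0, map_zero _, by rw [map_zero, h0 x hx]⟩
  have h0 := (((h4.step hg F.e4 F.exact3).step hg F.e3 F.exact2).step hg F.e2 F.exact1).step hg
    F.e1 F.exact0
  obtain ⟨v, hv⟩ := F.aug_surj 1
  have hTv : F.aug (Tm g v) = 0 := by rw [Tm_apply, map_sub, F.aug_tr, sub_self]
  obtain ⟨k, hk, hk'⟩ := h0.2 (Tm g v) hTv (Nm_Tm g v)
  obtain ⟨y, hy⟩ := (acy_top hg).1 (v - k) (by rw [map_sub, hk', sub_self])
  have h1 := congrArg F.aug hy
  have hk0 : F.aug k = 0 := hk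
  rw [map_sub, hv, hk0, sub_zero, Nm_apply, map_sum] at h1
  simp only [F.aug_tr, Finset.sum_const, Finset.card_range, nsmul_eq_mul] at h1
  have h2 : (orderOf g : ℤ) = 1 := Int.eq_one_of_mul_eq_one_right (Int.natCast_nonneg _) h1
  exact orderOf_eq_one_iff.1 (by exact_mod_cast h2)

end Vale.Agent.P239
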