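import Vale.Agent.P239.L2Pull
import Vale.Agent.P239.CxCmp

/-! Task CxL2: vanishing of harmonic cochains in degrees 0, 1, 3, 4.
`hv0`: `pairHom c` kills `range d1` so `c p = aug (bs p) * m` (`exists_const`), which is independent of `p.1`; square summable on an infinite group forces `0`.
`hv1`: `M : Cmp F S`. `pair c = Ω ∘ d1` (`exists_hom_factor`), `u x = Ω (b0 (bs (x,())))`; `u (x s) - u x = pair c (b1 (bs (x,s)))` so `u` has finite energy (`sqSum_pull`). Take `φ` from `HarmVanish.approx`. By `hom1'`, `c p = pair (du) (a1 (bs p)) + pair c (h0' (d1 (bs p)))`. With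
`b q = pair φ' (a0 (bs q)) + pair c (h0' (bs q))` (`φ' (x,()) = φ x`), `c p - pair b (d1 (bs p)) = pair (d (u - φ)) (a1 (bs p))` has small `ℓ²` norm, and `∑ c p * pair b (d1 (bs p)) = 0` (`coclosed_orth`). So `∑ c² ≤ ‖c‖ * sqrt (C ε)`, `c = 0`.
`Dual.hv3`, `Dual.hv4`: for `c` put `c' p = χ p.1 * c p`. `Coclosed F.d3 c` says `c'` vanishes on `D.d2 (bs q)` (finite sum = `tsum` over the support), `Cocyc F.d4 c` says `Coclosed D.d1 c'`.
-/

noncomputable section

open Classical Filter Topology Set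

namespace Vale.Agent.P239

universe u
variable {G : Type u} [Group G] {S : Finset G} {n0 n1 n2 n3 n4 : ℕ}

theorem cl2_mul {α : Type*} {f g : α → ℝ} (hf : SqSum f) (hg : SqSum g) :
    Summable fun x => f x * g x := by
  refine Summable.of_norm_bounded (g := fun x => f x ^ 2 + g x ^ 2) (Summable.add hf hg) fun x => ?_
  rw [Real.norm_eq_abs, abs_le]
  constructor <;> nlinarith [sq_nonneg (f x + g x), sq_nonneg (f x - g x)]

theorem cl2_add {α : Type*} {f g : α → ℝ} (hf : SqSum f) (hg : SqSum g) :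
    SqSum fun x => f x + g x := by
  refine ((Summable.add hf hg).add ((cl2_mul hf hg).mul_left 2)).congr fun x => ?_
  ring

theorem cl2_inner (w : G → ℝ) (x : G) :
    ∑' s : S, (w (x * s) - w x) ^ 2 = grad2 S w x := by
  rw [tsum_fintype]
  exact Finset.sum_coe_sort S fun s => (w (x * s) - w x) ^ 2

theorem cl2_iff (w : G → ℝ) : SqSum (fun p : G × S => w (p.1 * p.2) - w p.1) ↔ FinEn S w := by
  unfold SqSum FinEn
  rw [summable_prod_of_nonneg fun _ => sq_nonneg _]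
  simp only [cl2_inner]
  exact ⟨fun h => h.2, fun h => ⟨fun _ => Summable.of_finite, h⟩⟩

theorem cl2_energy {w : G → ℝ} (hw : FinEn S w) :
    ∑' p : G × S, (w (p.1 * p.2) - w p.1) ^ 2 = energy S w := by
  rw [Summable.tsum_prod ((cl2_iff w).2 hw)]
  simp only [cl2_inner]
  rfl

theorem cl2_pair {α : Type*} (c : α → ℝ) (z : α →₀ ℤ) : pair c z = ∑' p, (z p : ℝ) * c p := by
  rw [tsum_eq_sum (s := z.support)]
  · rfl
  · intro p hp
    rw [Finsupp.notMem_support_iff.1 hp, Int.cast_zero, zero_mul]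

theorem cl2_sign (χ : G →* ℤˣ) (g : G) : ((χ g : ℤ) : ℝ) * ((χ g : ℤ) : ℝ) = 1 := by
  rw [← Int.cast_mul, Int.units_coe_mul_self, Int.cast_one]

theorem cl2_sq {ι : Type*} (χ : G →* ℤˣ) {c : G × ι → ℝ} (hc : SqSum c) :
    SqSum fun p : G × ι => ((χ p.1 : ℤ) : ℝ) * c p := by
  refine Summable.congr hc fun p => ?_
  rw [mul_pow, pow_two ((χ p.1 : ℤ) : ℝ), cl2_sign, one_mul]

theorem cl2_zero {ι : Type*} (χ : G →* ℤˣ) {c : G × ι → ℝ}
    (h : (fun p : G × ι => ((χ p.1 : ℤ) : ℝ) * c p) = 0) : c = 0 := by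
  funext p
  have h1 : ((χ p.1 : ℤ) : ℝ) * c p = 0 := congrFun h p
  have h2 : c p = ((χ p.1 : ℤ) : ℝ) * (((χ p.1 : ℤ) : ℝ) * c p) := by
    rw [← mul_assoc, cl2_sign, one_mul]
  rw [h2, h1, mul_zero]
  rfl

theorem cl2_cocyc {ι κ : Type*} {χ : G →* ℤˣ} {d : Ch G ι →+ Ch G κ} {e : Ch G κ →+ Ch G ι}
    (h : IsTw χ d e) {c : G × ι → ℝ} (hc : Coclosed d c) :
    Cocyc e fun p => ((χ p.1 : ℤ) : ℝ) * c p := by
  intro z
  have h1 : (pairHom fun p : G × ι => ((χ p.1 : ℤ) : ℝ) * c p).comp e = 0 := by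
    refine hom_ext_bs fun q => ?_
    rw [AddMonoidHom.comp_apply, pairHom_apply, cl2_pair, AddMonoidHom.zero_apply,
      ← mul_zero ((χ q.1 : ℤ) : ℝ), ← hc q, ← tsum_mul_left]
    refine tsum_congr fun p => ?_
    have h2 := h p q
    have h3 := cl2_sign χ p.1
    change e (Finsupp.single q 1) p = _ at h2
    rw [h2]
    push_cast
    linear_combination ((χ q.1 : ℤ) : ℝ) * (c p * (d (bs p) q : ℝ)) * h3
  exact DFunLike.congr_fun h1 z

theorem cl2_coclosed {ι κ : Type*} {χ : G →* ℤˣ} {d : Ch G ι →+ Ch G κ} {e : Ch G κ →+ Ch G ι}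
    (h : IsTw χ d e) {c : G × κ → ℝ} (hc : Cocyc d c) :
    Coclosed e fun p => ((χ p.1 : ℤ) : ℝ) * c p := by
  intro p
  rw [← mul_zero ((χ p.1 : ℤ) : ℝ), ← hc (bs p), cl2_pair, ← tsum_mul_left]
  refine tsum_congr fun q => ?_
  have h3 := cl2_sign χ q.1
  rw [h p q]
  push_cast
  linear_combination ((χ p.1 : ℤ) : ℝ) * ((d (bs p) q : ℝ) * c q) * h3

theorem Cx.hv0 (F : Cx G n0 n1 n2 n3 n4) [Infinite G] {c : G × Fin n0 → ℝ} (hc : SqSum c)
    (h : Cocyc F.d1 c) : c = 0 := by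
  obtain ⟨m, hm⟩ := F.exists_const (pairHom c) h
  funext ⟨g, i⟩
  have h1 : ∀ x : G, c (x, i) = F.aug (bs (1, i)) • m := by
    intro x
    rw [← pair_single c (x, i), ← pairHom_apply, hm, ← F.aug_tr x (bs (1, i)), tr_bs, mul_one]
  have h2 : Summable fun x : G => c (x, i) ^ 2 :=
    Summable.comp_injective hc (i := fun x : G => (x, i)) fun _ _ h => (Prod.ext_iff.1 h).1
  simp only [h1] at h2
  rw [summable_const_iff] at h2
  rw [h1]
  exact pow_eq_zero_iff two_ne_zero |>.1 h2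

theorem Cx.hv1 (F : Cx G n0 n1 n2 n3 n4) (hS : Cay S) (h : HarmVanish S) : HV F.d2 F.d1 := by
  intro c hc hz hcc
  obtain ⟨M⟩ := F.exists_cmp hS
  obtain ⟨Ω, hΩ⟩ := F.exists_hom_factor (pairHom c) hz
  obtain ⟨u, hu⟩ : ∃ u : G → ℝ, ∀ p : G × S, u (p.1 * p.2) - u p.1 = pair c (M.b1 (bs p)) :=
    ⟨fun x => Ω (M.b0 (bs (x, ()))), fun p => by
      rw [← map_sub, ← map_sub, ← cayD_bs, ← M.b_comm, ← hΩ, pairHom_apply]⟩
  have hE : FinEn S u := by
    obtain ⟨C, -, hC⟩ := M.eb1.sqSum_pull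
    rw [← cl2_iff]
    simp only [hu]
    exact (hC c hc).1
  obtain ⟨C, hC0, hC⟩ := M.ea1.sqSum_pull
  have key : ∀ ε : ℝ, 0 < ε → ∑' p, c p ^ 2 ≤ C * ε := by
    intro ε hε
    obtain ⟨φ, hφ, hε'⟩ := h.approx hS hE hε
    have hw : FinEn S fun x => u x - φ x := hE.sub hφ.finEn
    have hφ' : SqSum fun p : G × Unit => φ p.1 :=
      ((Equiv.prodUnique G Unit).summable_iff (f := fun x => φ x ^ 2)).2 hφ
    obtain ⟨C₁, -, hC₁⟩ := M.ea0.sqSum_pull
    obtain ⟨C₂, -, hC₂⟩ := M.eh0'.sqSum_pull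
    obtain ⟨C₃, -, hC₃⟩ := F.e1.sqSum_pull
    have hb := cl2_add (hC₁ _ hφ').1 (hC₂ c hc).1
    set b : G × Fin n0 → ℝ := fun q =>
      pair (fun p : G × Unit => φ p.1) (M.a0 (bs q)) + pair c (M.h0' (bs q)) with hbdef
    set dw : G × S → ℝ := fun p => (u (p.1 * p.2) - φ (p.1 * p.2)) - (u p.1 - φ p.1) with hdw
    have h1 : pairHom b = (pairHom fun p : G × Unit => φ p.1).comp M.a0 + (pairHom c).comp M.h0' := by
      refine hom_ext_bs fun q => ?_
      rw [pairHom_apply, pair_single]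
      rfl
    have h2 : pairHom dw = (pairHom c).comp M.b1 -
        (pairHom fun p : G × Unit => φ p.1).comp (cayD S) := by
      refine hom_ext_bs fun p => ?_
      rw [pairHom_apply, pair_single, AddMonoidHom.sub_apply, AddMonoidHom.comp_apply,
        AddMonoidHom.comp_apply, cayD_bs, map_sub, pairHom_apply, pairHom_apply, pairHom_apply,
        pair_single, pair_single, ← hu]
      simp only [hdw]
      ring
    have h3 : ∀ p, pair dw (M.a1 (bs p)) = c p - pair b (F.d1 (bs p)) := by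
      intro p
      have h4 : c p = pairHom c (M.b1 (M.a1 (bs p)) + M.h0' (F.d1 (bs p)) + F.d2 (M.k' (bs p))) := by
        rw [← M.hom1', pairHom_apply, pair_single]
      rw [h4, ← pairHom_apply, ← pairHom_apply, h1, h2, map_add, map_add, pairHom_apply c (F.d2 _),
        hz, AddMonoidHom.sub_apply, AddMonoidHom.add_apply]
      simp only [AddMonoidHom.comp_apply]
      rw [M.a_comm]
      ring
    have hdw2 : SqSum dw := (cl2_iff fun x => u x - φ x).2 hw
    have h5 := (hC dw hdw2).2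
    simp only [h3] at h5
    have h6 : ∑' q, dw q ^ 2 = energy S fun x => u x - φ x := cl2_energy hw
    have hk := (hC₃ b hb).1
    have h7 := coclosed_orth F.e1 hc hcc hb
    have h8 : ∑' p, (c p - pair b (F.d1 (bs p))) ^ 2 = ∑' p, c p ^ 2 +
        ∑' p, pair b (F.d1 (bs p)) ^ 2 - 2 * ∑' p, c p * pair b (F.d1 (bs p)) := by
      rw [← Summable.tsum_add hc hk, ← tsum_mul_left,
        ← Summable.tsum_sub (Summable.add hc hk) ((cl2_mul hc hk).mul_left 2)]
      exact tsum_congr fun p => by ring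
    have h9 : 0 ≤ ∑' p, pair b (F.d1 (bs p)) ^ 2 := tsum_nonneg fun _ => sq_nonneg _
    have h10 : C * ∑' q, dw q ^ 2 ≤ C * ε := by
      rw [h6]
      exact mul_le_mul_of_nonneg_left hε'.le hC0
    rw [h8, h7] at h5
    linarith
  have h0 : ∑' p, c p ^ 2 ≤ 0 := by
    refine le_of_forall_pos_le_add fun δ hδ => ?_
    have h1 := key (δ / (C + 1)) (by positivity)
    have h2 : C * (δ / (C + 1)) ≤ δ := by
      rw [← mul_div_assoc, div_le_iff₀ (by positivity)]
      nlinarith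
    linarith
  funext p
  have h1 : c p ^ 2 ≤ ∑' p, c p ^ 2 := Summable.le_tsum hc p fun _ _ => sq_nonneg _
  exact pow_eq_zero_iff two_ne_zero |>.1 (le_antisymm (h1.trans h0) (sq_nonneg _))

theorem Dual.hv3 {F : Cx G n0 n1 n2 n3 n4} {D : Cx G n4 n3 n2 n1 n0} {χ : G →* ℤˣ}
    (h : Dual F D χ) (hD : HV D.d2 D.d1) : HV F.d4 F.d3 := by
  intro c hc hz hcc
  exact cl2_zero χ (hD _ (cl2_sq χ hc) (cl2_cocyc h.t2 hcc) (cl2_coclosed h.t1 hz))

theorem Dual.hv4 {F : Cx G n0 n1 n2 n3 n4} {D : Cx G n4 n3 n2 n1 n0} {χ : G →* ℤˣ}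
    (h : Dual F D χ) [Infinite G] {c : G × Fin n4 → ℝ} (hc : SqSum c) (h4 : Coclosed F.d4 c) :
    c = 0 := by
  exact cl2_zero χ (D.hv0 (cl2_sq χ hc) (cl2_cocyc h.t1 h4))

end Vale.Agent.P239
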