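import Vale.Agent.P239.Cx

/-! Task CxLift: basic algebra of equivariant maps between the modules `Ch G ι`.
`ofBasis c` sends `bs (g, i)` to `tr g (c i)`. `Eqv.ms_le`: `ms` is subadditive, invariant under `tr`, `ms (a • z) = |a| ms z`; take `C = ∑ i, ms (f (bs (1,i)))`.
`Eqv.finite_rev`: if `f (bs (g,i)) q ≠ 0` then `(g⁻¹ q.1, q.2)` is in the support of `f (bs (1,i))`, so `(g,i)` ranges over a set of size at most `∑ i, card (support (f (bs (1,i))))`.
`exists_pairZ_factor`: the additive map `z ↦ pairZ Λ z` kills `ker d1`, so it factors through `range d1 = ker aug`; extend to all of `Ch` by `z ↦ z - aug z • v` with `aug v = 1`; an additive map `Φ` out of `Ch` equals `pairZ (fun p => Φ (bs p))`. Same over `ℝ`.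
-/

noncomputable section

open Classical Filter Topology Set

namespace Vale.Agent.P239

universe u
variable {G : Type u} [Group G] {S : Finset G} {n0 n1 n2 n3 n4 : ℕ}

section
variable {ι κ μ : Type*}

theorem cl_expand {M : Type*} [AddCommGroup M] {α : Type*} (f : (α →₀ ℤ) →+ M) (z : α →₀ ℤ) :
    f z = ∑ p ∈ z.support, z p • f (Finsupp.single p 1) := by
  conv_lhs => rw [← Finsupp.sum_single z]
  rw [Finsupp.sum, map_sum]
  refine Finset.sum_congr rfl fun p _ => ?_
  rw [← map_zsmul, Finsupp.smul_single, smul_eq_mul, mul_one]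

theorem cl_ms {α : Type*} (z : α →₀ ℤ) {s : Finset α} (hs : z.support ⊆ s) :
    ms z = ∑ p ∈ s, (z p).natAbs :=
  Finsupp.sum_of_support_subset z hs _ fun _ _ => rfl

theorem cl_inj (g : G) : Function.Injective fun p : G × ι => (g * p.1, p.2) := by
  rintro ⟨a, i⟩ ⟨b, j⟩ h
  obtain ⟨h1, h2⟩ := Prod.ext_iff.1 h
  exact Prod.ext (mul_left_cancel h1) h2

theorem tr_bs (g : G) (p : G × ι) : tr g (bs p) = bs (g * p.1, p.2) := by
  exact Finsupp.mapDomain_single

theorem tr_apply (g : G) (z : Ch G ι) (p : G × ι) : tr g z p = z (g⁻¹ * p.1, p.2) := by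
  have h := Finsupp.mapDomain_apply (cl_inj g) z (g⁻¹ * p.1, p.2)
  simp only [mul_inv_cancel_left] at h
  exact h

theorem tr_mul (g h : G) (z : Ch G ι) : tr (g * h) z = tr g (tr h z) := by
  ext p
  simp only [tr_apply, mul_inv_rev, mul_assoc]

theorem tr_one (z : Ch G ι) : tr (1 : G) z = z := by
  ext p
  simp only [tr_apply, inv_one, one_mul]

theorem hom_ext_bs {M : Type*} [AddCommGroup M] {α : Type*} {f f' : (α →₀ ℤ) →+ M}
    (h : ∀ p, f (Finsupp.single p 1) = f' (Finsupp.single p 1)) : f = f' := by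
  refine DFunLike.ext _ _ fun z => ?_
  rw [cl_expand f, cl_expand f']
  exact Finset.sum_congr rfl fun p _ => by rw [h p]

theorem Eqv.ext {f f' : Ch G ι →+ Ch G κ} (hf : Eqv f) (hf' : Eqv f')
    (h : ∀ i, f (bs (1, i)) = f' (bs (1, i))) : f = f' := by
  refine hom_ext_bs fun p => ?_
  have e : (Finsupp.single p 1 : Ch G ι) = tr p.1 (bs (1, p.2)) := by
    rw [tr_bs, mul_one]
  rw [e, hf, hf', h]

theorem Eqv.comp {f : Ch G κ →+ Ch G μ} {f' : Ch G ι →+ Ch G κ} (hf : Eqv f) (hf' : Eqv f') :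
    Eqv (f.comp f') := by
  intro g z
  rw [AddMonoidHom.comp_apply, AddMonoidHom.comp_apply, hf', hf]

theorem Eqv.sub {f f' : Ch G ι →+ Ch G κ} (hf : Eqv f) (hf' : Eqv f') : Eqv (f - f') := by
  intro g z
  rw [AddMonoidHom.sub_apply, AddMonoidHom.sub_apply, hf, hf', map_sub]

theorem Eqv.add {f f' : Ch G ι →+ Ch G κ} (hf : Eqv f) (hf' : Eqv f') : Eqv (f + f') := by
  intro g z
  rw [AddMonoidHom.add_apply, AddMonoidHom.add_apply, hf, hf', map_add]

theorem eqv_id : Eqv (AddMonoidHom.id (Ch G ι)) := by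
  intro g z
  rfl

theorem Eqv.apply_bs {f : Ch G ι →+ Ch G κ} (hf : Eqv f) (g : G) (i : ι) (q : G × κ) :
    f (bs (g, i)) q = f (bs (1, i)) (g⁻¹ * q.1, q.2) := by
  have e : (bs (g, i) : Ch G ι) = tr g (bs (1, i)) := by
    rw [tr_bs, mul_one]
  rw [e, hf, tr_apply]

/-- The equivariant map with prescribed values on the basis. -/
def ofBasis (c : ι → Ch G κ) : Ch G ι →+ Ch G κ :=
  Finsupp.liftAddHom fun p => zmultiplesHom (Ch G κ) (tr p.1 (c p.2))

theorem ofBasis_bs (c : ι → Ch G κ) (g : G) (i : ι) : ofBasis c (bs (g, i)) = tr g (c i) := by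
  unfold ofBasis
  rw [Finsupp.liftAddHom_apply_single, zmultiplesHom_apply, one_smul]

theorem eqv_ofBasis (c : ι → Ch G κ) : Eqv (ofBasis c) := by
  intro g z
  have h : (ofBasis c).comp (tr g) = (tr g).comp (ofBasis c) := by
    refine hom_ext_bs fun p => ?_
    change ofBasis c (tr g (bs (p.1, p.2))) = tr g (ofBasis c (bs (p.1, p.2)))
    rw [tr_bs, ofBasis_bs, ofBasis_bs, tr_mul]
  exact DFunLike.congr_fun h z

theorem exists_lift {d : Ch G κ →+ Ch G μ} {f : Ch G ι →+ Ch G μ} (hd : Eqv d) (hf : Eqv f)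
    (h : ∀ z, ∃ y, d y = f z) : ∃ F : Ch G ι →+ Ch G κ, Eqv F ∧ ∀ z, d (F z) = f z := by
  choose y hy using h
  refine ⟨ofBasis fun i => y (bs (1, i)), eqv_ofBasis _, fun z => ?_⟩
  have h1 : d.comp (ofBasis fun i => y (bs (1, i))) = f := by
    refine (hd.comp (eqv_ofBasis _)).ext hf fun i => ?_
    rw [AddMonoidHom.comp_apply, ofBasis_bs, tr_one, hy]
  exact DFunLike.congr_fun h1 z

theorem exists_lift0 {a : Ch G ι →+ ℤ} {a' : Ch G κ →+ ℤ} (ha : ∀ g z, a (tr g z) = a z)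
    (ha' : ∀ g z, a' (tr g z) = a' z) (hs : Function.Surjective a') :
    ∃ F : Ch G ι →+ Ch G κ, Eqv F ∧ ∀ z, a' (F z) = a z := by
  choose y hy using hs
  refine ⟨ofBasis fun i => y (a (bs (1, i))), eqv_ofBasis _, fun z => ?_⟩
  have h1 : a'.comp (ofBasis fun i => y (a (bs (1, i)))) = a := by
    refine hom_ext_bs fun p => ?_
    change a' (ofBasis (fun i => y (a (bs (1, i)))) (bs (p.1, p.2))) = a (bs (p.1, p.2))
    rw [ofBasis_bs, ha', hy, ← ha p.1, tr_bs, mul_one]
  exact DFunLike.congr_fun h1 z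

theorem ms_add_le {α : Type*} (z w : α →₀ ℤ) : ms (z + w) ≤ ms z + ms w := by
  rw [cl_ms (z + w) (Finsupp.support_add), cl_ms z (s := z.support ∪ w.support)
    Finset.subset_union_left, cl_ms w (s := z.support ∪ w.support) Finset.subset_union_right,
    ← Finset.sum_add_distrib]
  exact Finset.sum_le_sum fun p _ => Int.natAbs_add_le _ _

theorem ms_neg {α : Type*} (z : α →₀ ℤ) : ms (-z) = ms z := by
  rw [cl_ms (-z) (s := z.support) (Finsupp.support_neg z).subset, cl_ms z (Finset.Subset.refl _)]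
  exact Finset.sum_congr rfl fun p _ => Int.natAbs_neg _

theorem ms_sub_le {α : Type*} (z w : α →₀ ℤ) : ms (z - w) ≤ ms z + ms w := by
  rw [sub_eq_add_neg, ← ms_neg w]
  exact ms_add_le _ _

theorem ms_sum_le {α β : Type*} (s : Finset β) (z : β → α →₀ ℤ) :
    ms (∑ i ∈ s, z i) ≤ ∑ i ∈ s, ms (z i) := by
  induction s using Finset.induction_on with
  | empty => simp [ms]
  | insert a s ha ih =>
    rw [Finset.sum_insert ha, Finset.sum_insert ha]
    exact (ms_add_le _ _).trans (Nat.add_le_add_left ih _)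

theorem ms_smul {α : Type*} (a : ℤ) (z : α →₀ ℤ) : ms (a • z) = a.natAbs * ms z := by
  rw [cl_ms (a • z) (s := z.support) Finsupp.support_smul, cl_ms z (Finset.Subset.refl _),
    Finset.mul_sum]
  exact Finset.sum_congr rfl fun p _ => Int.natAbs_mul _ _

theorem ms_eq_zero {α : Type*} {z : α →₀ ℤ} : ms z = 0 ↔ z = 0 := by
  constructor
  · intro h
    rw [cl_ms z (Finset.Subset.refl _), Finset.sum_eq_zero_iff] at h
    ext p
    by_contra hp
    exact hp (Int.natAbs_eq_zero.1 (h p (Finsupp.mem_support_iff.2 hp)))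
  · rintro rfl
    simp [ms]

theorem ms_single {α : Type*} (p : α) (a : ℤ) : ms (Finsupp.single p a) = a.natAbs := by
  exact Finsupp.sum_single_index rfl

theorem card_support_le_ms {α : Type*} (z : α →₀ ℤ) : z.support.card ≤ ms z := by
  rw [cl_ms z (Finset.Subset.refl _), Finset.card_eq_sum_ones]
  exact Finset.sum_le_sum fun p hp =>
    Nat.one_le_iff_ne_zero.2 (Int.natAbs_ne_zero.2 (Finsupp.mem_support_iff.1 hp))

theorem ms_filter_add {α : Type*} (z : α →₀ ℤ) (P : α → Prop) :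
    ms (z.filter P) + ms (z.filter fun a => ¬ P a) = ms z := by
  rw [cl_ms (z.filter P) (s := z.support) (by rw [Finsupp.support_filter]; exact Finset.filter_subset _ _),
    cl_ms (z.filter fun a => ¬ P a) (s := z.support)
      (by rw [Finsupp.support_filter]; exact Finset.filter_subset _ _),
    cl_ms z (Finset.Subset.refl _), ← Finset.sum_add_distrib]
  refine Finset.sum_congr rfl fun p _ => ?_
  by_cases hp : P p
  · simp [hp]
  · simp [hp]

theorem ms_filter_le {α : Type*} (z : α →₀ ℤ) (P : α → Prop) : ms (z.filter P) ≤ ms z := by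
  rw [← ms_filter_add z P]
  exact Nat.le_add_right _ _

theorem ms_tr (g : G) (z : Ch G ι) : ms (tr g z) = ms z := by
  exact Finsupp.sum_mapDomain_index_inj (cl_inj g)

theorem ms_hom_le {α β : Type*} (f : (α →₀ ℤ) →+ (β →₀ ℤ)) (z : α →₀ ℤ) {C : ℕ}
    (h : ∀ p ∈ z.support, ms (f (Finsupp.single p 1)) ≤ C) : ms (f z) ≤ C * ms z := by
  rw [cl_expand f z, cl_ms z (Finset.Subset.refl _), Finset.mul_sum]
  refine (ms_sum_le _ _).trans (Finset.sum_le_sum fun p hp => ?_)
  rw [ms_smul, mul_comm]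
  exact Nat.mul_le_mul_right _ (h p hp)

theorem support_hom_subset {α β : Type*} (f : (α →₀ ℤ) →+ (β →₀ ℤ)) (z : α →₀ ℤ) {q : β}
    (hq : q ∈ (f z).support) : ∃ p ∈ z.support, q ∈ (f (Finsupp.single p 1)).support := by
  by_contra hc
  push Not at hc
  refine Finsupp.mem_support_iff.1 hq ?_
  rw [cl_expand f z, Finsupp.finsetSum_apply]
  refine Finset.sum_eq_zero fun p hp => ?_
  rw [Finsupp.smul_apply, Finsupp.notMem_support_iff.1 (hc p hp), smul_zero]

theorem Eqv.ms_le [Finite ι] {f : Ch G ι →+ Ch G κ} (hf : Eqv f) :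
    ∃ C : ℕ, ∀ z, ms (f z) ≤ C * ms z := by
  have := Fintype.ofFinite ι
  refine ⟨∑ i, ms (f (bs (1, i))), fun z => ms_hom_le f z fun p _ => ?_⟩
  have e : (Finsupp.single p 1 : Ch G ι) = tr p.1 (bs (1, p.2)) := by
    rw [tr_bs, mul_one]
  rw [e, hf, ms_tr]
  exact Finset.single_le_sum (f := fun i => ms (f (bs (1, i)))) (fun _ _ => Nat.zero_le _)
    (Finset.mem_univ p.2)

theorem cl_finset [Finite ι] {f : Ch G ι →+ Ch G κ} (hf : Eqv f) :
    ∃ T : Finset G, ∀ p q, f (bs p) q ≠ 0 → p.1⁻¹ * q.1 ∈ T := by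
  have := Fintype.ofFinite ι
  refine ⟨Finset.univ.biUnion fun i => (f (bs (1, i))).support.image Prod.fst, fun p q h => ?_⟩
  have h1 : f (bs (1, p.2)) (p.1⁻¹ * q.1, q.2) ≠ 0 := by
    rw [← hf.apply_bs]
    exact h
  exact Finset.mem_biUnion.2 ⟨p.2, Finset.mem_univ _,
    Finset.mem_image.2 ⟨_, Finsupp.mem_support_iff.2 h1, rfl⟩⟩

theorem Eqv.finite_rev [Finite ι] {f : Ch G ι →+ Ch G κ} (hf : Eqv f) :
    ∃ C : ℕ, ∀ q, {p | f (bs p) q ≠ 0}.Finite ∧ {p | f (bs p) q ≠ 0}.ncard ≤ C := by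
  obtain ⟨T, hT⟩ := cl_finset hf
  have := Fintype.ofFinite ι
  refine ⟨(T ×ˢ (Finset.univ : Finset ι)).card, fun q => ?_⟩
  have h1 : {p | f (bs p) q ≠ 0} ⊆
      (((T ×ˢ (Finset.univ : Finset ι)).image fun e => (q.1 * e.1⁻¹, e.2) : Finset (G × ι)) :
        Set (G × ι)) := by
    intro p hp
    refine Finset.mem_coe.2 (Finset.mem_image.2 ⟨(p.1⁻¹ * q.1, p.2),
      Finset.mem_product.2 ⟨hT p q hp, Finset.mem_univ _⟩, ?_⟩)
    simp
  refine ⟨(Finset.finite_toSet _).subset h1, (ncard_le_ncard h1 (Finset.finite_toSet _)).trans ?_⟩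
  rw [ncard_coe_finset]
  exact Finset.card_image_le

theorem Eqv.exists_finset [Finite ι] {f : Ch G ι →+ Ch G κ} (hf : Eqv f) :
    ∃ T : Finset G, ∀ p q, f (bs p) q ≠ 0 → p.1⁻¹ * q.1 ∈ T := by
  exact cl_finset hf

theorem pairZ_single {α : Type*} (c : α → ℤ) (p : α) : pairZ c (Finsupp.single p 1) = c p := by
  unfold pairZ
  rw [Finsupp.sum_single_index (zero_mul _), one_mul]

theorem pair_single {α : Type*} (c : α → ℝ) (p : α) : pair c (Finsupp.single p 1) = c p := by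
  unfold pair
  rw [Finsupp.sum_single_index (by simp), Int.cast_one, one_mul]

/-- `pairZ c` as an additive map. -/
def pairZHom {α : Type*} (c : α → ℤ) : (α →₀ ℤ) →+ ℤ :=
  Finsupp.liftAddHom fun p => AddMonoidHom.mulRight (c p)

theorem pairZHom_apply {α : Type*} (c : α → ℤ) (z : α →₀ ℤ) : pairZHom c z = pairZ c z := by
  rfl

/-- `pair c` as an additive map. -/
def pairHom {α : Type*} (c : α → ℝ) : (α →₀ ℤ) →+ ℝ :=
  Finsupp.liftAddHom fun p => (AddMonoidHom.mulRight (c p)).comp (Int.castAddHom ℝ)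

theorem pairHom_apply {α : Type*} (c : α → ℝ) (z : α →₀ ℤ) : pairHom c z = pair c z := by
  rfl

theorem pairZ_comp {α β : Type*} (c : β → ℤ) (f : (α →₀ ℤ) →+ (β →₀ ℤ)) (z : α →₀ ℤ) :
    pairZ (fun p => pairZ c (f (Finsupp.single p 1))) z = pairZ c (f z) := by
  have h : pairZHom (fun p => pairZ c (f (Finsupp.single p 1))) = (pairZHom c).comp f := by
    refine hom_ext_bs fun p => ?_
    rw [pairZHom_apply, pairZ_single, AddMonoidHom.comp_apply, pairZHom_apply]
  exact DFunLike.congr_fun h z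

theorem pair_comp {α β : Type*} (c : β → ℝ) (f : (α →₀ ℤ) →+ (β →₀ ℤ)) (z : α →₀ ℤ) :
    pair (fun p => pair c (f (Finsupp.single p 1))) z = pair c (f z) := by
  have h : pairHom (fun p => pair c (f (Finsupp.single p 1))) = (pairHom c).comp f := by
    refine hom_ext_bs fun p => ?_
    rw [pairHom_apply, pair_single, AddMonoidHom.comp_apply, pairHom_apply]
  exact DFunLike.congr_fun h z

theorem cayD_bs (p : G × S) : cayD S (bs p) = bs (p.1 * p.2, ()) - bs (p.1, ()) := by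
  unfold cayD
  rw [Finsupp.liftAddHom_apply_single, zmultiplesHom_apply, one_smul]

theorem cayAug_bs (p : G × Unit) : cayAug (bs p) = 1 := by
  unfold cayAug
  rw [Finsupp.liftAddHom_apply_single]
  rfl

theorem eqv_cayD : Eqv (cayD S) := by
  intro g z
  have h : (cayD S).comp (tr g) = (tr g).comp (cayD S) := by
    refine hom_ext_bs fun p => ?_
    change cayD S (tr g (bs p)) = tr g (cayD S (bs p))
    rw [tr_bs, cayD_bs, cayD_bs, map_sub, tr_bs, tr_bs, mul_assoc]
  exact DFunLike.congr_fun h z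

end

theorem Cx.exists_hom_factor (F : Cx G n0 n1 n2 n3 n4) {M : Type*} [AddCommGroup M]
    (Λ : Ch G (Fin n1) →+ M) (h : ∀ z, Λ (F.d2 z) = 0) :
    ∃ Ω : Ch G (Fin n0) →+ M, ∀ z, Λ z = Ω (F.d1 z) := by
  obtain ⟨v, hv⟩ := F.aug_surj 1
  have h1 : ∀ p : G × Fin n0, ∃ y, F.d1 y = bs p - F.aug (bs p) • v := fun p =>
    (F.exact0 _).1 (by rw [map_sub, map_zsmul, hv, smul_eq_mul, mul_one, sub_self])
  choose y hy using h1
  let s : Ch G (Fin n0) →+ Ch G (Fin n1) := Finsupp.liftAddHom fun p => zmultiplesHom _ (y p)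
  have h2 : F.d1.comp s = AddMonoidHom.id _ - (zmultiplesHom _ v).comp F.aug := by
    refine hom_ext_bs fun p => ?_
    rw [AddMonoidHom.comp_apply, Finsupp.liftAddHom_apply_single, zmultiplesHom_apply, one_smul, hy]
    rfl
  refine ⟨Λ.comp s, fun z => ?_⟩
  have h3 : F.d1 (s (F.d1 z)) = F.d1 z - F.aug (F.d1 z) • v := DFunLike.congr_fun h2 (F.d1 z)
  rw [F.exact0.apply_apply_eq_zero, zero_smul, sub_zero] at h3
  obtain ⟨w, hw⟩ := (F.exact1 (z - s (F.d1 z))).1 (by rw [map_sub, h3, sub_self])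
  have h4 := h w
  rw [hw, map_sub, sub_eq_zero] at h4
  exact h4

theorem Cx.exists_const (F : Cx G n0 n1 n2 n3 n4) {M : Type*} [AddCommGroup M]
    (Ω : Ch G (Fin n0) →+ M) (h : ∀ z, Ω (F.d1 z) = 0) :
    ∃ m : M, ∀ z, Ω z = F.aug z • m := by
  obtain ⟨v, hv⟩ := F.aug_surj 1
  refine ⟨Ω v, fun z => ?_⟩
  obtain ⟨w, hw⟩ := (F.exact0 (z - F.aug z • v)).1
    (by rw [map_sub, map_zsmul, hv, smul_eq_mul, mul_one, sub_self])
  have h4 := h w
  rwa [hw, map_sub, map_zsmul, sub_eq_zero] at h4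

end Vale.Agent.P239
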