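import Vale.Agent.P239.BdBasic

/-! Task DFun: the class `IsD` of boundary values of bounded finite energy functions.
Key: for bounded `u` of finite energy, Royden gives `u = h + p` with `p` in `ℓ²` (bounded, tends to `0`),
`h` bounded harmonic; `hat u = hat h` a.e., `H (hat u) = H (hat h) = h`, `energy h ≤ energy u`
(`Cay.energy_add`). `IsD.lip`: use the representatives `H ψ`, `H φ`, `hat_comp₂`, `finEn_of_le` with `T = ∅`.
`IsD.mul`: representatives are bounded by `M`, `|ab - a'b'| ≤ M (|a-a'| + |b-b'|)`.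
`IsD.smul`: representative `x ↦ u (g * x)`, `hat_smul`, `ae_smul`.
-/

noncomputable section

open Classical MeasureTheory Filter Topology Set
open scoped Pointwise

namespace Vale.Agent.P239

universe u
variable {G : Type u} [Group G] {S : Finset G} {l : ℕ}

namespace Bdry
variable {B : Bdry S}

theorem sqSum_sub_H (hS : Cay S) (hg : Gap S) {u : G → ℝ} (hb : Bdd u) (hu : FinEn S u) :
    SqSum (fun x => u x - B.H (hat u) x) ∧ FinEn S (B.H (hat u)) ∧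
      energy S (B.H (hat u)) ≤ energy S u ∧ hat (B.H (hat u)) =ᵐ[B.μ 1] hat u := by
  obtain ⟨p, hp, hH⟩ := hS.royden hg hu
  have hb2 : Bdd fun x => u x - p x := hb.comp₂ hp.bdd (F := fun a b => a - b) (by fun_prop)
  have h1 : hat (fun x => u x - p x) =ᵐ[B.μ 1] hat u := by
    filter_upwards [B.hat_eq_zero hS hp.tendsto] with ξ h
    rw [hat_comp₂ hb hp.bdd (F := fun a b => a - b) (by fun_prop), h, sub_zero]
  have h2 : B.H (hat u) = fun x => u x - p x := by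
    rw [← B.H_congr hS h1, B.H_hat_of_harm hb2 hH]
  have h3 : FinEn S fun x => u x - p x := hu.sub hp.finEn
  have h4 := hS.energy_add h3 hH hp
  simp only [sub_add_cancel] at h4
  have h5 := energy_nonneg (S := S) p
  rw [h2]
  refine ⟨?_, h3, ?_, h1⟩
  · simpa only [sub_sub_cancel] using hp
  · have h6 : energy S u = energy S (fun x => u x - p x) + energy S p := h4
    linarith

theorem sqSum_of_hat_zero (hS : Cay S) (hg : Gap S) {u : G → ℝ} (hb : Bdd u) (hu : FinEn S u)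
    (hz : ∀ᵐ ξ ∂B.μ 1, hat u ξ = 0) : SqSum u := by
  have h1 := (sqSum_sub_H (B := B) hS hg hb hu).1
  have h2 : B.H (hat u) = B.H fun _ => 0 := B.H_congr hS hz
  rw [h2] at h1
  simpa only [H, integral_zero, sub_zero] using h1

theorem isD_hat {u : G → ℝ} (hb : Bdd u) (hu : FinEn S u) : B.IsD (hat u) :=
  ⟨hb.measurable_hat, hb.bdd_hat, u, hb, hu, EventuallyEq.rfl⟩

theorem IsD.finEn (hS : Cay S) (hg : Gap S) {ψ : Bd G → ℝ} (h : B.IsD ψ) :
    FinEn S (B.H ψ) := by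
  obtain ⟨-, -, u, hb, hu, he⟩ := h
  rw [B.H_congr hS he]
  exact (sqSum_sub_H hS hg hb hu).2.1

theorem IsD.hat_H (hS : Cay S) (hg : Gap S) {ψ : Bd G → ℝ} (h : B.IsD ψ) :
    hat (B.H ψ) =ᵐ[B.μ 1] ψ := by
  obtain ⟨-, -, u, hb, hu, he⟩ := h
  rw [B.H_congr hS he]
  exact (sqSum_sub_H hS hg hb hu).2.2.2.trans he.symm

theorem energy_H_le (hS : Cay S) (hg : Gap S) {ψ : Bd G → ℝ} {u : G → ℝ} (hb : Bdd u)
    (hu : FinEn S u) (h : ψ =ᵐ[B.μ 1] hat u) : energy S (B.H ψ) ≤ energy S u := by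
  rw [B.H_congr hS h]
  exact (sqSum_sub_H hS hg hb hu).2.2.1

theorem IsD.congr {ψ φ : Bd G → ℝ} (h : B.IsD ψ) (hm : Measurable φ) (hb : Bdd φ)
    (he : φ =ᵐ[B.μ 1] ψ) : B.IsD φ := by
  obtain ⟨-, -, u, hb', hu, he'⟩ := h
  exact ⟨hm, hb, u, hb', hu, he.trans he'⟩

theorem isD_const (c : ℝ) : B.IsD (fun _ => c) :=
  ⟨measurable_const, ⟨|c|, fun _ => le_rfl⟩, fun _ => c, ⟨|c|, fun _ => le_rfl⟩, finEn_const c,
    Eventually.of_forall fun ξ => (hat_const c ξ).symm⟩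

theorem df_continuous {F : ℝ → ℝ → ℝ} {L : ℝ} (hL : 0 ≤ L)
    (hF : ∀ a b a' b', |F a b - F a' b'| ≤ L * (|a - a'| + |b - b'|)) :
    Continuous fun p : ℝ × ℝ => F p.1 p.2 := by
  refine (LipschitzWith.of_dist_le_mul (K := ⟨2 * L, by positivity⟩) fun p q => ?_).continuous
  have h1 : |p.1 - q.1| ≤ dist p q := by
    rw [Prod.dist_eq]
    exact le_max_left _ _
  have h2 : |p.2 - q.2| ≤ dist p q := by
    rw [Prod.dist_eq]
    exact le_max_right _ _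
  refine (hF _ _ _ _).trans ?_
  change _ ≤ 2 * L * dist p q
  nlinarith

/-- Combination of two functions in `IsD` through chosen representatives. -/
theorem df_comp {ψ φ : Bd G → ℝ} (hm : Measurable ψ) (hb : Bdd ψ) (hm' : Measurable φ)
    (hb' : Bdd φ) {u v : G → ℝ} (hu : Bdd u) (hv : Bdd v) (he : ψ =ᵐ[B.μ 1] hat u)
    (he' : φ =ᵐ[B.μ 1] hat v) {F : ℝ → ℝ → ℝ} (hF : Continuous fun p : ℝ × ℝ => F p.1 p.2)
    (hE : FinEn S fun x => F (u x) (v x)) :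
    B.IsD (fun ξ => F (ψ ξ) (φ ξ)) ∧
      (fun ξ => F (ψ ξ) (φ ξ)) =ᵐ[B.μ 1] hat fun x => F (u x) (v x) := by
  have h1 : (fun ξ => F (ψ ξ) (φ ξ)) =ᵐ[B.μ 1] hat fun x => F (u x) (v x) := by
    filter_upwards [he, he'] with ξ h1 h2
    rw [hat_comp₂ hu hv hF, h1, h2]
  exact ⟨⟨hF.measurable.comp (hm.prodMk hm'), hb.comp₂ hb' hF, _, hu.comp₂ hv hF, hE, h1⟩, h1⟩

theorem df_lip {ψ φ : Bd G → ℝ} (h : B.IsD ψ) (h' : B.IsD φ)
    {F : ℝ → ℝ → ℝ} {L : ℝ} (hL : 0 ≤ L)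
    (hF : ∀ a b a' b', |F a b - F a' b'| ≤ L * (|a - a'| + |b - b'|)) :
    B.IsD (fun ξ => F (ψ ξ) (φ ξ)) := by
  obtain ⟨hm, hb, u, hu, huE, he⟩ := h
  obtain ⟨hm', hb', v, hv, hvE, he'⟩ := h'
  exact (df_comp hm hb hm' hb' hu hv he he' (df_continuous hL hF)
    (finEn_of_le huE hvE (M := 0) hL finite_empty (fun e he => absurd he (notMem_empty e))
      fun x s _ _ => hF _ _ _ _).1).1

theorem IsD.lip (hS : Cay S) (hg : Gap S) {ψ φ : Bd G → ℝ} (h : B.IsD ψ) (h' : B.IsD φ)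
    {F : ℝ → ℝ → ℝ} {L : ℝ} (hL : 0 ≤ L)
    (hF : ∀ a b a' b', |F a b - F a' b'| ≤ L * (|a - a'| + |b - b'|)) :
    B.IsD (fun ξ => F (ψ ξ) (φ ξ)) ∧ energy S (B.H fun ξ => F (ψ ξ) (φ ξ)) ≤
      2 * L ^ 2 * (energy S (B.H ψ) + energy S (B.H φ)) := by
  have hc := df_continuous hL hF
  have h1 := finEn_of_le (u := fun x => F (B.H ψ x) (B.H φ x)) (h.finEn hS hg) (h'.finEn hS hg)
    (M := 0) hL finite_empty (fun e he => absurd he (notMem_empty e)) fun x s _ _ => hF _ _ _ _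
  have h2 := df_comp h.1 h.2.1 h'.1 h'.2.1 (B.H_bdd h.2.1) (B.H_bdd h'.2.1) (h.hat_H hS hg).symm
    (h'.hat_H hS hg).symm hc h1.1
  refine ⟨h2.1, (energy_H_le hS hg ((B.H_bdd h.2.1).comp₂ (B.H_bdd h'.2.1) hc) h1.1 h2.2).trans ?_⟩
  have h3 := h1.2
  rw [ncard_empty, Nat.cast_zero, mul_zero, add_zero] at h3
  exact h3

theorem IsD.lip₁ (hS : Cay S) (hg : Gap S) {ψ : Bd G → ℝ} (h : B.IsD ψ)
    {F : ℝ → ℝ} {L : ℝ} (hL : 0 ≤ L) (hF : ∀ a a', |F a - F a'| ≤ L * |a - a'|) :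
    B.IsD (fun ξ => F (ψ ξ)) :=
  (h.lip hS hg h (F := fun a _ => F a) hL fun a _ a' _ =>
    (hF a a').trans (mul_le_mul_of_nonneg_left (le_add_of_nonneg_right (abs_nonneg _)) hL)).1

theorem IsD.add {ψ φ : Bd G → ℝ} (h : B.IsD ψ) (h' : B.IsD φ) :
    B.IsD (fun ξ => ψ ξ + φ ξ) :=
  df_lip h h' (F := fun a b => a + b) zero_le_one fun a b a' b' => by
    rw [one_mul, show a + b - (a' + b') = (a - a') + (b - b') by ring]
    exact abs_add_le _ _

theorem IsD.sub {ψ φ : Bd G → ℝ} (h : B.IsD ψ) (h' : B.IsD φ) :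
    B.IsD (fun ξ => ψ ξ - φ ξ) :=
  df_lip h h' (F := fun a b => a - b) zero_le_one fun a b a' b' => by
    rw [one_mul, show a - b - (a' - b') = (a - a') - (b - b') by ring]
    exact abs_sub _ _

theorem IsD.mul {ψ φ : Bd G → ℝ} (h : B.IsD ψ) (h' : B.IsD φ) :
    B.IsD (fun ξ => ψ ξ * φ ξ) := by
  obtain ⟨hm, hb, u, hu, huE, he⟩ := h
  obtain ⟨hm', hb', v, hv, hvE, he'⟩ := h'
  obtain ⟨C, hC⟩ := id hu
  obtain ⟨D, hD⟩ := id hv
  have hC0 : 0 ≤ C := (abs_nonneg _).trans (hC 1)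
  have hD0 : 0 ≤ D := (abs_nonneg _).trans (hD 1)
  refine (df_comp hm hb hm' hb' hu hv he he' (F := fun a b => a * b) (by fun_prop)
    (finEn_of_le huE hvE (M := 0) (add_nonneg hC0 hD0) finite_empty
      (fun e he => absurd he (notMem_empty e)) fun x s _ _ => ?_).1).1
  rw [show u (x * s) * v (x * s) - u x * v x =
    (u (x * s) - u x) * v (x * s) + u x * (v (x * s) - v x) by ring]
  refine (abs_add_le _ _).trans ?_
  rw [abs_mul, abs_mul]
  have h1 := mul_le_mul_of_nonneg_left (hD (x * s)) (abs_nonneg (u (x * s) - u x))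
  have h2 := mul_le_mul_of_nonneg_right (hC x) (abs_nonneg (v (x * s) - v x))
  have h3 := mul_nonneg hC0 (abs_nonneg (u (x * s) - u x))
  have h4 := mul_nonneg hD0 (abs_nonneg (v (x * s) - v x))
  linarith

theorem IsD.const_mul {ψ : Bd G → ℝ} (h : B.IsD ψ) (c : ℝ) : B.IsD (fun ξ => c * ψ ξ) :=
  (isD_const c).mul h

theorem IsD.max {ψ φ : Bd G → ℝ} (h : B.IsD ψ) (h' : B.IsD φ) :
    B.IsD (fun ξ => max (ψ ξ) (φ ξ)) :=
  df_lip h h' (F := fun a b => Max.max a b) zero_le_one fun a b a' b' => by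
    rw [one_mul]
    exact (abs_max_sub_max_le_max a b a' b').trans
      (max_le_add_of_nonneg (abs_nonneg _) (abs_nonneg _))

theorem IsD.min {ψ φ : Bd G → ℝ} (h : B.IsD ψ) (h' : B.IsD φ) :
    B.IsD (fun ξ => min (ψ ξ) (φ ξ)) :=
  df_lip h h' (F := fun a b => Min.min a b) zero_le_one fun a b a' b' => by
    rw [one_mul]
    exact (abs_min_sub_min_le_max a b a' b').trans
      (max_le_add_of_nonneg (abs_nonneg _) (abs_nonneg _))

theorem IsD.smul (hS : Cay S) {ψ : Bd G → ℝ} (h : B.IsD ψ) (g : G) :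
    B.IsD (fun ξ => ψ (g • ξ)) := by
  obtain ⟨hm, ⟨C, hC⟩, u, ⟨D, hD⟩, huE, he⟩ := h
  exact ⟨hm.comp (measurable_smul_bd g), ⟨C, fun ξ => hC _⟩, fun x => u (g * x),
    ⟨D, fun x => hD _⟩, (huE.translate g).1, B.ae_smul hS g he⟩

end Bdry

end Vale.Agent.P239
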