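import Mathlib

/-! Definitions used by the statement of the P239 hand-in. -/

noncomputable section

namespace Vale.Agent.P239

universe u v

/-- The integral group ring. -/
abbrev ZG (G : Type u) [Group G] := MonoidAlgebra ℤ G

/-- The free left `ℤG`-module of rank `n`. -/
abbrev Free (G : Type u) [Group G] (n : ℕ) := Fin n → ZG G

/-- A finite free resolution `0 → F₄ → F₃ → F₂ → F₁ → F₀ → ℤ → 0` of the trivial module. -/
structure FreeRes4 (G : Type u) [Group G] where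
  n0 : ℕ
  n1 : ℕ
  n2 : ℕ
  n3 : ℕ
  n4 : ℕ
  d1 : Free G n1 →ₗ[ZG G] Free G n0
  d2 : Free G n2 →ₗ[ZG G] Free G n1
  d3 : Free G n3 →ₗ[ZG G] Free G n2
  d4 : Free G n4 →ₗ[ZG G] Free G n3
  aug : Free G n0 →+ ℤ
  aug_smul : ∀ (g : G) (x : Free G n0), aug (MonoidAlgebra.of ℤ G g • x) = aug x
  aug_surj : Function.Surjective aug
  exact0 : Function.Exact d1 aug
  exact1 : Function.Exact d2 d1
  exact2 : Function.Exact d3 d2
  exact3 : Function.Exact d4 d3
  inj4 : Function.Injective d4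

/-- The coboundary `Hom(F_m, ℤG) → Hom(F_n, ℤG)` induced by `d : F_n → F_m`. -/
def dualMap {G : Type u} [Group G] {n m : ℕ} (d : Free G n →ₗ[ZG G] Free G m)
    (f : Free G m →ₗ[ZG G] ZG G) : Free G n →ₗ[ZG G] ZG G := f.comp d

/-- Poincare duality in dimension four: `H^k(G; ℤG) = 0` for `k = 0, 1, 2, 3` and
`H^4(G; ℤG)` is infinite cyclic. -/
def FreeRes4.IsPD4 {G : Type u} [Group G] (R : FreeRes4 G) : Prop :=
  Function.Injective (dualMap R.d1) ∧
  Function.Exact (dualMap R.d1) (dualMap R.d2) ∧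
  Function.Exact (dualMap R.d2) (dualMap R.d3) ∧
  Function.Exact (dualMap R.d3) (dualMap R.d4) ∧
  ∃ η : (Free G R.n4 →ₗ[ZG G] ZG G) →+ ℤ,
    Function.Surjective η ∧ Function.Exact (dualMap R.d4) η

/-- The sum of the absolute values of all coefficients of a chain. -/
def mass {G : Type u} [Group G] {n : ℕ} (x : Free G n) : ℕ :=
  ∑ i, (x i).coeff.sum fun _ a => a.natAbs

/-- The homological filling function for 2-cycles grows at most like `a ^ α` with `α < 2`. -/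
def FreeRes4.SubquadraticFilling {G : Type u} [Group G] (R : FreeRes4 G) : Prop :=
  ∃ C α : ℝ, α < 2 ∧ ∀ z : Free G R.n2, z ≠ 0 → R.d2 z = 0 →
    ∃ y : Free G R.n3, R.d3 y = z ∧ (mass y : ℝ) ≤ C * (mass z : ℝ) ^ α

/-- `G` has a proper length function and a bounded synchronous combing of linear length. -/
def LinearlyCombable (G : Type u) [Group G] : Prop :=
  ∃ (len : G → ℕ) (σ : G → ℕ → G) (K : ℕ),
    (∀ g h, len (g * h) ≤ len g + len h) ∧ (∀ g, len g⁻¹ = len g) ∧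
    (∀ r, {g | len g ≤ r}.Finite) ∧
    (∀ g, σ g 0 = 1) ∧ (∀ g n, K * len g + K ≤ n → σ g n = g) ∧
    (∀ g n, len ((σ g n)⁻¹ * σ g (n + 1)) ≤ K) ∧
    (∀ g h n, len ((σ g n)⁻¹ * σ h n) ≤ K * len (g⁻¹ * h) + K)

/-- `γ` restricted to `[0,1]` is a constant speed geodesic from `x` to `y`. -/
def IsGeodesic {X : Type v} [MetricSpace X] (γ : ℝ → X) (x y : X) : Prop :=
  γ 0 = x ∧ γ 1 = y ∧
    ∀ s ∈ Set.Icc (0 : ℝ) 1, ∀ t ∈ Set.Icc (0 : ℝ) 1, dist (γ s) (γ t) = |s - t| * dist x y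

/-- A geodesic metric space satisfying the CAT(0) comparison inequality. -/
def IsCAT0 (X : Type v) [MetricSpace X] : Prop :=
  (∀ x y : X, ∃ γ, IsGeodesic γ x y) ∧
  ∀ (x y z : X) (γ : ℝ → X), IsGeodesic γ x y → ∀ t ∈ Set.Icc (0 : ℝ) 1,
    dist z (γ t) ^ 2 ≤
      (1 - t) * dist z x ^ 2 + t * dist z y ^ 2 - t * (1 - t) * dist x y ^ 2

/-- The action is metrically proper and cobounded. -/
def ProperCobounded (G : Type u) [Group G] (X : Type v) [MetricSpace X] [MulAction G X] : Prop :=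
  ∃ o : X, (∀ r : ℝ, {g : G | dist o (g • o) ≤ r}.Finite) ∧
    ∃ r : ℝ, ∀ y : X, ∃ g : G, dist y (g • o) ≤ r

/-- The Hilbert space `ℓ²(G)`. -/
abbrev L2G (G : Type u) := lp (fun _ : G => ℂ) 2

/-- `φ : F_n → ℓ²(G)` is `G`-equivariant for the left regular representation. -/
def IsL2Cochain {G : Type u} [Group G] {n : ℕ} (φ : Free G n →+ L2G G) : Prop :=
  ∀ (g : G) (x : Free G n) (y : G), φ (MonoidAlgebra.of ℤ G g • x) y = φ x (g⁻¹ * y)

/-- The reduced `ℓ²`-cohomology of `F_n → F_m → F_k` vanishes at `F_m`: every `ℓ²`-cocycle is a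
limit of `ℓ²`-coboundaries in `Hom_G(F_m, ℓ²G) = ℓ²(G)^m`. -/
def ReducedL2Vanishes {G : Type u} [Group G] {n m k : ℕ}
    (d : Free G n →ₗ[ZG G] Free G m) (e : Free G m →ₗ[ZG G] Free G k) : Prop :=
  ∀ φ : Free G m →+ L2G G, IsL2Cochain φ → (∀ x, φ (d x) = 0) →
    ∀ ε : ℝ, 0 < ε → ∃ ψ : Free G k →+ L2G G, IsL2Cochain ψ ∧
      ∀ i : Fin m, ‖φ (Pi.single i 1) - ψ (e (Pi.single i 1))‖ < ε

/-- The `L²`-Betti numbers vanish in degrees `0, 1, 3, 4` (the complex is zero in degrees `> 4`). -/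
def FreeRes4.SingerVanishing {G : Type u} [Group G] (R : FreeRes4 G) : Prop :=
  ReducedL2Vanishes R.d1 (0 : Free G R.n0 →ₗ[ZG G] Free G 0) ∧
  ReducedL2Vanishes R.d2 R.d1 ∧
  ReducedL2Vanishes R.d4 R.d3 ∧
  ReducedL2Vanishes (0 : Free G 0 →ₗ[ZG G] Free G R.n4) R.d4

end Vale.Agent.P239
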