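import Vale.Agent.P239.Atom2

/-! Task FamA: the low main atoms `P c` and the sets `T p q`.
`exists_low`: `P0` from `exists_atom` for `f = (1/4 - u)^+`; for `c ∈ (1/4, 3/4]`, `P c` from `exists_main` for `f_c = max (c - u) 0`, `Q = P0`, `a = c - 1/4`.
Monotone: for `c < c'`, `Split.irr_sub` with `E = P c'`, `R = P c`, `a = c' - c`; the second alternative contradicts `P0` nonnull.
`exists_T`: `Q0` from `exists_atom` for `(u - 3/4)^+`. For `1/4 < p < q < 3/4`, `κ = min 1 (indicator (P q) (f_q - (q-p)/2)^+ / ((q-p)/2))` is `IsD01`, equals `1` a.e. on `P p`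
(there `u < p`, and `Sub (P p) (P q)`), and `0` off `P q`. `ρ p q = 1 - κ`. `ρ = 1` a.e. on `Q0` (there `u > 3/4` so not in `P q`). `Hh p q` from `exists_main` for `ρ p q`, `Q0`, `a = 1`;
`T p q = (Hh p q)ᶜ`. `χ p q = 2 * indicator (Hh p q) (ρ - 1/2)^+`, `χ' p q = 2 * indicator (T p q) (ρ - 1/2)^+` are `IsD01`.
Properties: `Good` by `good_of_split`; `Sub (P p) (T p q)` since `ρ > 0` on `Hh`. For `q ≤ p'`: `Hh p' q'` is a.e. disjoint from `P p' ⊇ P q`, so `ρ p q = 1` there,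
`Split.irr_sub` with `E = Hh p q`, `R = Hh p' q'` and `Q0` nonnull give `Sub (Hh p' q') (Hh p q)`; `χ p q` separates `T p q` from `Hh p' q'`.
Last property (`hirr`): if `θ` is `IsD`, two-valued a.e. on `T p q`, and `0` a.e. on `P q`, let `E = {θ = 1} ∩ T p q`; `indicator E 1 = θ * χ' p q` a.e.
(off `P q`, `ρ = 1`), so `trivial_of_isD`; `Eᶜ` is not null because `P0 ⊆ P q` a.e. is nonnull and disjoint from `E`; so `E` is null.
-/

noncomputable section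

open Classical MeasureTheory Filter Topology Set
open scoped Pointwise

namespace Vale.Agent.P239

universe u
variable {G : Type u} [Group G] {S : Finset G} {l : ℕ}

namespace Bdry
variable {B : Bdry S}

theorem fa_isD {u : Bd G → ℝ} (hu : B.IsD01 u) {c : ℝ} (h1 : c ≤ 1) :
    B.IsD01 (fun ξ => max (c - u ξ) 0) := by
  refine ⟨((isD_const c).sub hu.1).max (isD_const 0), fun ξ => ⟨le_max_right _ _, ?_⟩⟩
  have := (hu.2 ξ).1
  exact max_le (by linarith) zero_le_one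

theorem fa_null {A A' : Set (Bd G)} (h : B.Sub A A') (h' : B.Sub A A'ᶜ) : B.Null A := by
  refine (B.null_iff_ae _).2 ?_
  filter_upwards [(B.sub_iff _ _).1 h, (B.sub_iff _ _).1 h'] with ξ h1 h2 h3
  exact h2 h3 (h1 h3)

theorem fa_chi {ρ : Bd G → ℝ} (hρ : B.IsD01 ρ) {E : Set (Bd G)} (hE : B.Split ρ E) :
    ∃ χ, B.IsD01 χ ∧ (∀ ξ, ξ ∉ E → χ ξ = 0) ∧ ∀ ξ ∈ E, ρ ξ = 1 → χ ξ = 1 := by
  refine ⟨fun ξ => 2 * E.indicator (fun ξ => max (ρ ξ - 1 / 2) 0) ξ,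
    ⟨(hE.2 _ (by norm_num)).const_mul 2, fun ξ => ?_⟩, fun ξ hξ => ?_, fun ξ hξ h1 => ?_⟩
  · by_cases h : ξ ∈ E
    · simp only [indicator_of_mem h]
      have h1 := (hρ.2 ξ).2
      have h2 : max (ρ ξ - 1 / 2) 0 ≤ 1 / 2 := max_le (by linarith) (by norm_num)
      have h3 := le_max_right (ρ ξ - 1 / 2) 0
      constructor <;> linarith
    · simp only [indicator_of_notMem h]
      norm_num
  · simp only [indicator_of_notMem hξ, mul_zero]
  · simp only [indicator_of_mem hξ, h1]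
    norm_num

theorem fa_rho {u : Bd G → ℝ} {p q : ℝ} (hpq : p < q) {A A' : Set (Bd G)}
    (hA : ∀ ξ ∈ A, u ξ < p) (hs : B.Sub A A') (hA' : B.Split (fun ξ => max (q - u ξ) 0) A') :
    ∃ ρ, B.IsD01 ρ ∧ (∀ ξ, ξ ∉ A' → ρ ξ = 1) ∧ ∀ᵐ ξ ∂B.μ 1, ξ ∈ A → ρ ξ = 0 := by
  have ht : 0 < (q - p) / 2 := by linarith
  refine ⟨fun ξ => 1 - min 1 (((q - p) / 2)⁻¹ *
      A'.indicator (fun ξ => max (max (q - u ξ) 0 - (q - p) / 2) 0) ξ),
    ⟨(isD_const 1).sub ((isD_const 1).min ((hA'.2 _ ht).const_mul _)), fun ξ => ?_⟩,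
    fun ξ hξ => ?_, ?_⟩
  · have h1 : 0 ≤ ((q - p) / 2)⁻¹ *
        A'.indicator (fun ξ => max (max (q - u ξ) 0 - (q - p) / 2) 0) ξ :=
      mul_nonneg (inv_nonneg.2 ht.le) (indicator_nonneg (fun _ _ => le_max_right _ _) _)
    exact ⟨sub_nonneg.2 (min_le_left _ _), sub_le_self _ (le_min zero_le_one h1)⟩
  · simp only [indicator_of_notMem hξ, mul_zero]
    norm_num
  · filter_upwards [(B.sub_iff _ _).1 hs] with ξ h1 h2
    simp only [indicator_of_mem (h1 h2)]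
    have h3 := hA ξ h2
    have h4 := le_max_left (q - u ξ) 0
    have h5 := le_max_left (max (q - u ξ) 0 - (q - p) / 2) 0
    rw [min_eq_left, sub_self]
    rw [← div_eq_inv_mul, le_div_iff₀ ht]
    linarith

theorem exists_low (hH : Hyp S l) {u : Bd G → ℝ} (hu : B.IsD01 u)
    (hlo : ¬ B.Null {ξ | u ξ < 1 / 4}) :
    ∃ (P0 : Set (Bd G)) (P : ℝ → Set (Bd G)), ¬ B.Null P0 ∧
      (∀ c, 1 / 4 < c → c ≤ 3 / 4 → B.Sub P0 (P c) ∧ B.Irr (P c) ∧ (∀ ξ ∈ P c, u ξ < c) ∧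
        B.Split (fun ξ => max (c - u ξ) 0) (P c)) ∧
      (∀ c c', 1 / 4 < c → c ≤ c' → c' ≤ 3 / 4 → B.Sub (P c) (P c')) := by
  obtain ⟨P0, -, h0, h0p, h0i⟩ := exists_atom hH (fa_isD hu (c := 1 / 4) (by norm_num)) (by
    have e : {ξ | 0 < max (1 / 4 - u ξ) 0} = {ξ | u ξ < 1 / 4} := by
      ext ξ
      simp only [mem_ofPred_eq, lt_max_iff, lt_irrefl, or_false, sub_pos]
    rwa [e])
  have hex : ∀ c : ℝ, ∃ M, 1 / 4 < c → c ≤ 3 / 4 → B.Sub P0 M ∧ B.Irr M ∧ (∀ ξ ∈ M, u ξ < c) ∧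
      B.Split (fun ξ => max (c - u ξ) 0) M := by
    intro c
    by_cases hc : 1 / 4 < c ∧ c ≤ 3 / 4
    · obtain ⟨M, h1, h2, h3, h4⟩ := exists_main hH (fa_isD hu (c := c) (by linarith [hc.2])) h0i
        (a := c - 1 / 4) (by linarith [hc.1]) (Eventually.of_forall fun ξ hξ => by
          have h5 := h0p ξ hξ
          simp only [lt_max_iff, lt_irrefl, or_false, sub_pos] at h5
          exact le_trans (by linarith) (le_max_left _ _))
      refine ⟨M, fun _ _ => ⟨h2, h4, fun ξ hξ => ?_, h1⟩⟩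
      have h5 := h3 ξ hξ
      simpa only [lt_max_iff, lt_irrefl, or_false, sub_pos] using h5
    · exact ⟨∅, fun h1 h2 => absurd ⟨h1, h2⟩ hc⟩
  choose P hP using hex
  refine ⟨P0, P, h0, hP, fun c c' h1 h2 h3 => ?_⟩
  rcases h2.eq_or_lt with rfl | h2
  · exact Sub.refl _
  obtain ⟨a1, a2, a3, -⟩ := hP c h1 (by linarith)
  obtain ⟨b1, -, -, b4⟩ := hP c' (by linarith) h3
  refine (b4.irr_sub a2 (a := c' - c) (by linarith) (Eventually.of_forall fun ξ hξ => ?_)).resolve_right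
    fun h => h0 (fa_null b1 (a1.trans h))
  have := a3 ξ hξ
  exact le_trans (by linarith) (le_max_left _ _)

theorem exists_T (hH : Hyp S l) {u : Bd G → ℝ} (hu : B.IsD01 u)
    (hlo : ¬ B.Null {ξ | u ξ < 1 / 4}) (hhi : ¬ B.Null {ξ | 3 / 4 < u ξ}) :
    ∃ (P0 Q0 : Set (Bd G)) (P : ℝ → Set (Bd G)) (T : ℝ → ℝ → Set (Bd G)),
      ¬ B.Null P0 ∧ ¬ B.Null Q0 ∧
      (∀ c, 1 / 4 < c → c < 3 / 4 → B.Sub P0 (P c) ∧ B.Irr (P c)) ∧
      (∀ p q, 1 / 4 < p → p < q → q < 3 / 4 →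
        B.Good (T p q) ∧ B.Sub (P p) (T p q) ∧ B.Sub Q0 (T p q)ᶜ ∧ B.Irr (T p q)ᶜ ∧
        (∀ θ, B.IsD θ → (∀ᵐ ξ ∂B.μ 1, ξ ∈ T p q → θ ξ = 0 ∨ θ ξ = 1) →
          (∀ᵐ ξ ∂B.μ 1, ξ ∈ P q → θ ξ = 0) → ∀ᵐ ξ ∂B.μ 1, ξ ∈ T p q → θ ξ = 0)) ∧
      (∀ p q p' q', 1 / 4 < p → p < q → q ≤ p' → p' < q' → q' < 3 / 4 →
        B.Sub (T p q) (T p' q') ∧ B.Sep (T p q) (T p' q')ᶜ) := by
  obtain ⟨P0, P, h0, hP, hmono⟩ := exists_low hH hu hlo
  have hf : B.IsD01 (fun ξ => max (u ξ - 3 / 4) 0) := by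
    refine ⟨(hu.1.sub (isD_const _)).max (isD_const 0), fun ξ => ⟨le_max_right _ _, ?_⟩⟩
    have := (hu.2 ξ).2
    exact max_le (by linarith) zero_le_one
  obtain ⟨Q0, -, hQ, hQp, hQi⟩ := exists_atom hH hf (by
    have e : {ξ | 0 < max (u ξ - 3 / 4) 0} = {ξ | 3 / 4 < u ξ} := by
      ext ξ
      simp only [mem_ofPred_eq, lt_max_iff, lt_irrefl, or_false, sub_pos]
    rwa [e])
  have hex : ∀ p q : ℝ, ∃ (ρ : Bd G → ℝ) (M : Set (Bd G)), 1 / 4 < p → p < q → q < 3 / 4 →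
      B.IsD01 ρ ∧ (∀ ξ, ξ ∉ P q → ρ ξ = 1) ∧ (∀ᵐ ξ ∂B.μ 1, ξ ∈ P p → ρ ξ = 0) ∧
      B.Split ρ M ∧ B.Sub Q0 M ∧ (∀ ξ ∈ M, 0 < ρ ξ) ∧ B.Irr M := by
    intro p q
    by_cases hc : 1 / 4 < p ∧ p < q ∧ q < 3 / 4
    · obtain ⟨c1, c2, c3⟩ := hc
      obtain ⟨-, -, a3, -⟩ := hP p c1 (by linarith)
      obtain ⟨-, -, b3, b4⟩ := hP q (by linarith) c3.le
      obtain ⟨ρ, r1, r2, r3⟩ := fa_rho c2 a3 (hmono p q c1 c2.le c3.le) b4
      obtain ⟨M, m1, m2, m3, m4⟩ := exists_main hH r1 hQi (a := 1) one_pos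
        (Eventually.of_forall fun ξ hξ => by
          have h5 := hQp ξ hξ
          simp only [lt_max_iff, lt_irrefl, or_false, sub_pos] at h5
          refine (r2 ξ fun h6 => ?_).ge
          linarith [b3 ξ h6])
      exact ⟨ρ, M, fun _ _ _ => ⟨r1, r2, r3, m1, m2, m3, m4⟩⟩
    · exact ⟨fun _ => 0, ∅, fun h1 h2 h3 => absurd ⟨h1, h2, h3⟩ hc⟩
  choose ρ M hM using hex
  refine ⟨P0, Q0, P, fun p q => (M p q)ᶜ, h0, hQ,
    fun c h1 h2 => ⟨(hP c h1 h2.le).1, (hP c h1 h2.le).2.1⟩, fun p q c1 c2 c3 => ?_,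
    fun p q p' q' c1 c2 c3 c4 c5 => ?_⟩
  · obtain ⟨r1, r2, r3, m1, m2, m3, m4⟩ := hM p q c1 c2 c3
    refine ⟨(good_of_split hH.cay hH.gap m1 m3).compl, ?_, by rwa [compl_compl],
      by rwa [compl_compl], fun θ hθ h2 h3 => ?_⟩
    · refine (B.sub_iff _ _).2 ?_
      filter_upwards [r3] with ξ h1 h2 h3
      exact (m3 ξ h3).ne' (h1 h2)
    · obtain ⟨χ, x1, x2, x3⟩ := fa_chi r1 (m1.compl hH r1)
      have hE : MeasurableSet ({ξ | θ ξ = 1} ∩ (M p q)ᶜ) :=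
        (measurableSet_eq_fun hθ.1 measurable_const).inter m1.1.compl
      have hD : B.IsD (({ξ | θ ξ = 1} ∩ (M p q)ᶜ).indicator fun _ => (1 : ℝ)) := by
        refine (hθ.mul x1.1).congr (measurable_const.indicator hE) (gs_bdd_ind _) ?_
        filter_upwards [h2, h3] with ξ h4 h5
        by_cases h6 : ξ ∈ (M p q)ᶜ
        · rcases h4 h6 with h7 | h7
          · rw [indicator_of_notMem (fun h8 => zero_ne_one (h7.symm.trans h8.1)), h7, zero_mul]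
          · rw [indicator_of_mem (show ξ ∈ {ξ | θ ξ = 1} ∩ (M p q)ᶜ from ⟨h7, h6⟩), h7,
              x3 ξ h6 (r2 ξ fun h8 => zero_ne_one ((h5 h8).symm.trans h7)), one_mul]
        · rw [indicator_of_notMem (fun h8 => h6 h8.2), x2 ξ h6, mul_zero]
      rcases trivial_of_isD hH.cay hH.gap hH.one hE hD with h4 | h4
      · filter_upwards [h2, (B.null_iff_ae _).1 h4] with ξ h5 h6 h7
        exact (h5 h7).resolve_right fun h8 => h6 ⟨h8, h7⟩
      · refine absurd ((B.null_iff_ae _).2 ?_) h0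
        filter_upwards [h3, (B.null_iff_ae _).1 h4,
          (B.sub_iff _ _).1 (hP q (by linarith) c3.le).1] with ξ h5 h6 h7 h8
        exact h6 fun h9 => zero_ne_one ((h5 (h7 h8)).symm.trans h9.1)
  · obtain ⟨r1, r2, -, m1, m2, -, -⟩ := hM p q c1 c2 (by linarith)
    obtain ⟨-, -, s3, -, n2, n3, n4⟩ := hM p' q' (by linarith) c4 c5
    have h1 : ∀ᵐ ξ ∂B.μ 1, ξ ∈ M p' q' → ρ p q ξ = 1 := by
      filter_upwards [s3, (B.sub_iff _ _).1 (hmono q p' (by linarith) c3 (by linarith))]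
        with ξ h2 h3 h4
      exact r2 ξ fun h5 => (n3 ξ h4).ne' (h2 (h3 h5))
    have h2 : B.Sub (M p' q') (M p q) :=
      (m1.irr_sub n4 one_pos (h1.mono fun ξ h h' => (h h').ge)).resolve_right
        fun h => hQ (fa_null m2 (n2.trans h))
    refine ⟨h2.compl, ?_⟩
    obtain ⟨χ, x1, x2, x3⟩ := fa_chi r1 m1
    refine ⟨χ, x1, Eventually.of_forall fun ξ h => x2 ξ h, ?_⟩
    filter_upwards [h1, (B.sub_iff _ _).1 h2] with ξ h3 h4 h5
    rw [compl_compl] at h5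
    exact x3 ξ (h4 h5) (h3 h5)

end Bdry

end Vale.Agent.P239
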