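import Vale.Agent.P239.FinAAux

/-! Task FinA: the gluing argument (pure combinatorics on the Cayley graph). `n = card S`, `z = 1 - p - q` (harmonic, `≥ 0`); a nonnegative harmonic `u` satisfies `u (x s) ≤ n * u x`, hence `u (x b) ≤ n^r u x` on balls.
Labels: `Z = {1/3 ≤ z}`, `L = {z < 1/3, q ≤ p}` (so `p > 1/3`), `R = {z < 1/3, p < q}`. `lam x s = 1` if `x ∈ L, x s ∈ R`; `-1` if `x ∈ R, x s ∈ L`; else `0`. It is nonzero on finitely many edges (`hfin` with `ε = 1/(3n)`).
`T = {Vis ε p q}` is finite (`hfin`), `R1 = R0 + 2l + 2`, `N = T * ball R1` finite. For `x ∈ N` choose `τ x ∈ T` with `x ∈ τ x * ball R1`. `D x = 0` on `L`, `1` on `R`, and on `Z`: `1` if `x ∈ N ∧ x ∈ Wf (τ x)`, else `0`.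
`c x s = D (x s) - D x` if `x ∈ N` and `x s ∈ N`, else `lam x s`. `|c| ≤ 1`, finitely supported on `G × S`. Claim: `c` is locally exact at every `y`. If `y * ball (l+1) ⊆ N` use `D`. Otherwise let `v ∈ y * ball (l+1)`, `v ∉ N`; then `y ∉ T`, so the ball misses one label (Harnack), so
`lam` is the gradient of `indicator R` or of `0` on the edges from `y * ball l`, and it suffices to show `D (x s) - D x = lam x s` for such an edge with both ends in `N`. Let `x1 = τ x`; `Wf (τ (x s)) = Wf x1` by `hf1`; neither `x` nor `x s` is in `x1 * ball R0` (else `v ∈ N`). Use `hf2` at `x1`: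
both in `Z`: `same`. `x ∈ L`, `x s ∈ Z`: `z x ≥ 1/(3n)`, so `novis` forces `q' x < 1/(10n)`, `left` gives `x ∉ W`, `same` gives `x s ∉ W`. The other three mixed cases are symmetric (`x = (x s) s⁻¹` for Harnack). No `Z`: immediate.
So the bad set is empty, `Cofill` gives `w` with empty defect (`ncard ≤ C * 0^α = 0` and finite). `F = {x | Odd (w x)}` has finite `edgeBd`. Along `x0 * ball (r+1)` there is no `Z`, and `c` is the gradient of `indicator R` on such edges, so `w - indicator R` is constant there (`const_on_ball`):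
`x0` and `x0 b0` are on different sides of `F`. By `OneEnded` one side `U` is finite; it contains `x0` or `x0 b0`. In the first case `f = indicator U (p - 2/3)^+` satisfies `f ≤ avg f` everywhere (if `p > 2/3` at both ends, both are in `L`, `c = 0`), is finitely supported and positive at `x0`;
at a maximum point all neighbours have the same value, so the maximum set is everything (`Cay.const_of_edges` style), contradicting `Infinite G`. Same with `q`.
-/

noncomputable section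

open Classical MeasureTheory Filter Topology Set
open scoped Pointwise

namespace Vale.Agent.P239

universe u
variable {G : Type u} [Group G] {S : Finset G} {l : ℕ}

theorem gl_one_le (hS : Cay S) : (1 : ℝ) ≤ S.card := by exact_mod_cast hS.card_pos

theorem gl_sum (hS : Cay S) {u : G → ℝ} (hu : Harm S u) (x : G) :
    ∑ s ∈ S, u (x * s) = S.card * u x := by
  have h := hu x
  rw [avg, div_eq_iff (by linarith [gl_one_le hS])] at h
  rw [h, mul_comm]

theorem gl_step (hS : Cay S) {u : G → ℝ} (hu : Harm S u) (h0 : ∀ x, 0 ≤ u x) (x : G) {s : G}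
    (hs : s ∈ S) : u (x * s) ≤ S.card * u x :=
  (Finset.single_le_sum (f := fun s => u (x * s)) (fun _ _ => h0 _) hs).trans (gl_sum hS hu x).le

theorem gl_harnack (hS : Cay S) {u : G → ℝ} (hu : Harm S u) (h0 : ∀ x, 0 ≤ u x) (x : G) (r : ℕ) :
    ∀ b ∈ ball S r, u (x * b) ≤ (S.card : ℝ) ^ r * u x := by
  induction r with
  | zero => intro b hb; rw [mem_ball_zero.1 hb]; simp
  | succ r ih =>
    intro b hb
    have h1 := gl_one_le hS
    rw [pow_succ', mul_assoc]
    rcases mem_ball_succ.1 hb with h | ⟨b', hb', s, hs, rfl⟩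
    · exact (ih b h).trans (le_mul_of_one_le_left (mul_nonneg (by positivity) (h0 x)) h1)
    · rw [← mul_assoc x]
      exact (gl_step hS hu h0 _ hs).trans (mul_le_mul_of_nonneg_left (ih b' hb') (by linarith))

theorem gl_harm_z (hS : Cay S) {p q : G → ℝ} (hp : Harm S p) (hq : Harm S q) :
    Harm S fun x => 1 - p x - q x := fun x => by
  have h1 := gl_one_le hS
  rw [avg, Finset.sum_sub_distrib, Finset.sum_sub_distrib, gl_sum hS hp, gl_sum hS hq,
    Finset.sum_const, nsmul_eq_mul, div_eq_iff (by linarith)]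
  ring

theorem gl_max (hS : Cay S) {u : G → ℝ} (hu : Harm S u) {U : Set G} (hU : U.Finite)
    (h : ∀ x, ∀ s ∈ S, 2 / 3 < u x → 2 / 3 < u (x * s) → x ∈ U → x * s ∈ U) {x0 : G}
    (h0 : x0 ∈ U) (h1 : 2 / 3 < u x0) : False := by
  obtain ⟨x1, hx1, hmax⟩ := Set.exists_max_image {x ∈ U | 2 / 3 < u x} u
    (hU.subset fun x hx => hx.1) ⟨x0, h0, h1⟩
  have key : ∀ x, x ∈ U ∧ u x = u x1 → ∀ s ∈ S, x * s ∈ U ∧ u (x * s) = u x1 := fun x hx s hs => by
    have hx2 : 2 / 3 < u x := hx.2 ▸ hx1.2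
    have h2 : ∀ s ∈ S, u (x * s) ≤ u x1 := fun s hs => by
      by_cases h3 : 2 / 3 < u (x * s)
      · exact hmax _ ⟨h x s hs hx2 h3 hx.1, h3⟩
      · exact (not_lt.1 h3).trans hx1.2.le
    have h3 := (Finset.sum_eq_sum_iff_of_le h2).1
      (by rw [gl_sum hS hu, hx.2, Finset.sum_const, nsmul_eq_mul]) s hs
    exact ⟨h x s hs hx2 (h3 ▸ hx1.2) hx.1, h3⟩
  have hall : ∀ r, ∀ b ∈ ball S r, x1 * b ∈ U ∧ u (x1 * b) = u x1 := fun r => by
    induction r with
    | zero => intro b hb; rw [mem_ball_zero.1 hb, mul_one]; exact ⟨hx1.1, rfl⟩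
    | succ r ih =>
      intro b hb
      rcases mem_ball_succ.1 hb with h | ⟨b', hb', s, hs, rfl⟩
      · exact ih b h
      · rw [← mul_assoc]; exact key _ (ih b' hb') s hs
  have := hS.inf
  refine Set.infinite_univ (hU.subset fun g _ => ?_)
  obtain ⟨r, hr⟩ := hS.exists_ball (x1⁻¹ * g)
  simpa using (hall r _ hr).1

theorem gl_key (hS : Cay S) {p' q' : G → ℝ} {W K : Set G} (hF : Fix S p' q' W K) {x : G}
    (hx : x ∉ K) {a b : ℝ} (ha : |a - p' x| ≤ 1 / (40 * S.card)) (hb : |b - q' x| ≤ 1 / (40 * S.card))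
    (h1 : 1 - a - b < 1 / 3) (h2 : 1 / 3 ≤ S.card * (1 - a - b)) : x ∈ W ↔ a < b := by
  have hn := gl_one_le hS
  set e : ℝ := 1 / (40 * S.card) with he
  have e0 : 0 < e := by positivity
  have e1 : e ≤ 1 / 40 := by
    rw [he]; exact one_div_le_one_div_of_le (by norm_num) (by linarith)
  have e2 : 1 / (10 * (S.card : ℝ)) = 4 * e := by rw [he]; field_simp; norm_num
  have e3 : 40 / 3 * e ≤ 1 - a - b := by
    rw [he, ← mul_div_assoc, div_le_iff₀ (by positivity)]; linarith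
  have hv := hF.novis x hx
  rw [Vis, e2] at hv
  rw [abs_le] at ha hb
  by_cases h : a < b
  · refine iff_of_true (hF.right x hx ?_) h
    by_contra hn
    exact hv ⟨by linarith, by linarith, by linarith⟩
  · refine iff_of_false (hF.left x hx ?_) h
    by_contra hn
    exact hv ⟨by linarith, by linarith, by linarith⟩

/-- The last step: an edge function with a global primitive. -/
theorem gl_end (hH : Hyp S l) {p q : G → ℝ} (hp : Harm S p) (hq : Harm S q) (hp0 : ∀ x, 0 ≤ p x)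
    (hq0 : ∀ x, 0 ≤ q x) (hpq : ∀ x, p x + q x ≤ 1)
    {x0 b0 : G} {r : ℕ} (hb0 : b0 ∈ ball S (r + 1)) (hx0 : 2 / 3 < p x0) (hx1 : 2 / 3 < q (x0 * b0))
    (hz : ∀ b ∈ ball S (r + 1), 1 - p (x0 * b) - q (x0 * b) < 1 / 3) {w : G → ℤ} {K : Set G}
    (hK : K.Finite) (hw0 : ∀ x, x ∉ K → ∀ s ∈ S, w (x * s) = w x)
    (hw : ∀ x, ∀ s ∈ S, 1 - p x - q x < 1 / 3 → 1 - p (x * s) - q (x * s) < 1 / 3 →
      w (x * s) - w x = glRho p q (x * s) - glRho p q x) : False := by
  have h1 := const_on_ball (S := S) (fun y => w y - glRho p q y) x0 r (fun b hb s hs => by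
    have := hw (x0 * b) s hs (hz b (gl_edge hb hs).1)
      (by rw [mul_assoc]; exact hz _ (gl_edge hb hs).2)
    omega) b0 hb0
  simp only [glRho] at h1
  rw [if_pos (by linarith [hpq (x0 * b0)]), if_neg (by linarith [hpq x0])] at h1
  have e1 : ∀ x, ∀ s ∈ S, 2 / 3 < p x → 2 / 3 < p (x * s) → w (x * s) = w x := fun x s hs a b => by
    have := hw x s hs (by linarith [hq0 x]) (by linarith [hq0 (x * s)])
    rw [glRho, glRho, if_neg (by linarith [hpq (x * s)]), if_neg (by linarith [hpq x])] at this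
    omega
  have e2 : ∀ x, ∀ s ∈ S, 2 / 3 < q x → 2 / 3 < q (x * s) → w (x * s) = w x := fun x s hs a b => by
    have := hw x s hs (by linarith [hp0 x]) (by linarith [hp0 (x * s)])
    rw [glRho, glRho, if_pos (by linarith [hpq (x * s)]), if_pos (by linarith [hpq x])] at this
    omega
  rcases hH.one {x | w x = w x0} ((hK.prod S.finite_toSet).subset fun e he => ⟨by
    by_contra hn
    exact he.2 (by simp only [Set.mem_ofPred_eq, hw0 _ hn _ he.1]), he.1⟩) with h | h
  · exact gl_max hH.cay hp h (fun x s hs a b c => (e1 x s hs a b).trans c) rfl hx0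
  · refine gl_max hH.cay hq h (fun x s hs a b c c' => c ((e2 x s hs a b).symm.trans c'))
      (fun c => ?_) hx1
    have c' : w (x0 * b0) = w x0 := c
    omega

theorem glue (hH : Hyp S l) {p q : G → ℝ} (hp : Harm S p) (hq : Harm S q) (hp0 : ∀ x, 0 ≤ p x)
    (hq0 : ∀ x, 0 ≤ q x) (hpq : ∀ x, p x + q x ≤ 1)
    (hfin : ∀ ε : ℝ, 0 < ε → {x | ε ≤ p x ∧ ε ≤ q x}.Finite)
    {x0 b0 : G} {r : ℕ} (hb0 : b0 ∈ ball S (r + 1)) (hx0 : 2 / 3 < p x0) (hx1 : 2 / 3 < q (x0 * b0))
    (hz : ∀ b ∈ ball S (r + 1), 1 - p (x0 * b) - q (x0 * b) < 1 / 3)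
    (R0 : ℕ) (Wf : G → Set G)
    (hf1 : ∀ x x', Vis (1 / (3 * (S.card : ℝ) ^ (l + 1))) p q x →
      Vis (1 / (3 * (S.card : ℝ) ^ (l + 1))) p q x' →
      x⁻¹ * x' ∈ ball S (2 * (R0 + 2 * l + 2) + 1) → Wf x = Wf x')
    (hf2 : ∀ x, Vis (1 / (3 * (S.card : ℝ) ^ (l + 1))) p q x → ∃ p' q' : G → ℝ,
      Fix S p' q' (Wf x) {y | x⁻¹ * y ∈ ball S R0} ∧
      ∀ b ∈ ball S (R0 + 2 * l + 3), |p (x * b) - p' (x * b)| ≤ 1 / (40 * S.card) ∧
        |q (x * b) - q' (x * b)| ≤ 1 / (40 * S.card)) : False := by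
  have hS := hH.cay
  have hn := gl_one_le hS
  have hN : (0 : ℝ) < (S.card : ℝ) ^ (l + 1) := by positivity
  have hzH := gl_harm_z hS hp hq
  have hz0 : ∀ x, 0 ≤ 1 - p x - q x := fun x => by linarith [hpq x]
  set θ : ℝ := 1 / (3 * (S.card : ℝ) ^ (l + 1)) with hθ
  set N : Set G := {x | ∃ t, Vis θ p q t ∧ t⁻¹ * x ∈ ball S (R0 + 2 * l + 2)} with hNdef
  have hNf : N.Finite := by
    refine ((((hfin θ (by positivity)).prod (ball S (R0 + 2 * l + 2)).finite_toSet).image
      fun e : G × G => e.1 * e.2).subset ?_)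
    rintro x ⟨t, ht, hx⟩
    exact ⟨(t, t⁻¹ * x), ⟨⟨ht.1, ht.2.1⟩, hx⟩, by simp⟩
  set D : G → ℤ := fun x => if 1 / 3 ≤ 1 - p x - q x then
    (if ∃ t, Vis θ p q t ∧ t⁻¹ * x ∈ ball S (R0 + 2 * l + 2) ∧ x ∈ Wf t then 1 else 0)
    else glRho p q x with hD
  set c : G → G → ℤ := fun x s =>
    if x ∈ N ∧ x * s ∈ N then D (x * s) - D x else glLam (1 / 3) p q x s with hc
  have hD01 : ∀ x, D x = 0 ∨ D x = 1 := fun x => by
    simp only [hD, glRho]
    split_ifs <;> simp
  have hc1 : ∀ x s, |c x s| ≤ 1 := fun x s => by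
    simp only [hc]
    split_ifs
    · rcases hD01 x with a | a <;> rcases hD01 (x * s) with b | b <;> rw [a, b] <;> simp
    · exact gl_abs _ _ _ _ _
  have hDW : ∀ t x, Vis θ p q t → t⁻¹ * x ∈ ball S (R0 + 2 * l + 2 + 1) → x ∈ N →
      1 / 3 ≤ 1 - p x - q x → D x = if x ∈ Wf t then 1 else 0 := fun t x ht hx hxN hxZ => by
    have h1 : ∀ t', Vis θ p q t' → t'⁻¹ * x ∈ ball S (R0 + 2 * l + 2) → Wf t = Wf t' :=
      fun t' ht' hx' => hf1 t t' ht ht' (by
        have := mul_mem_ball hx (hS.inv_mem_ball hx')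
        rw [show t⁻¹ * x * (t'⁻¹ * x)⁻¹ = t⁻¹ * t' by group] at this
        exact ball_mono (by omega) this)
    simp only [hD]
    rw [if_pos hxZ]
    refine if_congr ⟨fun ⟨t', a, b, e⟩ => h1 t' a b ▸ e, fun e => ?_⟩ rfl rfl
    obtain ⟨t', a, b⟩ := hxN
    exact ⟨t', a, b, h1 t' a b ▸ e⟩
  have hloc : ∀ y, LocExact S l c y := fun y => by
    by_cases hy : ∀ b ∈ ball S (l + 1), y * b ∈ N
    · refine ⟨D, fun b hb s hs => if_pos ⟨hy b (gl_edge hb hs).1, ?_⟩⟩
      rw [mul_assoc]; exact hy _ (gl_edge hb hs).2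
    push Not at hy
    obtain ⟨b1, hb1, hv⟩ := hy
    obtain ⟨D', hD'⟩ := gl_loc (τ := 1 / 3) le_rfl hN (gl_harnack hS hp hp0 y _)
      (gl_harnack hS hq hq0 y _) (gl_harnack hS hzH hz0 y _) fun h => hv ⟨y, by
        rwa [hθ, ← div_div], by
        rw [inv_mul_cancel_left]; exact ball_mono (by omega) hb1⟩
    refine ⟨D', fun b hb s hs => Eq.trans ?_ (hD' b hb s hs)⟩
    simp only [hc]
    split_ifs with hm
    swap
    · rfl
    obtain ⟨t, ht, hx⟩ := hm.1
    obtain ⟨p', q', hF, hap⟩ := hf2 t ht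
    have hout : ∀ b' ∈ ball S (l + 1), y * b' ∉ {y | t⁻¹ * y ∈ ball S R0} := fun b' hb' h =>
      hv ⟨t, ht, by
        have := mul_mem_ball (mul_mem_ball h (hS.inv_mem_ball hb')) hb1
        rw [show t⁻¹ * (y * b') * b'⁻¹ * b1 = t⁻¹ * (y * b1) by group] at this
        exact ball_mono (by omega) this⟩
    have o1 := hout b (gl_edge hb hs).1
    have o2 := hout _ (gl_edge hb hs).2
    rw [← mul_assoc] at o2
    obtain ⟨g1, g2⟩ := gl_edge hx hs
    rw [mul_assoc] at g2
    have a1 := hap _ g1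
    have a2 := hap _ g2
    rw [mul_inv_cancel_left] at a1 a2
    generalize y * b = x at *
    have e1 : 1 / (40 * (S.card : ℝ)) ≤ 1 / 40 :=
      one_div_le_one_div_of_le (by norm_num) (by linarith)
    have hx' : ∀ x x', t⁻¹ * x ∈ ball S (R0 + 2 * l + 2 + 1) → x ∈ N →
        x ∉ {y | t⁻¹ * y ∈ ball S R0} → (|p x - p' x| ≤ 1 / (40 * S.card) ∧
          |q x - q' x| ≤ 1 / (40 * S.card)) → 1 - p x' - q x' ≤ S.card * (1 - p x - q x) →
        (1 / 3 ≤ 1 - p x - q x ∨ 1 / 3 ≤ 1 - p x' - q x') → D x = if x ∈ Wf t then 1 else 0 :=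
      fun x x' g m o a hh hZ => by
        by_cases h : 1 / 3 ≤ 1 - p x - q x
        · exact hDW t x ht g m h
        · simp only [hD]
          rw [if_neg h, glRho]
          exact if_congr (gl_key hS hF o a.1 a.2 (not_le.1 h)
            ((hZ.resolve_left h).trans hh)).symm rfl rfl
    rw [glLam]
    split_ifs with hZ
    · have h3 := gl_step hS hzH hz0 (x * s) (hS.symm s hs)
      simp only [mul_inv_cancel_right] at h3
      rw [hx' x (x * s) g1 hm.1 o1 a1 (gl_step hS hzH hz0 x hs) hZ,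
        hx' (x * s) x g2 hm.2 o2 a2 h3 hZ.symm,
        if_congr (hF.same x o1 s hs (hZ.imp (fun h => ?_) fun h => ?_)) rfl rfl, sub_self]
      · linarith [(abs_le.1 a1.1).1, (abs_le.1 a1.2).1]
      · linarith [(abs_le.1 a2.1).1, (abs_le.1 a2.2).1]
    · simp only [hD]
      rw [if_neg (not_or.1 hZ).1, if_neg (not_or.1 hZ).2]
  obtain ⟨C, α, -, hα, -, hC⟩ := hH.cofill
  have hempty : {y | ¬ LocExact S l c y} = ∅ :=
    Set.eq_empty_of_forall_notMem fun y hy => hy (hloc y)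
  obtain ⟨w, hw, hw'⟩ := hC c hc1 (by rw [hempty]; exact Set.finite_empty)
  rw [hempty, Set.ncard_empty, Nat.cast_zero, Real.zero_rpow (by linarith), mul_zero] at hw'
  have hd : defect S c w = ∅ := (Set.ncard_eq_zero hw).1 (by exact_mod_cast le_antisymm hw' (by simp))
  have hcw : ∀ x, ∀ s ∈ S, c x s = w (x * s) - w x := fun x s hs => by
    by_contra hne
    have : (x, s) ∈ defect S c w := ⟨hs, hne⟩
    rw [hd] at this
    exact this
  refine gl_end hH hp hq hp0 hq0 hpq hb0 hx0 hx1 hz (w := w)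
    (hNf.union (hfin (1 / 3 / S.card) (by positivity))) (fun x hx s hs => ?_) fun x s hs z1 z2 => ?_
  · have h1 := hcw x s hs
    simp only [hc] at h1
    rw [if_neg fun h => hx (Or.inl h.1), glLam, glRho, glRho] at h1
    have h2 := gl_step hS hp hp0 x hs
    have h3 := gl_step hS hq hq0 x hs
    have h4 : 1 / 3 / (S.card : ℝ) ≤ 1 / 3 := div_le_self (by norm_num) hn
    split_ifs at h1 with hZ a b b
    · omega
    · omega
    · rw [not_or, not_le, not_le] at hZ
      refine (hx (Or.inr ⟨by linarith [not_lt.1 b], ?_⟩)).elim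
      rw [div_le_iff₀' (by linarith)]; linarith
    · rw [not_or, not_le, not_le] at hZ
      refine (hx (Or.inr ⟨?_, by linarith⟩)).elim
      rw [div_le_iff₀' (by linarith)]; linarith [not_lt.1 a]
    · omega
  · rw [← hcw x s hs]
    simp only [hc, hD]
    rw [if_neg z1.not_ge, if_neg z2.not_ge, glLam, if_neg (not_or.2 ⟨z1.not_ge, z2.not_ge⟩),
      ite_self]

end Vale.Agent.P239
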