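import Vale.Agent.P239.Ball

/-! The edge function attached to a triple `(p, 1 - p - q, q)` and a level `τ`; used in FixB and FinA. -/

noncomputable section

open Classical MeasureTheory Filter Topology Set
open scoped Pointwise

namespace Vale.Agent.P239

universe u
variable {G : Type u} [Group G] {S : Finset G} {l : ℕ}

/-- The indicator of `p < q`. -/
def glRho (p q : G → ℝ) (x : G) : ℤ := if p x < q x then 1 else 0

/-- The gradient of `glRho` on edges where the third part is below `τ`, zero elsewhere. -/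
def glLam (τ : ℝ) (p q : G → ℝ) (x s : G) : ℤ :=
  if τ ≤ 1 - p x - q x ∨ τ ≤ 1 - p (x * s) - q (x * s) then 0 else glRho p q (x * s) - glRho p q x

theorem gl_abs (τ : ℝ) (p q : G → ℝ) (x s : G) : |glLam τ p q x s| ≤ 1 := by
  unfold glLam glRho
  split_ifs <;> simp

theorem gl_edge {r : ℕ} {b s : G} (hb : b ∈ ball S r) (hs : s ∈ S) :
    b ∈ ball S (r + 1) ∧ b * s ∈ ball S (r + 1) :=
  ⟨ball_mono (Nat.le_succ r) hb, mul_mem_ball hb (mem_ball_one hs)⟩

theorem gl_loc {τ N : ℝ} (hτ : τ ≤ 1 / 3) (hN : 0 < N) {p q : G → ℝ} {y : G}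
    (hp : ∀ b ∈ ball S (l + 1), p (y * b) ≤ N * p y) (hq : ∀ b ∈ ball S (l + 1), q (y * b) ≤ N * q y)
    (hz : ∀ b ∈ ball S (l + 1), 1 - p (y * b) - q (y * b) ≤ N * (1 - p y - q y))
    (hy : ¬ Vis (τ / N) p q y) : LocExact S l (glLam τ p q) y := by
  by_cases hZ : ∃ b ∈ ball S (l + 1), τ ≤ 1 - p (y * b) - q (y * b)
  swap
  · refine ⟨glRho p q, fun b hb s hs => if_neg ?_⟩
    rintro (h | h)
    · exact hZ ⟨b, (gl_edge hb hs).1, h⟩
    · exact hZ ⟨b * s, (gl_edge hb hs).2, by rwa [← mul_assoc]⟩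
  refine ⟨0, fun b hb s hs => ?_⟩
  rw [Pi.zero_apply, Pi.zero_apply, sub_zero, glLam]
  split_ifs with h
  · rfl
  rw [not_or, not_le, not_le] at h
  by_contra hne
  obtain ⟨b1, hb1, h1⟩ := hZ
  have key : ∀ b2 ∈ ball S (l + 1), ∀ b3 ∈ ball S (l + 1), 1 - p (y * b2) - q (y * b2) < τ →
      1 - p (y * b3) - q (y * b3) < τ → ¬ p (y * b2) < q (y * b2) → ¬ p (y * b3) < q (y * b3) :=
    fun b2 hb2 b3 hb3 z2 z3 h2 h3 => hy ⟨by
      rw [div_le_iff₀' hN]; linarith [hp b2 hb2, not_lt.1 h2], by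
      rw [div_le_iff₀' hN]; linarith [hq b3 hb3], by
      rw [div_le_iff₀' hN]; linarith [hz b1 hb1]⟩
  have k1 := key b (gl_edge hb hs).1 (b * s) (gl_edge hb hs).2
  have k2 := key (b * s) (gl_edge hb hs).2 b (gl_edge hb hs).1
  rw [← mul_assoc] at k1 k2
  refine hne ?_
  unfold glRho
  by_cases h2 : p (y * b) < q (y * b)
  · rw [if_pos h2, if_pos (not_not.1 fun h3 => k2 h.2 h.1 h3 h2), sub_self]
  · rw [if_neg h2, if_neg (k1 h.1 h.2 h2), sub_self]

end Vale.Agent.P239
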