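import Vale.Agent.P239.FixB
import Vale.Agent.P239.FinA

/-! Task FinB: an invariant family cannot exist.
Take a slab `J`, `ε = 1 / (3 * card S ^ (l+1))`, the finite set `T` of types (`exists_types`), for `τ ∈ T` repair data `W τ, K τ` (`exists_fix`), and `ρ` with `K τ ∪ {Vis ε (h τ.1) (h τ.2)} ⊆ ball ρ` for all `τ ∈ T`. `R0 = 2ρ`, `R2 = 2 (R0 + 2l + 2) + 1`.
For a pair of functions `σ = (p', q')` of the form `(h τ.1 (g⁻¹ * ·), h τ.2 (g⁻¹ * ·))`, `τ ∈ T`, choose one such `(τ, g)` depending only on `σ` (`Classical.choose` / `Classical.epsilon`) and let `Wσ = {y | g⁻¹ * y ∈ W τ}`; `Fix` is translation invariant and monotone in `K`;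
if `Vis ε p' q' x` then `g⁻¹ x ∈ ball ρ`, so `g * ball ρ ⊆ x * ball (2ρ)`.
Separation: for the finitely many `(τ, τ', g)`, `g ∈ ball R2`, with `(h τ.1, h τ.2) ≠ (h τ'.1 (g⁻¹ * ·), h τ'.2 (g⁻¹ * ·))` pick a witness point; there are `R3` and `δ1 > 0` such that they differ by more than `2 δ1` somewhere on `ball R3`.
Let `δ = min δ1 (1/(40 card S))`, `R4 = R3 + R2 + R0 + 2l + 3`. Claim: for large `n`, every `x` with `Vis ε (h (a n)) (h (c n)) x` has `τ ∈ T` with `|h (a n) (x b) - h τ.1 b| ≤ δ`, `|h (c n) (x b) - h τ.2 b| ≤ δ` on `ball R4`. Otherwise get `n k → ∞`, `x k` (`Filter.extraction_of_frequently_atTop`),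
`Slab.exists_LT`, `exists_types`, pointwise convergence (`tendsto_μ`, `abs_h_sub_le`, `h_smul`) on the finite ball: contradiction.
Root path: `x0`, `x0 b0` with `h (a 0) x0 > 2/3`, `h (c 0) (x0 b0) > 2/3` (`Good.infinite_deep`), and for large `n`, `h (a n ∪ c n)ᶜ < 1/3` on `x0 * ball (r+1)` (`J.lim`, `tendsto_μ`). Apply `glue` with `p = h (a n)`, `q = h (c n)`, `Wf x = Wσ` for `σ` the translate by `x` of the chosen type of `x`
(`hf1`: for `x' = x g` the two pairs of functions coincide by the separation).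
-/

noncomputable section

open Classical MeasureTheory Filter Topology Set
open scoped Pointwise

namespace Vale.Agent.P239

universe u
variable {G : Type u} [Group G] {S : Finset G} {l : ℕ}

/-- Translate of a pair of functions. -/
def finBtr (g : G) (σ : (G → ℝ) × (G → ℝ)) : (G → ℝ) × (G → ℝ) :=
  (fun y => σ.1 (g⁻¹ * y), fun y => σ.2 (g⁻¹ * y))

theorem finB_tr_mul (g g' : G) (σ : (G → ℝ) × (G → ℝ)) :
    finBtr g (finBtr g' σ) = finBtr (g * g') σ := by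
  simp only [finBtr, mul_inv_rev, mul_assoc]

theorem finB_data (hS : Cay S) (T : Finset ((G → ℝ) × (G → ℝ))) {ε : ℝ}
    (hT : ∀ τ ∈ T, (∃ W K : Set G, K.Finite ∧ Fix S τ.1 τ.2 W K) ∧ {x | Vis ε τ.1 τ.2 x}.Finite ∧
      Vis ε τ.1 τ.2 1) :
    ∃ (R0 : ℕ) (Wσ : (G → ℝ) × (G → ℝ) → Set G), ∀ τ ∈ T, ∀ x : G,
      Fix S (finBtr x τ).1 (finBtr x τ).2 (Wσ (finBtr x τ)) {y | x⁻¹ * y ∈ ball S R0} := by
  have h1 : ∀ τ ∈ T, ∃ W K : Set G, K.Finite ∧ Fix S τ.1 τ.2 W K := fun τ h => (hT τ h).1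
  choose! W K hK hF using h1
  obtain ⟨ρ, hρ⟩ := hS.finite_subset_ball (K := ⋃ τ ∈ (T : Set ((G → ℝ) × (G → ℝ))),
    K τ ∪ {x | Vis ε τ.1 τ.2 x}) (T.finite_toSet.biUnion fun τ h => (hK τ h).union (hT τ h).2.1)
  have h2 : ∀ σ : (G → ℝ) × (G → ℝ), (∃ τ ∈ T, ∃ g, σ = finBtr g τ) →
      ∃ τ g, τ ∈ T ∧ σ = finBtr g τ := fun σ ⟨τ, h, g, e⟩ => ⟨τ, g, h, e⟩
  choose! ty gg hty using h2
  refine ⟨ρ + ρ, fun σ => {y | (gg σ)⁻¹ * y ∈ W (ty σ)}, fun τ hτ x => ?_⟩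
  obtain ⟨h3, h4⟩ := hty (finBtr x τ) ⟨τ, hτ, x, rfl⟩
  beta_reduce
  generalize gg (finBtr x τ) = g at h4 ⊢
  generalize ty (finBtr x τ) = τ' at h3 h4 ⊢
  have h5 : Vis ε (finBtr x τ).1 (finBtr x τ).2 x := by
    have := (hT τ hτ).2.2
    simpa only [Vis, finBtr, inv_mul_cancel] using this
  rw [h4] at h5 ⊢
  have h6 : g⁻¹ * x ∈ ball S ρ := hρ _ (mem_biUnion h3 (Or.inr h5))
  have h7 : ∀ y, y ∉ {y | x⁻¹ * y ∈ ball S (ρ + ρ)} → g⁻¹ * y ∉ K τ' := by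
    intro y hy hk
    have h8 := mul_mem_ball (hS.inv_mem_ball h6) (hρ _ (mem_biUnion h3 (Or.inl hk)))
    rw [show (g⁻¹ * x)⁻¹ * (g⁻¹ * y) = x⁻¹ * y by group] at h8
    exact hy h8
  have h8 := hF τ' h3
  refine ⟨fun y hy => h8.left _ (h7 y hy), fun y hy => h8.right _ (h7 y hy),
    fun y hy => h8.novis _ (h7 y hy), fun y hy s hs h => ?_⟩
  have h9 := h8.same _ (h7 y hy) s hs
  rw [mul_assoc] at h9
  exact h9 h

theorem finB_sep (hS : Cay S) (σ σ' : (G → ℝ) × (G → ℝ)) : ∀ᶠ n : ℕ in atTop,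
    (∀ b ∈ ball S n, |σ.1 b - σ'.1 b| ≤ 1 / ((n : ℝ) + 1) ∧ |σ.2 b - σ'.2 b| ≤ 1 / ((n : ℝ) + 1)) →
      σ = σ' := by
  have key : ∀ u v : G → ℝ, ∀ᶠ n : ℕ in atTop,
      (∀ b ∈ ball S n, |u b - v b| ≤ 1 / ((n : ℝ) + 1)) → u = v := by
    intro u v
    by_cases h : u = v
    · exact Eventually.of_forall fun _ _ => h
    obtain ⟨b, hb⟩ := Function.ne_iff.1 h
    obtain ⟨r, hr⟩ := hS.exists_ball b
    have h1 := (tendsto_one_div_add_atTop_nhds_zero_nat (𝕜 := ℝ)).eventually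
      (gt_mem_nhds (abs_pos.2 (sub_ne_zero.2 hb)))
    filter_upwards [h1, eventually_ge_atTop r] with n h2 h3 h4
    exact absurd (h4 b (ball_mono h3 hr)) (not_le.2 h2)
  filter_upwards [key σ.1 σ'.1, key σ.2 σ'.2] with n h1 h2 h
  exact Prod.ext (h1 fun b hb => (h b hb).1) (h2 fun b hb => (h b hb).2)

namespace Bdry
variable {B : Bdry S}

theorem finB_h (hS : Cay S) {A : ℕ → Set (Bd G)} (h : Tendsto (fun k => B.μ 1 (A k)) atTop (𝓝 0))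
    (x : G) (r : ℕ) {δ : ℝ} (hδ : 0 < δ) : ∀ᶠ k in atTop, ∀ b ∈ ball S r, B.h (A k) (x * b) < δ := by
  refine (eventually_all_finset _).2 fun b _ => ?_
  have h1 := (ENNReal.tendsto_toReal ENNReal.zero_ne_top).comp (B.tendsto_μ hS (x * b) h)
  exact h1.eventually (gt_mem_nhds hδ)

theorem finB_approx (hH : Hyp S l) {Φ : B.Family} (J : B.Slab Φ) {ε : ℝ} (hε : 0 < ε)
    (T : Finset ((G → ℝ) × (G → ℝ)))
    (hT : ∀ L R, J.LT L R → Vis ε (B.h L) (B.h R) 1 → (B.h L, B.h R) ∈ T) (r : ℕ) {δ : ℝ}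
    (hδ : 0 < δ) : ∀ᶠ n in atTop, ∀ x, Vis ε (B.h (J.a n)) (B.h (J.c n)) x → ∃ τ ∈ T,
      ∀ b ∈ ball S r, |B.h (J.a n) (x * b) - τ.1 b| ≤ δ ∧ |B.h (J.c n) (x * b) - τ.2 b| ≤ δ := by
  by_contra hcon
  obtain ⟨n, hn, h1⟩ := extraction_of_frequently_atTop (not_eventually.1 hcon)
  have h2 : ∀ k, ∃ x, Vis ε (B.h (J.a (n k))) (B.h (J.c (n k))) x ∧ ¬ ∃ τ ∈ T,
      ∀ b ∈ ball S r, |B.h (J.a (n k)) (x * b) - τ.1 b| ≤ δ ∧
        |B.h (J.c (n k)) (x * b) - τ.2 b| ≤ δ := fun k => by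
    by_contra h3
    exact h1 k fun x hx => by_contra fun h4 => h3 ⟨x, hx, h4⟩
  choose x hx hx' using h2
  obtain ⟨φ, L, R, -, hLT, hv, h3, h4⟩ := J.exists_LT hH hε n x hn.tendsto_atTop hx
  obtain ⟨k, k1, k2⟩ := ((finB_h hH.cay h3 1 r hδ).and (finB_h hH.cay h4 1 r hδ)).exists
  have h5 : ∀ (g b : G) (A : Set (Bd G)), B.h A (g * b) = B.h (g⁻¹ • A) b := fun g b A => by
    rw [← B.h_smul g⁻¹ (g * b) A, inv_mul_cancel_left]
  refine hx' (φ k) ⟨_, hT L R hLT hv, fun b hb => ⟨?_, ?_⟩⟩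
  · have h6 := k1 b hb
    rw [one_mul] at h6
    rw [h5]
    exact (B.abs_h_sub_le _ _ b).trans h6.le
  · have h6 := k2 b hb
    rw [one_mul] at h6
    rw [h5]
    exact (B.abs_h_sub_le _ _ b).trans h6.le

theorem Family.false (hH : Hyp S l) (Φ : B.Family) : False := by
  have hS := hH.cay
  have hc : (0 : ℝ) < S.card := by exact_mod_cast hS.card_pos
  obtain ⟨J⟩ := Φ.exists_slab hH
  obtain ⟨ε, hεdef⟩ : ∃ ε : ℝ, ε = 1 / (3 * (S.card : ℝ) ^ (l + 1)) := ⟨_, rfl⟩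
  have hε : 0 < ε := by rw [hεdef]; positivity
  obtain ⟨T0, hT1, hT2⟩ := J.exists_types hH hε
  obtain ⟨T, hTa, hTb⟩ : ∃ T : Finset ((G → ℝ) × (G → ℝ)),
      (∀ τ ∈ T, (∃ W K : Set G, K.Finite ∧ Fix S τ.1 τ.2 W K) ∧ {x | Vis ε τ.1 τ.2 x}.Finite ∧
        Vis ε τ.1 τ.2 1) ∧
      ∀ L R, J.LT L R → Vis ε (B.h L) (B.h R) 1 → (B.h L, B.h R) ∈ T := by
    refine ⟨T0.image fun τ => (B.h τ.1, B.h τ.2), fun τ hτ => ?_, fun L R h1 h2 => ?_⟩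
    · obtain ⟨τ0, h0, rfl⟩ := Finset.mem_image.1 hτ
      exact ⟨(hT1 τ0 h0).1.exists_fix hH, (hT1 τ0 h0).1.finite_vis hH hε, (hT1 τ0 h0).2⟩
    · obtain ⟨τ, h3, h4, h5⟩ := hT2 L R h1 h2
      exact Finset.mem_image.2 ⟨τ, h3, by rw [h4, h5]⟩
  obtain ⟨R0, Wσ, hW⟩ := finB_data hS T hTa
  obtain ⟨R3, hR3⟩ := ((eventually_all_finset T).2 fun τ _ => (eventually_all_finset T).2
    fun τ' _ => (eventually_all_finset (ball S (2 * (R0 + 2 * l + 2) + 1))).2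
      fun g _ => finB_sep hS τ (finBtr g τ')).exists
  obtain ⟨δ, hδ, hδ1, hδ2⟩ : ∃ δ : ℝ, 0 < δ ∧ δ + δ ≤ 1 / ((R3 : ℝ) + 1) ∧
      δ ≤ 1 / (40 * S.card) :=
    ⟨min (1 / ((R3 : ℝ) + 1) / 2) (1 / (40 * S.card)), by positivity,
      by linarith [min_le_left (1 / ((R3 : ℝ) + 1) / 2) (1 / (40 * (S.card : ℝ)))], min_le_right _ _⟩
  have hga : ∀ n, B.Good (J.a n) := fun n => Φ.good _ (J.a_mem n)
  have hgc : ∀ n, B.Good (J.c n) := fun n => Φ.good _ (J.c_mem n)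
  obtain ⟨x0, hx0⟩ := ((hga 0).infinite_deep hS J.a_pos (θ := 2 / 3) (by norm_num)).nonempty
  obtain ⟨x1, hx1⟩ := ((hgc 0).infinite_deep hS J.c_pos (θ := 2 / 3) (by norm_num)).nonempty
  obtain ⟨r, hr⟩ := hS.exists_ball (x0⁻¹ * x1)
  obtain ⟨n, hn1, hn2⟩ := ((finB_approx hH J hε T hTb
    (2 * (R0 + 2 * l + 2) + 1 + R3 + (R0 + 2 * l + 3)) hδ).and
    (finB_h hS J.lim x0 (r + 1) (δ := 1 / 3) (by norm_num))).exists
  choose! ty hty hap using hn1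
  have hz := B.h_compl_union hS (hga n).1 (hgc n).1 (J.sep n).null_inter
  refine glue hH (p := B.h (J.a n)) (q := B.h (J.c n)) (B.h_harm hS (hga n).1)
    (B.h_harm hS (hgc n).1) (B.h_nonneg _) (B.h_nonneg _)
    (fun x => by linarith [hz x, B.h_nonneg (J.a n ∪ J.c n)ᶜ x])
    (fun η hη => (J.sep n).finite_vis hS hH.gap hη) (x0 := x0) (b0 := x0⁻¹ * x1) (r := r)
    (ball_mono (Nat.le_succ r) hr) (lt_of_lt_of_le hx0 (B.h_mono hS (J.a_sub n) x0))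
    (by rw [mul_inv_cancel_left]; exact lt_of_lt_of_le hx1 (B.h_mono hS (J.c_sub n) x1))
    (fun b hb => by rw [← hz]; exact hn2 b hb) R0 (fun x => Wσ (finBtr x (ty x)))
    (fun x x' hx hx' hg => ?_) fun x hx => ?_
  · rw [← hεdef] at hx hx'
    have h1 : ty x = finBtr (x⁻¹ * x') (ty x') := by
      refine hR3 _ (hty x hx) _ (hty x' hx') _ hg fun b hb => ?_
      have h2 := hap x hx b (ball_mono (by omega) hb)
      have h3 := hap x' hx' ((x⁻¹ * x')⁻¹ * b)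
        (ball_mono (by omega) (mul_mem_ball (hS.inv_mem_ball hg) hb))
      rw [show x' * ((x⁻¹ * x')⁻¹ * b) = x * b by group] at h3
      simp only [finBtr]
      obtain ⟨h4, h5⟩ := h2
      obtain ⟨h6, h7⟩ := h3
      rw [abs_le] at h4 h5 h6 h7
      refine ⟨abs_le.2 ⟨?_, ?_⟩, abs_le.2 ⟨?_, ?_⟩⟩ <;> linarith [h4.1, h4.2, h5.1, h5.2, h6.1, h6.2,
        h7.1, h7.2]
    rw [h1, finB_tr_mul, mul_inv_cancel_left]
  · rw [← hεdef] at hx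
    refine ⟨_, _, hW _ (hty x hx) x, fun b hb => ?_⟩
    have h2 := hap x hx b (ball_mono (by omega) hb)
    simp only [finBtr, inv_mul_cancel_left]
    exact ⟨h2.1.trans hδ2, h2.2.trans hδ2⟩

end Bdry

end Vale.Agent.P239
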