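import Vale.Agent.P239.GoodSet

/-! Task FixA: two lemmas on a parity set `Y`.
`side_const`: for `E` as in `hin` with `θ = 0` on `E`, `θ = 1` on `Aᶜ`, put `ψ = 1 - θ`, `v = H ψ ≤ h A` (`H_mono`, `h_eq_H`). The function `indicator Y (v - 3/4)^+` is bounded of finite energy
(`finEn_of_le` with `T` = edges starting in `K`; on other edges either both factors are positive, then membership in `Y` agrees, or one factor vanishes). `4 * hat` of it is `IsD` and a.e. on `E` equals the
indicator of `hatSet Y` (`hat_indicator`, `hat_comp₂`, `IsD.hat_H`). So `Sub E (hatSet Y)` or `Sub E (hatSet Y)ᶜ`. If both `A ∩ hatSet Y` and `A ∩ (hatSet Y)ᶜ` are nonnull take `η` the smaller measure: contradiction.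
`decay`: `f = indicator Y (p - q)^+` with `p = h A`, `q = h A'` harmonic. For `x ∉ K` with `f x > 0` every neighbour satisfies `f (x s) = (p - q)^+ (x s)` so `f x ≤ avg f x`; if `f x = 0` trivial.
`hat f = 0` a.e.: on `A` because `ξ ∉ hatSet Y`, off `A` because `hat p = 0 ≤ hat q`. Apply `tendsto_zero_of_subharm`.
-/

noncomputable section

open Classical MeasureTheory Filter Topology Set
open scoped Pointwise

namespace Vale.Agent.P239

universe u
variable {G : Type u} [Group G] {S : Finset G} {l : ℕ}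

theorem fa_ind {a b : ℝ} {P Q : Prop} (h : 0 < a → 0 < b → (P ↔ Q)) :
    |(if Q then max b 0 else 0) - (if P then max a 0 else 0)| ≤ |b - a| := by
  have h1 := le_abs_self (b - a)
  have h2 := neg_abs_le (b - a)
  rcases le_or_gt a 0 with ha | ha <;> rcases le_or_gt b 0 with hb | hb
  · simp [max_eq_right ha, max_eq_right hb]
  · rw [max_eq_right ha, max_eq_left hb.le, abs_le]
    split_ifs <;> constructor <;> linarith
  · rw [max_eq_left ha.le, max_eq_right hb, abs_le]
    split_ifs <;> constructor <;> linarith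
  · rw [max_eq_left ha.le, max_eq_left hb.le]
    by_cases hP : P
    · rw [if_pos hP, if_pos ((h ha hb).1 hP)]
    · rw [if_neg hP, if_neg fun hQ => hP ((h ha hb).2 hQ), sub_zero, abs_zero]
      exact abs_nonneg _

theorem fa_bdd (Y : Set G) {g : G → ℝ} (hg : Bdd g) : Bdd (Y.indicator g) := by
  obtain ⟨C, hC⟩ := hg
  refine ⟨C, fun x => ?_⟩
  by_cases hx : x ∈ Y
  · rw [indicator_of_mem hx]; exact hC x
  · rw [indicator_of_notMem hx, abs_zero]; exact (abs_nonneg _).trans (hC x)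

namespace Bdry
variable {B : Bdry S}

theorem fa_side (hH : Hyp S l) {A E : Set (Bd G)} (hA : MeasurableSet A) (hE : B.Irr E)
    (hs : B.Sep E Aᶜ) {Y K : Set G} (hK : K.Finite)
    (hY : ∀ x, x ∉ K → ∀ s ∈ S, 3 / 4 < B.h A x → 3 / 4 < B.h A (x * s) → (x ∈ Y ↔ x * s ∈ Y)) :
    B.Sub E (hatSet Y) ∨ B.Sub E (hatSet Y)ᶜ := by
  obtain ⟨θ, ⟨hθ, h01⟩, h0, h1⟩ := hs
  have hψ : B.IsD fun ξ => 1 - θ ξ := (isD_const 1).sub hθ
  set v : G → ℝ := B.H fun ξ => 1 - θ ξ with hv
  have hvA : ∀ x, v x ≤ B.h A x := fun x => by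
    rw [h_eq_H B hA]
    refine H_mono B hH.cay hψ.1 hψ.2.1 (measurable_const.indicator hA)
      ⟨1, fun ξ => by by_cases h : ξ ∈ A <;> simp [h]⟩ ?_ x
    filter_upwards [h1] with ξ hξ
    by_cases h : ξ ∈ A
    · rw [indicator_of_mem h]; linarith [(h01 ξ).1]
    · rw [indicator_of_notMem h, hξ h, sub_self]
  have hvb : Bdd v := H_bdd B hψ.2.1
  have hF : Continuous fun p : ℝ × ℝ => max (p.1 - 3 / 4) 0 := by fun_prop
  have hgb : Bdd fun x => max (v x - 3 / 4) 0 := hvb.comp₂ hvb (F := fun a _ => max (a - 3 / 4) 0) hF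
  have hfb := fa_bdd Y hgb
  have hfe : FinEn S (Y.indicator fun x => max (v x - 3 / 4) 0) := by
    obtain ⟨C, hC⟩ := hfb
    have hve : FinEn S v := hψ.finEn hH.cay hH.gap
    refine (finEn_of_le hve hve (L := 1) (M := C + C) zero_le_one (hK.prod S.finite_toSet)
      (fun e _ => (abs_sub _ _).trans (add_le_add (hC _) (hC _))) fun x s hs hx => ?_).1
    have h2 := fa_ind (a := v x - 3 / 4) (b := v (x * s) - 3 / 4) fun ha hb =>
      hY x (fun h => hx ⟨h, hs⟩) s hs (by linarith [hvA x]) (by linarith [hvA (x * s)])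
    rw [sub_sub_sub_cancel_right] at h2
    simp only [indicator_apply]
    linarith [abs_nonneg (v (x * s) - v x)]
  have h3 : ∀ᵐ ξ ∂B.μ 1, ξ ∈ E → 4 * hat (Y.indicator fun x => max (v x - 3 / 4) 0) ξ =
      if ξ ∈ hatSet Y then 1 else 0 := by
    filter_upwards [h0, hψ.hat_H hH.cay hH.gap] with ξ hξ hξ' hE'
    rw [hat_indicator Y hgb, indicator_apply,
      hat_comp₂ hvb hvb (F := fun a _ => max (a - 3 / 4) 0) hF, hξ', hξ hE']
    split_ifs <;> norm_num
  rcases hE _ ((isD_hat hfb hfe).const_mul 4) (by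
    filter_upwards [h3] with ξ hξ hE'
    rw [hξ hE']
    split_ifs <;> simp) with h | h
  · refine Or.inr ((sub_iff B _ _).2 ?_)
    filter_upwards [h, h3] with ξ hξ hξ' hE' hm
    have := (hξ hE').symm.trans (hξ' hE')
    rw [if_pos hm] at this
    exact zero_ne_one this
  · refine Or.inl ((sub_iff B _ _).2 ?_)
    filter_upwards [h, h3] with ξ hξ hξ' hE'
    by_contra hm
    have := (hξ hE').symm.trans (hξ' hE')
    rw [if_neg hm] at this
    exact one_ne_zero this

theorem side_const (hH : Hyp S l) {A : Set (Bd G)} (hA : MeasurableSet A)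
    (hin : ∀ η : ENNReal, η ≠ 0 → ∃ E, B.Irr E ∧ B.Sep E Aᶜ ∧ B.μ 1 (A \ E) < η)
    {Y K : Set G} (hK : K.Finite)
    (hY : ∀ x, x ∉ K → ∀ s ∈ S, 3 / 4 < B.h A x → 3 / 4 < B.h A (x * s) → (x ∈ Y ↔ x * s ∈ Y)) :
    B.Sub A (hatSet Y) ∨ B.Sub A (hatSet Y)ᶜ := by
  by_contra hn
  rw [not_or] at hn
  obtain ⟨E, hE, hs, hη⟩ := hin (min (B.μ 1 (A \ hatSet Y)) (B.μ 1 (A \ (hatSet Y)ᶜ)))
    (lt_min (pos_iff_ne_zero.2 hn.1) (pos_iff_ne_zero.2 hn.2)).ne'
  have key : ∀ X : Set (Bd G), B.Sub E X → B.μ 1 (A \ X) ≤ B.μ 1 (A \ E) := fun X hX => by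
    refine (measure_mono (t := A \ E ∪ E \ X) fun ξ hξ => ?_).trans
      ((measure_union_le _ _).trans (le_of_eq (by rw [hX, add_zero])))
    by_cases h : ξ ∈ E
    exacts [Or.inr ⟨h, hξ.2⟩, Or.inl ⟨hξ.1, h⟩]
  rcases fa_side hH hA hE hs hK hY with h | h
  · exact (hη.trans_le (min_le_left _ _)).not_ge (key _ h)
  · exact (hη.trans_le (min_le_right _ _)).not_ge (key _ h)

theorem decay (hH : Hyp S l) {A A' : Set (Bd G)} (hA : B.Good A) (hA' : MeasurableSet A')
    {Y K : Set G} (hK : K.Finite) (hs : B.Sub A (hatSet Y)ᶜ)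
    (hY : ∀ x, x ∉ K → ∀ s ∈ S, B.h A' x < B.h A x → B.h A' (x * s) < B.h A (x * s) →
      (x ∈ Y ↔ x * s ∈ Y)) :
    {x | x ∈ Y ∧ 1 / 10 ≤ B.h A x - B.h A' x}.Finite := by
  have hF : Continuous fun p : ℝ × ℝ => max (p.1 - p.2) 0 := by fun_prop
  have hgb : Bdd fun x => max (B.h A x - B.h A' x) 0 :=
    (h_bdd B A).comp₂ (h_bdd B A') (F := fun a b => max (a - b) 0) hF
  have hf0 : ∀ x, 0 ≤ Y.indicator (fun x => max (B.h A x - B.h A' x) 0) x := fun x =>
    indicator_nonneg (fun _ _ => le_max_right _ _) x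
  have h1 := tendsto_zero_of_subharm B hH.cay hH.gap (fa_bdd Y hgb) hf0 hK (fun x hx => ?_) ?_
  · have h2 := h1.eventually (gt_mem_nhds (show (0 : ℝ) < 1 / 10 by norm_num))
    rw [Filter.eventually_cofinite] at h2
    refine h2.subset fun x hx => not_lt.2 ?_
    rw [indicator_of_mem hx.1]
    exact hx.2.trans (le_max_left _ _)
  · by_cases h : x ∈ Y ∧ B.h A' x < B.h A x
    · rw [indicator_of_mem h.1, max_eq_left (sub_nonneg.2 h.2.le), ← h_harm B hH.cay hA.1 x,
        ← h_harm B hH.cay hA' x, avg, avg, avg, ← sub_div, ← Finset.sum_sub_distrib]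
      refine div_le_div_of_nonneg_right (Finset.sum_le_sum fun s hs => ?_) (Nat.cast_nonneg _)
      by_cases h' : B.h A' (x * s) < B.h A (x * s)
      · rw [indicator_of_mem ((hY x hx s hs h.2 h').1 h.1)]
        exact le_max_left _ _
      · exact (sub_nonpos.2 (not_lt.1 h')).trans (hf0 _)
    · refine le_trans (le_of_eq ?_)
        (div_nonneg (Finset.sum_nonneg fun s _ => hf0 _) (Nat.cast_nonneg _))
      by_cases hxY : x ∈ Y
      · rw [indicator_of_mem hxY, max_eq_right (sub_nonpos.2 (not_lt.1 fun h' => h ⟨hxY, h'⟩))]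
      · rw [indicator_of_notMem hxY]
  · filter_upwards [(sub_iff B _ _).1 hs, hA.2] with ξ h2 h3
    rw [hat_indicator Y hgb]
    by_cases h : ξ ∈ A
    · exact indicator_of_notMem (h2 h) _
    · have h4 : hat (fun _ => 0) ξ ≤ hat (B.h A') ξ := hat_mono ⟨0, fun _ => by simp⟩ (h_bdd B A')
        (Eventually.of_forall fun x => h_nonneg B A' x)
      rw [hat_const] at h4
      rw [indicator_apply,
        hat_comp₂ (h_bdd B A) (h_bdd B A') (F := fun a b => max (a - b) 0) hF, h3,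
        indicator_of_notMem h, max_eq_right (by linarith), ite_self]

end Bdry

end Vale.Agent.P239
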