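import Vale.Agent.P239.LimB

/-! Task LimC: inner approximation, trivial stabilisers, finiteness.
`inner`: by `eventually_sub` pick `k` with `Sub (L k) L` and `μ (L \ L k) < η/2`, then an approximation `E = b j` of `L k` with `μ (L k \ E) < η/2`; `Sep.mono`.
`stab`: choose `η` so small that for `E` from `inner`, `E ∩ g • E` is nonnull (`μ 1 (g • (L \ E)) = μ g⁻¹ (L \ E) ≤ C μ 1 (L \ E)` by `harnack`; `L` and `g • L` agree a.e.).
`Eᶜ ∩ (g • E)ᶜ ⊇ R` a.e. is nonnull (`g • E ⊆ g • L = L` a.e.). So nestedness gives `Sub (γ • E) E` for `γ = g` or `γ = g⁻¹`; by induction `Sub (γ^k • E) E`, and `Sub (γ^k • R) R`, `Sub R Lᶜ`. Hence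
`h E (γ^k) ≥ h E 1 > 0`, `h Lᶜ (γ^k) ≥ h R 1 > 0`; `Sep.finite_vis` makes the powers of `γ` finite, so `γ` has finite order (`isOfFinOrder_iff_...`, `finite_powers`), `hH.tf`.
`card_le`: by `rigid`, for `i ≠ j` one of the three intersections is null, so the sets `L i ×ˢ (L i ∪ R i)ᶜ ×ˢ R i` are pairwise a.e. disjoint in the triple product probability measure,
each of measure `≥ θ^3`.
`finite_vis`: for `x` visible, `(x⁻¹ • L, x⁻¹ • R)` is a limit triple visible at `1`; for `x ≠ x'` these are not a.e. equal by `stab` (`g = x' * x⁻¹`); `card_le` bounds every finite subset.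
`exists_types`: take a finset `T` of visible limit triples, pairwise not a.e. equal, of maximal cardinality (bounded by `card_le`); `h_congr`.
-/

noncomputable section

open Classical MeasureTheory Filter Topology Set
open scoped Pointwise

namespace Vale.Agent.P239

universe u
variable {G : Type u} [Group G] {S : Finset G} {l : ℕ}

namespace Bdry
variable {B : Bdry S} {Φ : B.Family} {J : B.Slab Φ}

theorem Slab.LT.inner (hH : Hyp S l) {L R : Set (Bd G)} (h : J.LT L R) {η : ENNReal}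
    (hη : η ≠ 0) : ∃ E ∈ Φ.𝓗, B.Sep E Lᶜ ∧ B.Sub E L ∧ B.μ 1 (L \ E) < η := by
  obtain ⟨n, x, hn, ha, hc⟩ := h.seq
  have hη2 : 0 < η / 2 := ENNReal.half_pos hη
  obtain ⟨k, ⟨h1, -⟩, h2⟩ := ((h.eventually_sub hH hn ha hc).and
    (ha.eventually (gt_mem_nhds hη2))).exists
  obtain ⟨b, hb1, hb2, hb3, hb4⟩ := Φ.approx _ (Φ.smul (x k)⁻¹ _ (J.a_mem (n k)))
  have h3 := limA_mono (B.μ 1) (A := b) (fun k => (Φ.good _ (hb1 k)).1)
    fun i j hij => limA_chain hb2 hij.le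
  obtain ⟨j, h4⟩ := (h3.eventually (gt_mem_nhds hη2)).exists
  have h5 : B.Sub (b j) ((x k)⁻¹ • J.a (n k)) := (hb3 j).null_inter
  refine ⟨b j, hb1 j, (hb3 j).mono (Sub.refl _) h1.compl, h5.trans h1, ?_⟩
  have h6 : L \ b j ⊆ (symmDiff ((x k)⁻¹ • J.a (n k)) L ∪ symmDiff (b j) (⋃ i, b i))
      ∪ (((x k)⁻¹ • J.a (n k)) \ ⋃ i, b i) := by
    intro ξ hξ
    by_cases a1 : ξ ∈ (x k)⁻¹ • J.a (n k)
    · by_cases a2 : ξ ∈ ⋃ i, b i
      · exact Or.inl (Or.inr (Or.inr ⟨a2, hξ.2⟩))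
      · exact Or.inr ⟨a1, a2⟩
    · exact Or.inl (Or.inl (Or.inr ⟨hξ.1, a1⟩))
  refine lt_of_le_of_lt ((measure_mono h6).trans (measure_union_le _ _)) ?_
  rw [hb4, add_zero]
  refine lt_of_le_of_lt (measure_union_le _ _) ?_
  rw [← ENNReal.add_halves η]
  exact ENNReal.add_lt_add h2 h4

theorem limC_pow (hS : Cay S) {A : Set (Bd G)} {γ : G} (h : B.Sub (γ • A) A) (k : ℕ) :
    B.h A 1 ≤ B.h A (γ ^ k) := by
  have h1 : B.Sub (γ ^ k • A) A := by
    induction k with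
    | zero => rw [pow_zero, one_smul]; exact Sub.refl _
    | succ k ih =>
      rw [pow_succ', mul_smul]
      exact ((B.sub_smul hS γ _ _).2 ih).trans h
  have h2 := B.h_mono hS h1 (γ ^ k * 1)
  rwa [B.h_smul, mul_one] at h2

theorem limC_one (hH : Hyp S l) {E R C : Set (Bd G)} {γ : G} (h1 : B.Sub (γ • E) E)
    (h2 : B.Sub (γ • R) R) (hE : ¬ B.Null E) (hR : ¬ B.Null R) (hRC : B.Sub R C)
    (hs : B.Sep E C) : γ = 1 := by
  have h3 := hs.finite_vis hH.cay hH.gap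
    (lt_min (B.h_pos hH.cay hE 1) (B.h_pos hH.cay hR 1))
  refine hH.tf γ (finite_powers.1 (h3.subset ?_))
  rintro _ ⟨k, rfl⟩
  exact ⟨(min_le_left _ _).trans (limC_pow hH.cay h1 k),
    (min_le_right _ _).trans ((limC_pow hH.cay h2 k).trans (B.h_mono hH.cay hRC _))⟩

theorem limC_inv (hS : Cay S) {A : Set (Bd G)} {g : G} (h : B.Sub A (g • A)) :
    B.Sub (g⁻¹ • A) A := by
  have := (B.sub_smul hS g⁻¹ _ _).2 h
  rwa [inv_smul_smul] at this

theorem Slab.LT.stab (hH : Hyp S l) {L R : Set (Bd G)} (h : J.LT L R) {g : G}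
    (h1 : B.Sub (g • L) L) (h2 : B.Sub L (g • L)) (h3 : B.Sub (g • R) R)
    (h4 : B.Sub R (g • R)) : g = 1 := by
  choose E hE1 hE2 hE3 hE4 using fun k : ℕ =>
    h.inner hH (η := (k : ENNReal)⁻¹) (ENNReal.inv_ne_zero.2 (ENNReal.natCast_ne_top k))
  have t1 : Tendsto (fun k => B.μ 1 (L \ E k)) atTop (𝓝 0) :=
    tendsto_of_tendsto_of_tendsto_of_le_of_le tendsto_const_nhds ENNReal.tendsto_inv_nat_nhds_zero
      (fun _ => zero_le) fun k => (hE4 k).le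
  have t2 : Tendsto (fun k => B.μ 1 (g • L \ g • E k)) atTop (𝓝 0) := by
    refine (B.tendsto_μ hH.cay g⁻¹ t1).congr fun k => ?_
    rw [← smul_set_sdiff, ← B.μ_smul g g⁻¹, mul_inv_cancel]
  obtain ⟨k, hk⟩ : ∃ k, ¬ B.Null (E k ∩ g • E k) := by
    by_contra h5
    push Not at h5
    have t3 := t1.add t2
    rw [add_zero] at t3
    refine h.posL (le_zero_iff.1 (ge_of_tendsto' t3 fun k => ?_))
    have h6 : L ⊆ ((L \ E k ∪ g • L \ g • E k) ∪ L \ g • L) ∪ (E k ∩ g • E k) := by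
      intro ξ hξ
      by_cases a1 : ξ ∈ E k
      · by_cases a2 : ξ ∈ g • L
        · by_cases a3 : ξ ∈ g • E k
          · exact Or.inr ⟨a1, a3⟩
          · exact Or.inl (Or.inl (Or.inr ⟨a2, a3⟩))
        · exact Or.inl (Or.inr ⟨hξ, a2⟩)
      · exact Or.inl (Or.inl (Or.inl ⟨hξ, a1⟩))
    refine (measure_mono h6).trans ((measure_union_le _ _).trans ?_)
    rw [h5 k, add_zero]
    refine (measure_union_le _ _).trans ?_
    rw [h2, add_zero]
    exact measure_union_le _ _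
  have hE : ¬ B.Null (E k) := fun h5 => hk (h5.of_sub (Sub.of_subset inter_subset_left))
  have hRL : B.Sub R Lᶜ := by
    have := h.null_inter hH
    rw [inter_comm] at this
    rw [Sub, Set.sdiff_compl]
    exact this
  rcases Φ.nested hH (hE1 k) (Φ.smul g _ (hE1 k)) with h5 | h5 | h5 | h5
  · exact absurd h5 hk
  · exact inv_eq_one.1 (limC_one hH (limC_inv hH.cay h5) (limC_inv hH.cay h4) hE h.posR hRL (hE2 k))
  · rw [inter_comm] at h5
    exact limC_one hH h5 h3 hE h.posR hRL (hE2 k)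
  · refine absurd (h5.of_sub ?_) h.posR
    have a1 := (B.sub_iff _ _).1 (hRL.trans (hE3 k).compl)
    have a2 := (B.sub_iff _ _).1
      (hRL.trans (((B.sub_smul hH.cay g _ _).2 (hE3 k)).trans h1).compl)
    refine (B.sub_iff _ _).2 ?_
    filter_upwards [a1, a2] with ξ b1 b2 b3
    exact ⟨b1 b3, b2 b3⟩

theorem Slab.card_le (hH : Hyp S l) (J : B.Slab Φ) {θ : ℝ} (hθ : 0 < θ) {ι : Type*}
    (s : Finset ι) (L R : ι → Set (Bd G))
    (hL : ∀ i ∈ s, J.LT (L i) (R i) ∧ Vis θ (B.h (L i)) (B.h (R i)) 1)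
    (hne : ∀ i ∈ s, ∀ j ∈ s, i ≠ j →
      ¬ (B.Sub (L i) (L j) ∧ B.Sub (L j) (L i) ∧ B.Sub (R i) (R j) ∧ B.Sub (R j) (R i))) :
    (s.card : ℝ) * θ ^ 3 ≤ 1 := by
  haveI := B.prob 1
  have h1 := measure_biUnion_finset₀ (μ := (B.μ 1).prod ((B.μ 1).prod (B.μ 1))) (s := s)
    (f := fun i => L i ×ˢ (R i ×ˢ (L i ∪ R i)ᶜ))
    (fun i hi j hj hij => by
      rw [Function.onFun, AEDisjoint, prod_inter_prod, prod_inter_prod, Measure.prod_prod,
        Measure.prod_prod, mul_eq_zero, mul_eq_zero]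
      by_contra h2
      rw [not_or, not_or] at h2
      exact hne i hi j hj hij ((hL i hi).1.rigid hH (hL j hj).1 h2.1 h2.2.1 h2.2.2))
    (fun i hi => ((hL i hi).1.goodL.1.prod ((hL i hi).1.goodR.1.prod
      ((hL i hi).1.goodL.1.union (hL i hi).1.goodR.1).compl)).nullMeasurableSet)
  have h2 : ∑ _i ∈ s, ENNReal.ofReal (θ ^ 3) ≤ 1 := by
    refine le_trans (Finset.sum_le_sum fun i hi => ?_) (h1 ▸ prob_le_one)
    obtain ⟨a1, a2, a3, a4⟩ := hL i hi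
    rw [← B.h_compl_union hH.cay a1.goodL.1 a1.goodR.1 (a1.null_inter hH)] at a4
    rw [Measure.prod_prod, Measure.prod_prod, show θ ^ 3 = θ * (θ * θ) by ring,
      ENNReal.ofReal_mul hθ.le, ENNReal.ofReal_mul hθ.le]
    exact mul_le_mul' (ENNReal.ofReal_le_of_le_toReal a2)
      (mul_le_mul' (ENNReal.ofReal_le_of_le_toReal a3) (ENNReal.ofReal_le_of_le_toReal a4))
  rw [Finset.sum_const, nsmul_eq_mul, ← ENNReal.ofReal_natCast,
    ← ENNReal.ofReal_mul (Nat.cast_nonneg _)] at h2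
  exact ENNReal.ofReal_le_one.1 h2

theorem Slab.LT.finite_vis (hH : Hyp S l) {L R : Set (Bd G)} (h : J.LT L R) {θ : ℝ}
    (hθ : 0 < θ) : {x | Vis θ (B.h L) (B.h R) x}.Finite := by
  by_contra h1
  obtain ⟨n, hn⟩ := exists_nat_gt (1 / θ ^ 3)
  obtain ⟨s, hs, hc⟩ := Set.Infinite.exists_subset_card_eq h1 n
  have key : ∀ {A : Set (Bd G)} {i j : G}, B.Sub (i⁻¹ • A) (j⁻¹ • A) → B.Sub ((j * i⁻¹) • A) A := by
    intro A i j a1
    have := (B.sub_smul hH.cay j _ _).2 a1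
    rwa [smul_inv_smul, ← mul_smul] at this
  have key' : ∀ {A : Set (Bd G)} {i j : G}, B.Sub (j⁻¹ • A) (i⁻¹ • A) → B.Sub A ((j * i⁻¹) • A) := by
    intro A i j a1
    have := (B.sub_smul hH.cay j _ _).2 a1
    rwa [smul_inv_smul, ← mul_smul] at this
  have h2 := J.card_le hH hθ s (fun x => x⁻¹ • L) (fun x => x⁻¹ • R)
    (fun x hx => ⟨h.smul hH _, by
      have a1 : Vis θ (B.h L) (B.h R) x := hs hx
      simpa only [Vis, limA_inv] using a1⟩)
    (fun i _ j _ hij a1 => hij (mul_inv_eq_one.1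
      (h.stab hH (key a1.1) (key' a1.2.1) (key a1.2.2.1) (key' a1.2.2.2))).symm)
  rw [hc] at h2
  rw [div_lt_iff₀ (by positivity)] at hn
  linarith

theorem Slab.exists_types (hH : Hyp S l) (J : B.Slab Φ) {θ : ℝ} (hθ : 0 < θ) :
    ∃ T : Finset (Set (Bd G) × Set (Bd G)),
      (∀ τ ∈ T, J.LT τ.1 τ.2 ∧ Vis θ (B.h τ.1) (B.h τ.2) 1) ∧
      ∀ L R, J.LT L R → Vis θ (B.h L) (B.h R) 1 →
        ∃ τ ∈ T, B.h L = B.h τ.1 ∧ B.h R = B.h τ.2 := by
  obtain ⟨P, hP⟩ : ∃ P : Finset (Set (Bd G) × Set (Bd G)) → Prop, ∀ T, P T ↔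
      (∀ τ ∈ T, J.LT τ.1 τ.2 ∧ Vis θ (B.h τ.1) (B.h τ.2) 1) ∧
      ∀ i ∈ T, ∀ j ∈ T, i ≠ j →
        ¬ (B.Sub i.1 j.1 ∧ B.Sub j.1 i.1 ∧ B.Sub i.2 j.2 ∧ B.Sub j.2 i.2) := ⟨_, fun _ => Iff.rfl⟩
  obtain ⟨T, hT, hmax⟩ : ∃ T, P T ∧ ∀ T', P T' → T'.card ≤ T.card := by
    by_contra h1
    push Not at h1
    have h2 : ∀ n : ℕ, ∃ T, P T ∧ n ≤ T.card := by
      intro n
      induction n with
      | zero => exact ⟨∅, (hP _).2 ⟨by simp, by simp⟩, Nat.zero_le _⟩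
      | succ n ih =>
        obtain ⟨T, a1, a2⟩ := ih
        obtain ⟨T', a3, a4⟩ := h1 T a1
        exact ⟨T', a3, by omega⟩
    obtain ⟨n, hn⟩ := exists_nat_gt (1 / θ ^ 3)
    obtain ⟨T, a1, a2⟩ := h2 n
    have a3 := J.card_le hH hθ T Prod.fst Prod.snd ((hP T).1 a1).1 ((hP T).1 a1).2
    rw [div_lt_iff₀ (by positivity)] at hn
    have a4 : (n : ℝ) * θ ^ 3 ≤ T.card * θ ^ 3 :=
      mul_le_mul_of_nonneg_right (by exact_mod_cast a2) (by positivity)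
    linarith
  obtain ⟨hT1, hT2⟩ := (hP T).1 hT
  refine ⟨T, hT1, fun L R h1 h2 => ?_⟩
  by_contra h3
  have h4 : (L, R) ∉ T := fun h5 => h3 ⟨_, h5, rfl, rfl⟩
  have h5 : P (insert (L, R) T) := by
    refine (hP _).2 ⟨fun τ hτ => ?_, fun i hi j hj hij a1 => ?_⟩
    · rcases Finset.mem_insert.1 hτ with rfl | hτ
      · exact ⟨h1, h2⟩
      · exact hT1 τ hτ
    · rcases Finset.mem_insert.1 hi with rfl | hi <;> rcases Finset.mem_insert.1 hj with rfl | hj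
      · exact hij rfl
      · exact h3 ⟨j, hj, B.h_congr hH.cay a1.1 a1.2.1, B.h_congr hH.cay a1.2.2.1 a1.2.2.2⟩
      · exact h3 ⟨i, hi, B.h_congr hH.cay a1.2.1 a1.1, B.h_congr hH.cay a1.2.2.2 a1.2.2.1⟩
      · exact hT2 i hi j hj hij a1
  have h6 := hmax _ h5
  rw [Finset.card_insert_of_notMem h4] at h6
  omega

end Bdry

end Vale.Agent.P239
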