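import Vale.Agent.P239.FixA
import Vale.Agent.P239.LimC
import Vale.Agent.P239.FinAAux

/-! Task FixB: local repair at a limit triple. `p = h L`, `q = h R`, `z = 1 - p - q = h (L ∪ R)ᶜ ≥ 0` (`h_compl_union`).
Labels: `Zs = {1/4 ≤ z}`, `Ls = {z < 1/4, q ≤ p}`, `Rs = {z < 1/4, p < q}`; `c x s = 1` if `x ∈ Ls, x s ∈ Rs`, `-1` if `x ∈ Rs, x s ∈ Ls`, else `0`.
If `y * ball (l+1)` misses `Zs` then `c` is the gradient of the indicator of `Rs` on edges from `y * ball l`; if it misses `Ls` or `Rs`, `c = 0`. If it meets all three then by `h_harnack`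
`Vis (1 / (4 * card S ^ (l+1))) p q y`: finitely many `y` (`LT.finite_vis`). Take `w` from `Cofill`, `Y = {x | Odd (w x)}`, `K0` = starting points of defect edges (finite). For `x ∉ K0`: if `c x s = 0` membership in `Y` agrees at `x`, `x s`,
if `c x s = ±1` it differs. `side_const` for `L` (`LT.inner`, `Φ.irr`) and for `R` (`LT.swap`, `Sep.symm`). Replacing `Y` by `Yᶜ` (`hatSet_compl`) assume `Sub L (hatSet Y)ᶜ`; `decay` gives the `left` clause off a finite set.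
If `Sub R (hatSet Y)`, `decay` for `(R, L, Yᶜ)` gives `right`, and we are done (`novis` by `finite_vis`, `same` since `c = 0` when an endpoint is in `Zs`).
Otherwise `Sub R (hatSet Y)ᶜ`, `decay` for `(R, L, Y)` shows `1/10 ≤ q - p → x ∉ Y` off a finite set; contradiction as follows. By `Good.infinite_deep` pick `x0`, `x1` with `h (a 0) x0 > 9/10`, `h (c 0) x1 > 9/10`, `x1 = x0 * b0`,
`b0 ∈ ball r`. By Harnack `h (a 0)`, `h (c 0) ≥ ε0 = (9/10) / card S ^ (2r+2)` on `x0 * ball (r+1)`. With the sequences of `h.seq`, for large `k` (`eventually_sub`, `a_sub`, `h_smul`, `h_mono`) `p, q ≥ ε0` on `y * ball (r+1)`, `y = (x k)⁻¹ * x0`, and (`tendsto_cofinite`)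
`y * ball (r+1)` avoids all the finite exceptional sets including `{Vis (min ε0 (1/4)) p q}`, so it misses `Zs`. Then `x ↦ (x ∈ Y ↔ x ∈ Rs)` is constant there (`const_on_ball`); but `y ∉ Y`, `y ∉ Rs`, `y b0 ∉ Y`, `y b0 ∈ Rs`.
-/

noncomputable section

open Classical MeasureTheory Filter Topology Set
open scoped Pointwise

namespace Vale.Agent.P239

universe u
variable {G : Type u} [Group G] {S : Finset G} {l : ℕ}

namespace Bdry
variable {B : Bdry S} {Φ : B.Family} {J : B.Slab Φ}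

theorem fb_sum (hH : Hyp S l) {L R : Set (Bd G)} (h : J.LT L R) (x : G) :
    B.h (L ∪ R)ᶜ x = 1 - B.h L x - B.h R x :=
  h_compl_union B hH.cay h.goodL.1 h.goodR.1 (h.null_inter hH) x

theorem fb_far (hH : Hyp S l) {L R : Set (Bd G)} (h : J.LT L R) {Y K : Set G} (hK : K.Finite)
    (P2 : ∀ x, x ∉ K → ∀ s ∈ S, ¬ 1 / 4 ≤ 1 - B.h L x - B.h R x →
      ¬ 1 / 4 ≤ 1 - B.h L (x * s) - B.h R (x * s) →
      ((x ∈ Y ↔ B.h L x < B.h R x) ↔ (x * s ∈ Y ↔ B.h L (x * s) < B.h R (x * s))))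
    (h1 : ∀ x, x ∉ K → 1 / 10 ≤ B.h L x - B.h R x → x ∉ Y)
    (h2 : ∀ x, x ∉ K → 1 / 10 ≤ B.h R x - B.h L x → x ∉ Y) : False := by
  obtain ⟨x0, hx0⟩ := ((Φ.good _ (J.a_mem 0)).infinite_deep hH.cay J.a_pos
    (show (9 / 10 : ℝ) < 1 by norm_num)).nonempty
  obtain ⟨x1, hx1⟩ := ((Φ.good _ (J.c_mem 0)).infinite_deep hH.cay J.c_pos
    (show (9 / 10 : ℝ) < 1 by norm_num)).nonempty
  obtain ⟨r, hr⟩ := hH.cay.exists_ball (x0⁻¹ * x1)
  have hN : (0 : ℝ) < (S.card : ℝ) ^ (2 * r + 1) := pow_pos (by exact_mod_cast hH.cay.card_pos) _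
  set ε : ℝ := min (9 / 10 / (S.card : ℝ) ^ (2 * r + 1)) (1 / 4) with hε
  have hε0 : 0 < ε := lt_min (by positivity) (by norm_num)
  have hK' := hK.union (h.finite_vis hH hε0)
  have hF := (((ball S (r + 1)).finite_toSet.prod hK').image
    fun e : G × G => x0 * e.1 * e.2⁻¹).compl_mem_cofinite
  obtain ⟨n, x, hn, ha, hc⟩ := h.seq
  obtain ⟨k, ⟨sa, sc⟩, hk⟩ := ((h.eventually_sub hH hn ha hc).and
    ((h.tendsto_cofinite hH hn ha hc).eventually hF)).exists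
  have hout : ∀ b ∈ ball S (r + 1), (x k)⁻¹ * x0 * b ∉ K ∪ {y | Vis ε (B.h L) (B.h R) y} :=
    fun b hb hm => hk ⟨(b, (x k)⁻¹ * x0 * b), ⟨hb, hm⟩, by simp [mul_assoc]⟩
  have hp : ∀ b, B.h (J.a 0) (x0 * b) ≤ B.h L ((x k)⁻¹ * x0 * b) := fun b => by
    refine (h_mono B hH.cay (J.a_sub (n k)) _).trans (le_trans ?_ (h_mono B hH.cay sa _))
    rw [mul_assoc, h_smul]
  have hq : ∀ b, B.h (J.c 0) (x0 * b) ≤ B.h R ((x k)⁻¹ * x0 * b) := fun b => by
    refine (h_mono B hH.cay (J.c_sub (n k)) _).trans (le_trans ?_ (h_mono B hH.cay sc _))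
    rw [mul_assoc, h_smul]
  have hZ : ∀ b ∈ ball S (r + 1),
      ¬ 1 / 4 ≤ 1 - B.h L ((x k)⁻¹ * x0 * b) - B.h R ((x k)⁻¹ * x0 * b) := fun b hb hz => by
    have hb' := hH.cay.inv_mem_ball hb
    have e1 := h_harnack B hH.cay (x0 * b) (ball_mono (show r + 1 ≤ 2 * r + 1 by omega) hb') (J.a 0)
    have e2 := h_harnack B hH.cay (x0 * b)
      (ball_mono (show r + 1 + r ≤ 2 * r + 1 by omega) (mul_mem_ball hb' hr)) (J.c 0)
    rw [mul_inv_cancel_right] at e1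
    rw [show x0 * b * (b⁻¹ * (x0⁻¹ * x1)) = x1 by group] at e2
    refine hout b hb (Or.inr ⟨(min_le_left _ _).trans (le_trans ?_ (hp b)),
      (min_le_left _ _).trans (le_trans ?_ (hq b)), (min_le_right _ _).trans hz⟩)
    · rw [div_le_iff₀' hN]; exact hx0.le.trans e1
    · rw [div_le_iff₀' hN]; exact hx1.le.trans e2
  have hc := const_on_ball (S := S) (fun y => (y ∈ Y ↔ B.h L y < B.h R y)) ((x k)⁻¹ * x0) r
    (fun b hb s hs => propext (P2 _ (fun hm => hout b (gl_edge hb hs).1 (Or.inl hm)) s hs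
      (hZ b (gl_edge hb hs).1) (by rw [mul_assoc _ b]; exact hZ _ (gl_edge hb hs).2)).symm)
    _ (ball_mono (Nat.le_succ r) hr)
  have hz := fun y => (fb_sum hH h y) ▸ h_nonneg B (L ∪ R)ᶜ y
  have a1 := hp 1
  have a2 := hq (x0⁻¹ * x1)
  have a3 := hz ((x k)⁻¹ * x0 * 1)
  have a4 := hz ((x k)⁻¹ * x0 * (x0⁻¹ * x1))
  rw [mul_inv_cancel_left] at a2
  have hx0' : 9 / 10 < B.h (J.a 0) (x0 * 1) := by rw [mul_one]; exact hx0
  have hx1' : 9 / 10 < B.h (J.c 0) x1 := hx1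
  have b1 := h1 _ (fun hm => hout 1 (one_mem_ball _) (Or.inl hm)) (by linarith)
  have b2 := h2 _ (fun hm => hout _ (ball_mono (Nat.le_succ r) hr) (Or.inl hm)) (by linarith)
  simp only [mul_one] at a1 a3 b1 hx0'
  exact b2 ((hc.mpr (iff_of_false b1 (by linarith))).2 (by linarith))

theorem fb_main (hH : Hyp S l) {L R : Set (Bd G)} (h : J.LT L R) {Y K : Set G} (hK : K.Finite)
    (P1 : ∀ x, x ∉ K → ∀ s ∈ S, (1 / 4 ≤ 1 - B.h L x - B.h R x ∨
      1 / 4 ≤ 1 - B.h L (x * s) - B.h R (x * s)) → (x ∈ Y ↔ x * s ∈ Y))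
    (P2 : ∀ x, x ∉ K → ∀ s ∈ S, ¬ 1 / 4 ≤ 1 - B.h L x - B.h R x →
      ¬ 1 / 4 ≤ 1 - B.h L (x * s) - B.h R (x * s) →
      ((x ∈ Y ↔ B.h L x < B.h R x) ↔ (x * s ∈ Y ↔ B.h L (x * s) < B.h R (x * s))))
    (P3 : ∀ x, x ∉ K → ∀ s ∈ S, (B.h L x < B.h R x ↔ B.h L (x * s) < B.h R (x * s)) →
      (x ∈ Y ↔ x * s ∈ Y))
    (hL : B.Sub L (hatSet Y)ᶜ) (hR : B.Sub R (hatSet Y) ∨ B.Sub R (hatSet Y)ᶜ) :
    ∃ W K : Set G, K.Finite ∧ Fix S (B.h L) (B.h R) W K := by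
  have f1 := decay hH h.goodL h.goodR.1 hK hL fun x hx s hs a b =>
    P3 x hx s hs (iff_of_false a.not_gt b.not_gt)
  rcases hR with hR | hR
  · have f2 := decay hH h.goodR h.goodL.1 (Y := Yᶜ) hK (by rwa [hatSet_compl, compl_compl])
      fun x hx s hs a b => not_congr (P3 x hx s hs (iff_of_true a b))
    have f3 := h.finite_vis hH (θ := 1 / (10 * S.card)) (by
      have : (0 : ℝ) < S.card := by exact_mod_cast hH.cay.card_pos
      positivity)
    refine ⟨Y, _, ((hK.union f1).union f2).union f3, fun x hx a b => ?_, fun x hx a => ?_,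
      fun x hx a => hx (Or.inr a), fun x hx => P1 x fun hm => hx (Or.inl (Or.inl (Or.inl hm)))⟩
    · exact hx (Or.inl (Or.inl (Or.inr ⟨b, a⟩)))
    · by_contra b
      exact hx (Or.inl (Or.inr ⟨b, a⟩))
  · have f2 := decay hH h.goodR h.goodL.1 hK hR fun x hx s hs a b => P3 x hx s hs (iff_of_true a b)
    exact (fb_far hH h ((hK.union f1).union f2) (fun x hx => P2 x fun hm => hx (Or.inl (Or.inl hm)))
      (fun x hx a b => hx (Or.inl (Or.inr ⟨b, a⟩))) fun x hx a b => hx (Or.inr ⟨b, a⟩)).elim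

theorem Slab.LT.exists_fix (hH : Hyp S l) {L R : Set (Bd G)} (h : J.LT L R) :
    ∃ W K : Set G, K.Finite ∧ Fix S (B.h L) (B.h R) W K := by
  obtain ⟨C, α, -, -, -, hC⟩ := hH.cofill
  have hN : (0 : ℝ) < (S.card : ℝ) ^ (l + 1) := pow_pos (by exact_mod_cast hH.cay.card_pos) _
  obtain ⟨w, hw, -⟩ := hC (glLam (1 / 4) (B.h L) (B.h R)) (gl_abs _ _ _)
    ((h.finite_vis hH (θ := 1 / 4 / (S.card : ℝ) ^ (l + 1)) (by positivity)).subset fun y hy => by
      by_contra hv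
      refine hy (gl_loc (by norm_num) hN (fun b hb => h_harnack B hH.cay y hb L)
        (fun b hb => h_harnack B hH.cay y hb R) (fun b hb => ?_) hv)
      rw [← fb_sum hH h, ← fb_sum hH h]
      exact h_harnack B hH.cay y hb _)
  have hK := hw.image Prod.fst
  have hc : ∀ x, x ∉ Prod.fst '' defect S (glLam (1 / 4) (B.h L) (B.h R)) w → ∀ s ∈ S,
      glLam (1 / 4) (B.h L) (B.h R) x s = w (x * s) - w x := fun x hx s hs =>
    not_not.1 fun hne => hx ⟨(x, s), ⟨hs, hne⟩, rfl⟩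
  set K := Prod.fst '' defect S (glLam (1 / 4) (B.h L) (B.h R)) w
  set Y : Set G := {x | w x % 2 = 1} with hY
  have P1 : ∀ x, x ∉ K → ∀ s ∈ S, (1 / 4 ≤ 1 - B.h L x - B.h R x ∨
      1 / 4 ≤ 1 - B.h L (x * s) - B.h R (x * s)) → (x ∈ Y ↔ x * s ∈ Y) := fun x hx s hs hz => by
    have e := hc x hx s hs
    rw [glLam, if_pos hz] at e
    simp only [hY, Set.mem_ofPred_eq]
    omega
  have P2 : ∀ x, x ∉ K → ∀ s ∈ S, ¬ 1 / 4 ≤ 1 - B.h L x - B.h R x →
      ¬ 1 / 4 ≤ 1 - B.h L (x * s) - B.h R (x * s) →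
      ((x ∈ Y ↔ B.h L x < B.h R x) ↔ (x * s ∈ Y ↔ B.h L (x * s) < B.h R (x * s))) :=
    fun x hx s hs z1 z2 => by
      have e := hc x hx s hs
      rw [glLam, if_neg (not_or.2 ⟨z1, z2⟩), glRho, glRho] at e
      simp only [hY, Set.mem_ofPred_eq]
      split_ifs at e with a b b <;> simp only [a, b, iff_true, iff_false] <;> omega
  have P3 : ∀ x, x ∉ K → ∀ s ∈ S, (B.h L x < B.h R x ↔ B.h L (x * s) < B.h R (x * s)) →
      (x ∈ Y ↔ x * s ∈ Y) := fun x hx s hs e => by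
    by_cases hz : 1 / 4 ≤ 1 - B.h L x - B.h R x ∨ 1 / 4 ≤ 1 - B.h L (x * s) - B.h R (x * s)
    · exact P1 x hx s hs hz
    · have := P2 x hx s hs (not_or.1 hz).1 (not_or.1 hz).2
      tauto
  have hz := fun y => (fb_sum hH h y) ▸ h_nonneg B (L ∪ R)ᶜ y
  have sL := side_const hH h.goodL.1 (fun η hη => by
    obtain ⟨E, hE, h1, -, h2⟩ := h.inner hH hη
    exact ⟨E, Φ.irr E hE, h1, h2⟩) hK fun x hx s hs a b => P3 x hx s hs
      (iff_of_false (by linarith [hz x]) (by linarith [hz (x * s)]))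
  have sR := side_const hH h.goodR.1 (fun η hη => by
    obtain ⟨E, hE, h1, -, h2⟩ := (h.swap fun n => (J.sep n).symm).inner hH hη
    exact ⟨E, Φ.irr E hE, h1, h2⟩) hK fun x hx s hs a b => P3 x hx s hs
      (iff_of_true (by linarith [hz x]) (by linarith [hz (x * s)]))
  rcases sL with sL | sL
  · refine fb_main hH h (Y := Yᶜ) hK (fun x hx s hs a => not_congr (P1 x hx s hs a))
      (fun x hx s hs a b => ?_) (fun x hx s hs a => not_congr (P3 x hx s hs a))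
      (by rwa [hatSet_compl, compl_compl]) (by rw [hatSet_compl, compl_compl]; exact sR.symm)
    have := P2 x hx s hs a b
    simp only [mem_compl_iff]
    tauto
  · exact fb_main hH h hK P1 P2 P3 sL sR

end Bdry

end Vale.Agent.P239
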