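import Vale.Agent.P239.Ball

/-! Task Royden: consequences of the spectral gap.
Plan: on `ℓ² = lp (fun _ : G => ℝ) 2` the bounded bilinear form
`a(p,q) = ∑' x, ∑ s ∈ S, (p (x*s) - p x) * (q (x*s) - q x)` is coercive by `Gap`; use Lax-Milgram
(`IsCoercive.continuousLinearEquivOfBilin`) or: the gradient map `ℓ² → ℓ²(G × S)` is bounded below
so has closed range and one projects. With symmetric `S`,
`a(u, δ_y) = 2 * card S * (u y - avg S u y)` for every `u` (finite sum; reindex `s ↦ s⁻¹`).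
`orth`: the functional `q ↦ a(h,q)` is continuous on `ℓ²` and vanishes on every `δ_y`.
-/

noncomputable section

open Classical MeasureTheory Filter Topology Set
open scoped Pointwise

namespace Vale.Agent.P239

universe u
variable {G : Type u} [Group G] {S : Finset G}

theorem ry_mul {α : Type*} {f g : α → ℝ} (hf : SqSum f) (hg : SqSum g) :
    Summable fun x => f x * g x := by
  refine Summable.of_norm_bounded (g := fun x => f x ^ 2 + g x ^ 2) (Summable.add hf hg) fun x => ?_
  rw [Real.norm_eq_abs, abs_le]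
  constructor <;> nlinarith [sq_nonneg (f x + g x), sq_nonneg (f x - g x)]

theorem ry_shift {p : G → ℝ} (hp : SqSum p) (s : G) : SqSum fun x => p (x * s) :=
  (Equiv.mulRight s).summable_iff.2 hp

theorem ry_edge {h : G → ℝ} (hh : FinEn S h) {s : G} (hs : s ∈ S) :
    SqSum fun x => h (x * s) - h x :=
  Summable.of_nonneg_of_le (fun _ => sq_nonneg _)
    (fun x => Finset.single_le_sum (f := fun s => (h (x * s) - h x) ^ 2)
      (fun _ _ => sq_nonneg _) hs) hh

theorem ry_parts (hS : Cay S) {h p : G → ℝ} (hh : FinEn S h) (hp : SqSum p) :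
    ∑' x, ∑ s ∈ S, (h (x * s) - h x) * (p (x * s) - p x) =
      -2 * ∑' x, (∑ s ∈ S, (h (x * s) - h x)) * p x := by
  have h1 : ∀ s ∈ S, Summable fun x => (h (x * s) - h x) * p (x * s) := fun s hs =>
    ry_mul (ry_edge hh hs) (ry_shift hp s)
  have h2 : ∀ s ∈ S, Summable fun x => (h (x * s) - h x) * p x := fun s hs =>
    ry_mul (ry_edge hh hs) hp
  have h3 : ∀ s, ∑' x, (h (x * s) - h x) * p (x * s) = -∑' x, (h (x * s⁻¹) - h x) * p x := by
    intro s
    rw [← tsum_neg, ← (Equiv.mulRight s⁻¹).tsum_eq]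
    refine tsum_congr fun x => ?_
    simp only [Equiv.coe_mulRight, inv_mul_cancel_right]
    ring
  have h4 : ∑ s ∈ S, ∑' x, (h (x * s⁻¹) - h x) * p x = ∑ s ∈ S, ∑' x, (h (x * s) - h x) * p x :=
    Finset.sum_nbij' (fun s => s⁻¹) (fun s => s⁻¹) (fun s hs => hS.symm s hs)
      (fun s hs => hS.symm s hs) (fun s _ => inv_inv s) (fun s _ => inv_inv s) fun _ _ => rfl
  simp only [mul_sub, Finset.sum_mul]
  rw [Summable.tsum_finsetSum fun s hs => (h1 s hs).sub (h2 s hs), Summable.tsum_finsetSum h2,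
    Finset.sum_congr rfl fun s hs => (h1 s hs).tsum_sub (h2 s hs), Finset.sum_sub_distrib]
  simp only [h3, Finset.sum_neg_distrib, h4]
  ring

theorem ry_sum (hS : Cay S) (h : G → ℝ) (x : G) :
    ∑ s ∈ S, (h (x * s) - h x) = -(S.card : ℝ) * (h x - avg S h x) := by
  have hc : (0 : ℝ) < S.card := by exact_mod_cast hS.card_pos
  unfold avg
  rw [Finset.sum_sub_distrib, Finset.sum_const, nsmul_eq_mul]
  field_simp
  ring

theorem ry_orth (hS : Cay S) {h p : G → ℝ} (hh : FinEn S h) (hH : Harm S h) (hp : SqSum p) :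
    ∑' x, ∑ s ∈ S, (h (x * s) - h x) * (p (x * s) - p x) = 0 := by
  rw [ry_parts hS hh hp]
  simp only [ry_sum hS, hH _, sub_self, mul_zero, zero_mul, tsum_zero]

/-- Orthogonality of harmonic and square summable functions. -/
theorem Cay.energy_add (hS : Cay S) {h p : G → ℝ} (hh : FinEn S h) (hH : Harm S h)
    (hp : SqSum p) : energy S (fun x => h x + p x) = energy S h + energy S p := by
  have hpE : FinEn S p := hp.finEn
  have h1 : Summable fun x => ∑ s ∈ S, (h (x * s) - h x) * (p (x * s) - p x) :=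
    summable_sum fun s hs => ry_mul (ry_edge hh hs) (ry_edge hpE hs)
  have h2 : ∀ x, grad2 S (fun x => h x + p x) x = grad2 S h x + grad2 S p x +
      2 * ∑ s ∈ S, (h (x * s) - h x) * (p (x * s) - p x) := by
    intro x
    unfold grad2
    rw [Finset.mul_sum, ← Finset.sum_add_distrib, ← Finset.sum_add_distrib]
    exact Finset.sum_congr rfl fun s _ => by ring
  unfold energy
  rw [tsum_congr h2, Summable.tsum_add (Summable.add hh hpE) (h1.mul_left 2),
    Summable.tsum_add hh hpE, tsum_mul_left, ry_orth hS hh hH hp]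
  ring

theorem Cay.orth (hS : Cay S) {h p : G → ℝ} (hh : FinEn S h) (hH : Harm S h) (hp : SqSum p) :
    ∑' x, ∑ s ∈ S, (h (x * s) - h x) * (p (x * s) - p x) = 0 := ry_orth hS hh hH hp

theorem ry_mem {α : Type*} {p : α → ℝ} : Memℓp p 2 ↔ SqSum p := by
  rw [memℓp_gen_iff (by norm_num)]
  unfold SqSum
  simp

theorem ry_inner {α : Type*} (p q : lp (fun _ : α => ℝ) 2) :
    inner ℝ p q = ∑' x, p x * q x := by
  rw [lp.inner_eq_tsum]
  exact tsum_congr fun x => by simp [mul_comm]

theorem ry_norm {α : Type*} (p : lp (fun _ : α => ℝ) 2) : ‖p‖ ^ 2 = ∑' x, p x ^ 2 := by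
  rw [← real_inner_self_eq_norm_sq, ry_inner]
  exact tsum_congr fun x => by ring

/-- Right translation on `ℓ²`. -/
def ryR (s : G) : lp (fun _ : G => ℝ) 2 →L[ℝ] lp (fun _ : G => ℝ) 2 :=
  LinearMap.mkContinuous
    { toFun := fun p => ⟨fun x => p (x * s), ry_mem.2 (ry_shift (ry_mem.1 (lp.memℓp p)) s)⟩
      map_add' := fun _ _ => rfl
      map_smul' := fun _ _ => rfl } 1 fun p => by
    rw [one_mul]
    refine le_of_eq ((sq_eq_sq₀ (norm_nonneg _) (norm_nonneg _)).1 ?_)
    rw [ry_norm, ry_norm]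
    exact (Equiv.mulRight s).tsum_eq fun x => p x ^ 2

theorem ryR_apply (s : G) (p : lp (fun _ : G => ℝ) 2) (x : G) : ryR s p x = p (x * s) := rfl

/-- The Laplace operator on `ℓ²`. -/
def ryL (S : Finset G) : lp (fun _ : G => ℝ) 2 →L[ℝ] lp (fun _ : G => ℝ) 2 :=
  ContinuousLinearMap.id ℝ _ - (S.card : ℝ)⁻¹ • ∑ s ∈ S, ryR s

theorem ryL_apply (p : lp (fun _ : G => ℝ) 2) (x : G) : ryL S p x = p x - avg S p x := by
  unfold ryL avg
  simp only [ContinuousLinearMap.sub_apply, ContinuousLinearMap.id_apply,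
    ContinuousLinearMap.smul_apply, ContinuousLinearMap.sum_apply, lp.coeFn_sub, lp.coeFn_smul,
    lp.coeFn_sum, Pi.sub_apply, Pi.smul_apply, Finset.sum_apply, ryR_apply, smul_eq_mul]
  ring

theorem ry_green (hS : Cay S) (hg : Gap S) {g : G → ℝ} (hf : SqSum g) :
    ∃ p : G → ℝ, SqSum p ∧ ∀ x, p x - avg S p x = g x := by
  obtain ⟨C, hC0, hC⟩ := hg
  have hc : (0 : ℝ) < S.card := by exact_mod_cast hS.card_pos
  set B : lp (fun _ : G => ℝ) 2 →L[ℝ] lp (fun _ : G => ℝ) 2 →L[ℝ] ℝ :=
    (innerSL ℝ).comp (ryL S) with hB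
  have hBa : ∀ p q, B p q = inner ℝ (ryL S p) q := fun _ _ => rfl
  have hco : IsCoercive B := by
    refine ⟨1 / (2 * S.card * (C + 1)), by positivity, fun p => ?_⟩
    have hp : SqSum p := ry_mem.1 (lp.memℓp p)
    have h1 := ry_parts hS hp.finEn hp
    have h2 : energy S p = 2 * S.card * B p p := by
      rw [hBa, ry_inner]
      simp only [ry_sum hS, mul_assoc, tsum_mul_left, ← sq] at h1
      simp only [ryL_apply]
      unfold energy grad2
      rw [h1]
      ring
    have h3 := hC p hp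
    rw [← ry_norm, h2] at h3
    have h4 : 0 ≤ 2 * S.card * B p p := h2 ▸ energy_nonneg p
    rw [mul_assoc, ← sq, one_div, inv_mul_le_iff₀ (by positivity)]
    nlinarith
  let g' : lp (fun _ : G => ℝ) 2 := ⟨g, ry_mem.2 hf⟩
  let p := hco.continuousLinearEquivOfBilin.symm g'
  have hp : ryL S p = g' := by
    refine ext_inner_right ℝ fun q => ?_
    rw [← hBa, ← hco.continuousLinearEquivOfBilin_apply, ContinuousLinearEquiv.apply_symm_apply]
  refine ⟨p, ry_mem.1 (lp.memℓp p), fun x => ?_⟩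
  rw [← ryL_apply, hp]

/-- Royden decomposition. -/
theorem Cay.royden (hS : Cay S) (hg : Gap S) {u : G → ℝ} (hu : FinEn S u) :
    ∃ p : G → ℝ, SqSum p ∧ Harm S (fun x => u x - p x) := by
  have hc : (1 : ℝ) ≤ S.card := by exact_mod_cast hS.card_pos
  have hf : SqSum fun x => u x - avg S u x := by
    refine Summable.of_nonneg_of_le (fun _ => sq_nonneg _) (fun x => ?_) hu
    have h1 := sq_sum_le_card_mul_sum_sq (s := S) (f := fun s => u (x * s) - u x)
    rw [ry_sum hS] at h1
    have h2 : (S.card : ℝ) * (S.card * (u x - avg S u x) ^ 2) ≤ S.card * grad2 S u x := by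
      unfold grad2
      nlinarith
    have h3 := le_of_mul_le_mul_left h2 (by linarith)
    nlinarith [sq_nonneg (u x - avg S u x)]
  obtain ⟨p, hp, hpe⟩ := ry_green hS hg hf
  refine ⟨p, hp, fun x => ?_⟩
  have h := hpe x
  unfold avg at h ⊢
  rw [Finset.sum_sub_distrib, sub_div]
  linarith

/-- Green operator. -/
theorem Cay.green (hS : Cay S) (hg : Gap S) {g : G → ℝ} (hf : SqSum g) :
    ∃ p : G → ℝ, SqSum p ∧ ∀ x, p x - avg S p x = g x := ry_green hS hg hf

end Vale.Agent.P239
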