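import Vale.Agent.P239.DFun
import Vale.Agent.P239.GoodSet

/-! Task NoCross: irreducible walls do not cross.
`generic_levels`: for each `y` let `I y` = set of `s` straddled by `a` on `y * ball r` (contained in the interval
`[a y - osc, a y + osc]`), `J y` the same for `b`; `∑ vol (I y ×ˢ J y) ≤ 4 ∑ osc a * osc b < ∞` (`osc_sq`, AM-GM); Borel-Cantelli
`ae_finite_setOf_mem` for `volume` on `ℝ × ℝ`; the square `(1/3,2/3)²` has positive measure.
`no_cross`: let `θa, θb` be the separating functions, `a = H θa`, `b = H θb`, `(s,t)` generic for radius `l+1`, `U = {s < a}`, `V = {t < b}`,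
`c x g = if x ∈ U then (1_V (x*g) - 1_V x) else 0`. If `y` does not straddle both, `U` or `V` membership is constant on `y * ball (l+1)` so `c`
is locally exact. Take `w` from `Cofill`, `Y = {x | Odd (w x)}`, `Y' = symmDiff Y V`. The four functions `indicator Y (s - a)^+`,
`indicator Y' (a - s)^+`, `indicator Y (t - b)^+`, `indicator Y (b - t)^+` have finite energy (`finEn_of_le` with `T = defect`: off the defect set, an edge on which
the set membership changes has an endpoint where the second factor vanishes; for the first: if `x ∉ U` then `c = 0` so parity is unchanged,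
if `x ∈ U` the factor vanishes at `x`; second: if `x ∈ U` the parity changes exactly with `V`, if `x ∉ U` the factor vanishes at `x`; third and fourth: if both
factors are nonzero both endpoints are on the same side of `V` so `c = 0`). Dividing by `s`, `1 - s`, `t`, `1 - t` their `hat`s are two-valued on `A0, A1, C0, C1`,
so membership in `hatSet Y` is a.e. constant on `A0`, `C0`, `C1`, and membership in `hatSet Y'` is a.e. constant on `A1`. On `C0` a.e. `ξ ∉ hatSet V`, on `C1` a.e. `ξ ∈ hatSet V`.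
If all four intersections are nonnull: the constants on `A0, C0, C1` agree (call it `α`), and on `A1 ∩ C0` the `Y'` constant is `α`, on `A1 ∩ C1` it is `¬ α`.
`Family.nested`: if four corners of `A, A'` are nonnull take the approximating sequences of `A, Aᶜ, A', A'ᶜ` (increasing a.e., so for one large `k` all four
intersections are nonnull), `Sep (b k) Aᶜ` gives `Sep (b k) (b' k)` by `Sep.mono` (`Sub (b' k) Aᶜ` from `Sep.null_inter`).
-/

noncomputable section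

open Classical MeasureTheory Filter Topology Set
open scoped Pointwise

namespace Vale.Agent.P239

universe u
variable {G : Type u} [Group G] {S : Finset G} {l : ℕ}

theorem generic_levels (hS : Cay S) (r : ℕ) {a b : G → ℝ} (ha : FinEn S a) (hb : FinEn S b) :
    ∃ s ∈ Ioo (1 / 3 : ℝ) (2 / 3), ∃ t ∈ Ioo (1 / 3 : ℝ) (2 / 3),
      {y | (∃ p ∈ ball S r, ∃ q ∈ ball S r, a (y * p) ≤ s ∧ s < a (y * q)) ∧
        (∃ p ∈ ball S r, ∃ q ∈ ball S r, b (y * p) ≤ t ∧ t < b (y * q))}.Finite := by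
  have := hS.countable
  obtain ⟨C, -, hC⟩ := osc_sq S r
  set E : G → Set (ℝ × ℝ) := fun y => Icc (a y - osc S r a y) (a y + osc S r a y) ×ˢ
    Icc (b y - osc S r b y) (b y + osc S r b y) with hE
  have h1 : ∑' y, volume (E y) ≠ ⊤ := by
    have h2 : Summable fun y => 2 * (osc S r a y ^ 2 + osc S r b y ^ 2) :=
      (Summable.add (hC a ha).1 (hC b hb).1).mul_left 2
    refine ne_top_of_le_ne_top h2.tsum_ofReal_ne_top (ENNReal.tsum_le_tsum fun y => ?_)
    have h3 := osc_nonneg (S := S) r a y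
    simp only [hE]
    rw [Measure.volume_eq_prod, Measure.prod_prod, Real.volume_Icc, Real.volume_Icc,
      ← ENNReal.ofReal_mul (by linarith)]
    refine ENNReal.ofReal_le_ofReal ?_
    nlinarith [sq_nonneg (osc S r a y - osc S r b y)]
  have h2 : volume (Ioo (1 / 3 : ℝ) (2 / 3) ×ˢ Ioo (1 / 3 : ℝ) (2 / 3)) ≠ 0 := by
    rw [Measure.volume_eq_prod, Measure.prod_prod, Real.volume_Ioo]
    norm_num
  obtain ⟨z, hz, hfin⟩ := Measure.exists_mem_of_measure_ne_zero_of_ae h2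
    (ae_restrict_of_ae (ae_finite_setOfPred_mem h1))
  refine ⟨z.1, hz.1, z.2, hz.2, hfin.subset ?_⟩
  have key : ∀ (F : G → ℝ) (y : G) (s : ℝ),
      (∃ p ∈ ball S r, ∃ q ∈ ball S r, F (y * p) ≤ s ∧ s < F (y * q)) →
        s ∈ Icc (F y - osc S r F y) (F y + osc S r F y) := by
    rintro F y s ⟨p, hp, q, hq, h3, h4⟩
    have h5 := abs_le.1 (abs_sub_le_osc F y hp (one_mem_ball r))
    have h6 := abs_le.1 (abs_sub_le_osc F y hq (one_mem_ball r))
    rw [mul_one] at h5 h6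
    constructor <;> linarith [h5.1, h6.2]
  exact fun y hy => ⟨key a y _ hy.1, key b y _ hy.2⟩

theorem nocross_finEn {F : G → ℝ} (hb : Bdd F) (hF : FinEn S F) (Y : Set G) {T : Set (G × G)}
    (hT : T.Finite)
    (h : ∀ x, ∀ s ∈ S, (x, s) ∉ T → ¬ (x ∈ Y ↔ x * s ∈ Y) → F x = 0 ∨ F (x * s) = 0) :
    FinEn S (Y.indicator F) := by
  obtain ⟨C, hC⟩ := hb
  have h1 : ∀ x, |Y.indicator F x| ≤ C := fun x => by
    by_cases hx : x ∈ Y
    · rw [indicator_of_mem hx]; exact hC x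
    · rw [indicator_of_notMem hx, abs_zero]; exact (abs_nonneg _).trans (hC x)
  refine (finEn_of_le hF hF (L := 1) (M := C + C) zero_le_one hT
    (fun e _ => (abs_sub _ _).trans (add_le_add (h1 _) (h1 _))) fun x s hs hx => ?_).1
  rw [one_mul]
  refine le_trans ?_ (le_add_of_nonneg_right (abs_nonneg _))
  by_cases h2 : x ∈ Y <;> by_cases h3 : x * s ∈ Y
  · rw [indicator_of_mem h2, indicator_of_mem h3]
  · rw [indicator_of_mem h2, indicator_of_notMem h3]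
    rcases h x s hs hx (fun h => h3 (h.1 h2)) with h4 | h4 <;> simp [h4]
  · rw [indicator_of_notMem h2, indicator_of_mem h3]
    rcases h x s hs hx (fun h => h2 (h.2 h3)) with h4 | h4 <;> simp [h4]
  · rw [indicator_of_notMem h2, indicator_of_notMem h3]
    simp

theorem nocross_w (hco : Cofill S l) {a b : G → ℝ} {s t : ℝ}
    (hfin : {y | (∃ p ∈ ball S (l + 1), ∃ q ∈ ball S (l + 1), a (y * p) ≤ s ∧ s < a (y * q)) ∧
      (∃ p ∈ ball S (l + 1), ∃ q ∈ ball S (l + 1), b (y * p) ≤ t ∧ t < b (y * q))}.Finite) :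
    ∃ (Y Y' : Set G) (T : Set (G × G)), T.Finite ∧
      (∀ x, ∀ g ∈ S, (x, g) ∉ T → ¬ (x ∈ Y ↔ x * g ∈ Y) → s < a x ∧ ¬ (t < b (x * g) ↔ t < b x)) ∧
      (∀ x, ∀ g ∈ S, (x, g) ∉ T → ¬ (x ∈ Y' ↔ x * g ∈ Y') → a x ≤ s) ∧
      (∀ x, ¬ t < b x → (x ∈ Y' ↔ x ∈ Y)) ∧ (∀ x, t < b x → (x ∈ Y' ↔ x ∉ Y)) := by
  obtain ⟨iV, hiV⟩ : ∃ iV : G → ℤ, ∀ x, iV x = if t < b x then 1 else 0 := ⟨_, fun _ => rfl⟩
  obtain ⟨c, hc⟩ : ∃ c : G → G → ℤ, ∀ x g, c x g = if s < a x then iV (x * g) - iV x else 0 :=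
    ⟨_, fun _ _ => rfl⟩
  have hc1 : ∀ x g, |c x g| ≤ 1 := by
    intro x g
    simp only [hc, hiV]
    split_ifs <;> simp
  have hc2 : {y | ¬ LocExact S l c y}.Finite := by
    refine hfin.subset fun y hy => ?_
    by_contra hn
    refine hy ?_
    have hm : ∀ p ∈ ball S l, ∀ g ∈ S, p * g ∈ ball S (l + 1) := fun p hp g hg =>
      mul_mem_ball hp (mem_ball_one hg)
    have hm' : ∀ p ∈ ball S l, p ∈ ball S (l + 1) := fun p hp => ball_mono (Nat.le_succ l) hp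
    rcases not_and_or.1 hn with h | h
    · by_cases hy1 : s < a (y * 1)
      · refine ⟨iV, fun p hp g _ => (hc _ _).trans (if_pos ?_)⟩
        by_contra h1
        exact h ⟨p, hm' p hp, 1, one_mem_ball _, not_lt.1 h1, hy1⟩
      · refine ⟨fun _ => 0, fun p hp g _ => ?_⟩
        rw [sub_self, hc]
        exact if_neg fun h1 => h ⟨1, one_mem_ball _, p, hm' p hp, not_lt.1 hy1, h1⟩
    · refine ⟨fun _ => 0, fun p hp g hg => ?_⟩
      have h1 : t < b (y * p * g) ↔ t < b (y * p) := by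
        rw [mul_assoc]
        constructor
        · intro h1
          by_contra h2
          exact h ⟨p, hm' p hp, p * g, hm p hp g hg, not_lt.1 h2, h1⟩
        · intro h1
          by_contra h2
          exact h ⟨p * g, hm p hp g hg, p, hm' p hp, not_lt.1 h2, h1⟩
      simp [hc, hiV, h1]
  obtain ⟨_, _, -, -, -, hco⟩ := hco
  obtain ⟨w, hw, -⟩ := hco c hc1 hc2
  have hdef : ∀ x, ∀ g ∈ S, (x, g) ∉ defect S c w → w (x * g) = w x + c x g := by
    intro x g hg hx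
    by_contra h
    exact hx ⟨hg, fun h1 => h (by simp only at h1; linarith)⟩
  refine ⟨{x | Odd (w x)}, {x | Odd (w x - iV x)}, defect S c w, hw, fun x g hg hx h => ?_,
    fun x g hg hx h => ?_, fun x hx => ?_, fun x hx => ?_⟩
  · have h1 : c x g ≠ 0 := fun h1 => h (by simp only [mem_ofPred_eq, hdef x g hg hx, h1, add_zero])
    refine ⟨by_contra fun h2 => h1 ((hc _ _).trans (if_neg h2)), fun h2 => h1 ?_⟩
    simp [hc, hiV, h2]
  · by_contra h2
    refine h ?_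
    have h3 : c x g = iV (x * g) - iV x := (hc _ _).trans (if_pos (not_le.1 h2))
    have h4 : w (x * g) - iV (x * g) = w x - iV x := by rw [hdef x g hg hx, h3]; ring
    simp only [mem_ofPred_eq, h4]
  · simp [hiV, hx]
  · simp only [mem_ofPred_eq, hiV, hx, if_true, Int.odd_iff]
    omega

namespace Bdry
variable {B : Bdry S}

theorem nocross_const {A : Set (Bd G)} (hA : B.Irr A) {a : G → ℝ} (hb : Bdd a) (ha : FinEn S a)
    {φ : ℝ → ℝ} (hc : Continuous φ) (hφ : ∀ p q, |φ p - φ q| ≤ |p - q|) (Y : Set G)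
    {T : Set (G × G)} (hT : T.Finite)
    (h : ∀ x, ∀ s ∈ S, (x, s) ∉ T → ¬ (x ∈ Y ↔ x * s ∈ Y) → φ (a x) = 0 ∨ φ (a (x * s)) = 0)
    {c : ℝ} (hc0 : c ≠ 0) (hv : ∀ᵐ ξ ∂B.μ 1, ξ ∈ A → φ (hat a ξ) = c) :
    ∃ α : Prop, ∀ᵐ ξ ∂B.μ 1, ξ ∈ A → (ξ ∈ hatSet Y ↔ α) := by
  have hc2 : Continuous fun p : ℝ × ℝ => (fun u _ : ℝ => φ u) p.1 p.2 := hc.comp continuous_fst
  have h1 : Bdd fun x => φ (a x) := Bdd.comp₂ (F := fun u _ => φ u) hb hb hc2
  have h2 : FinEn S fun x => φ (a x) := by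
    refine (finEn_of_le ha ha (L := 1) (M := 0) zero_le_one Set.finite_empty
      (fun e he => absurd he (Set.notMem_empty e)) fun x s _ _ => ?_).1
    rw [one_mul]
    exact (hφ _ _).trans (le_add_of_nonneg_right (abs_nonneg _))
  have h3 : ∀ ξ, hat (fun x => φ (a x)) ξ = φ (hat a ξ) := fun ξ =>
    hat_comp₂ (F := fun u _ => φ u) hb hb hc2 ξ
  have h4 : Bdd (Y.indicator fun x => φ (a x)) := by
    obtain ⟨C, hC⟩ := h1
    refine ⟨C, fun x => ?_⟩
    by_cases hx : x ∈ Y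
    · rw [indicator_of_mem hx]; exact hC x
    · rw [indicator_of_notMem hx, abs_zero]; exact (abs_nonneg _).trans (hC x)
  have h5 := (isD_hat (B := B) h4 (nocross_finEn h1 h2 Y hT h)).const_mul c⁻¹
  have h6 : ∀ᵐ ξ ∂B.μ 1, ξ ∈ A →
      (ξ ∈ hatSet Y → c⁻¹ * hat (Y.indicator fun x => φ (a x)) ξ = 1) ∧
      (ξ ∉ hatSet Y → c⁻¹ * hat (Y.indicator fun x => φ (a x)) ξ = 0) := by
    filter_upwards [hv] with ξ hξ hA
    rw [hat_indicator Y h1]
    refine ⟨fun hY => ?_, fun hY => ?_⟩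
    · rw [indicator_of_mem hY, h3, hξ hA, inv_mul_cancel₀ hc0]
    · rw [indicator_of_notMem hY, mul_zero]
  rcases hA _ h5 (h6.mono fun ξ hξ hA => by
    by_cases hY : ξ ∈ hatSet Y
    · exact Or.inr ((hξ hA).1 hY)
    · exact Or.inl ((hξ hA).2 hY)) with h7 | h7
  · refine ⟨False, ?_⟩
    filter_upwards [h6, h7] with ξ h8 h9 hA
    refine ⟨fun hY => ?_, False.elim⟩
    have h10 := (h8 hA).1 hY
    rw [h9 hA] at h10
    exact zero_ne_one h10
  · refine ⟨True, ?_⟩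
    filter_upwards [h6, h7] with ξ h8 h9 hA
    refine ⟨fun _ => trivial, fun _ => ?_⟩
    by_contra hY
    have h10 := (h8 hA).2 hY
    rw [h9 hA] at h10
    exact one_ne_zero h10

theorem nocross_exists {A : Set (Bd G)} (hA : ¬ B.Null A) {P : Bd G → Prop}
    (hP : ∀ᵐ ξ ∂B.μ 1, P ξ) : ∃ ξ ∈ A, P ξ := by
  by_contra h
  exact hA ((B.null_iff_ae A).2 (hP.mono fun ξ hξ hA => h ⟨ξ, hA, hξ⟩))

theorem no_cross (hH : Hyp S l) {A0 A1 C0 C1 : Set (Bd G)} (hA0 : B.Irr A0) (hA1 : B.Irr A1)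
    (hC0 : B.Irr C0) (hC1 : B.Irr C1) (hA : B.Sep A0 A1) (hC : B.Sep C0 C1) :
    B.Null (A0 ∩ C0) ∨ B.Null (A0 ∩ C1) ∨ B.Null (A1 ∩ C0) ∨ B.Null (A1 ∩ C1) := by
  obtain ⟨θa, ⟨hθa, -⟩, ha0, ha1⟩ := hA
  obtain ⟨θb, ⟨hθb, -⟩, hb0, hb1⟩ := hC
  have hab : Bdd (B.H θa) := B.H_bdd hθa.2.1
  have hbb : Bdd (B.H θb) := B.H_bdd hθb.2.1
  have hae := hθa.finEn hH.cay hH.gap
  have hbe := hθb.finEn hH.cay hH.gap
  have hah := hθa.hat_H hH.cay hH.gap
  have hbh := hθb.hat_H hH.cay hH.gap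
  generalize B.H θa = a at hab hae hah
  generalize B.H θb = b at hbb hbe hbh
  obtain ⟨s, hs, t, ht, hfin⟩ := generic_levels hH.cay (l + 1) hae hbe
  obtain ⟨Y, Y', T, hT, hY, hY', hV, hV'⟩ := nocross_w hH.cofill hfin
  have l1 : ∀ (u p q : ℝ), |max (u - p) 0 - max (u - q) 0| ≤ |p - q| := fun u p q =>
    (abs_max_sub_max_le_abs _ _ _).trans (le_of_eq (by rw [sub_sub_sub_cancel_left, abs_sub_comm]))
  have l2 : ∀ (u p q : ℝ), |max (p - u) 0 - max (q - u) 0| ≤ |p - q| := fun u p q =>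
    (abs_max_sub_max_le_abs _ _ _).trans (le_of_eq (by rw [sub_sub_sub_cancel_right]))
  obtain ⟨α0, h0⟩ := nocross_const hA0 hab hae (φ := fun p => max (s - p) 0) (by fun_prop) (l1 s)
    Y hT
    (fun x g hg hx h => Or.inl (max_eq_right (by linarith [(hY x g hg hx h).1])))
    (c := s) (by linarith [hs.1]) (by
      filter_upwards [hah, ha0] with ξ h1 h2 h3
      rw [h1, h2 h3, sub_zero, max_eq_left (by linarith [hs.1])])
  obtain ⟨α1, h1⟩ := nocross_const hA1 hab hae (φ := fun p => max (p - s) 0) (by fun_prop) (l2 s)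
    Y' hT
    (fun x g hg hx h => Or.inl (max_eq_right (by linarith [hY' x g hg hx h])))
    (c := 1 - s) (by linarith [hs.2]) (by
      filter_upwards [hah, ha1] with ξ h1 h2 h3
      rw [h1, h2 h3, max_eq_left (by linarith [hs.2])])
  obtain ⟨γ0, h2⟩ := nocross_const hC0 hbb hbe (φ := fun p => max (t - p) 0) (by fun_prop) (l1 t)
    Y hT
    (fun x g hg hx h => by
      have h2 := (hY x g hg hx h).2
      by_cases h3 : t < b x
      · exact Or.inl (max_eq_right (by linarith))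
      · have h4 : t < b (x * g) := by_contra fun h4 => h2 (iff_of_false h4 h3)
        exact Or.inr (max_eq_right (by linarith)))
    (c := t) (by linarith [ht.1]) (by
      filter_upwards [hbh, hb0] with ξ h1 h2 h3
      rw [h1, h2 h3, sub_zero, max_eq_left (by linarith [ht.1])])
  obtain ⟨γ1, h3⟩ := nocross_const hC1 hbb hbe (φ := fun p => max (p - t) 0) (by fun_prop) (l2 t)
    Y hT
    (fun x g hg hx h => by
      have h2 := (hY x g hg hx h).2
      by_cases h3 : t < b x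
      · have h4 : ¬ t < b (x * g) := fun h4 => h2 (iff_of_true h4 h3)
        exact Or.inr (max_eq_right (by linarith [not_lt.1 h4]))
      · exact Or.inl (max_eq_right (by linarith [not_lt.1 h3])))
    (c := 1 - t) (by linarith [ht.2]) (by
      filter_upwards [hbh, hb1] with ξ h1 h2 h3
      rw [h1, h2 h3, max_eq_left (by linarith [ht.2])])
  have h4 : ∀ᵐ ξ ∂B.μ 1, ξ ∈ C0 →
      (ξ ∈ hatSet Y' ↔ ξ ∈ hatSet Y) := by
    filter_upwards [hbh, hb0] with ξ h5 h6 h7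
    have h8 := not_mem_hatSet_of_lt hbb (t := t) (ξ := ξ) (by rw [h5, h6 h7]; linarith [ht.1])
    have h9 : ∀ᶠ x in (ξ.uf : Filter G), ¬ t < b x := Ultrafilter.compl_mem_iff_notMem.2 h8
    exact Filter.eventually_congr (f := (ξ.uf : Filter G)) (p := fun x => x ∈ Y')
      (q := fun x => x ∈ Y) (h9.mono hV)
  have h5 : ∀ᵐ ξ ∂B.μ 1, ξ ∈ C1 →
      (ξ ∈ hatSet Y' ↔ ξ ∉ hatSet Y) := by
    filter_upwards [hbh, hb1] with ξ h5 h6 h7
    have h8 := mem_hatSet_of_lt hbb (t := t) (ξ := ξ) (by rw [h5, h6 h7]; linarith [ht.2])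
    have h9 : ∀ᶠ x in (ξ.uf : Filter G), t < b x := h8
    exact (Filter.eventually_congr (f := (ξ.uf : Filter G)) (p := fun x => x ∈ Y')
      (q := fun x => x ∉ Y) (h9.mono hV')).trans
        (Ultrafilter.compl_mem_iff_notMem (f := ξ.uf) (s := Y))
  by_contra hcon
  simp only [not_or] at hcon
  obtain ⟨n1, n2, n3, n4⟩ := hcon
  obtain ⟨ξ1, ⟨m1, m1'⟩, p1, p1'⟩ := nocross_exists n1 (h0.and h2)
  obtain ⟨ξ2, ⟨m2, m2'⟩, p2, p2'⟩ := nocross_exists n2 (h0.and h3)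
  obtain ⟨ξ3, ⟨m3, m3'⟩, ⟨p3, p3'⟩, q3⟩ := nocross_exists n3 ((h1.and h2).and h4)
  obtain ⟨ξ4, ⟨m4, m4'⟩, ⟨p4, p4'⟩, q4⟩ := nocross_exists n4 ((h1.and h3).and h5)
  have e1 : α0 ↔ γ0 := (p1 m1).symm.trans (p1' m1')
  have e2 : α0 ↔ γ1 := (p2 m2).symm.trans (p2' m2')
  have e3 : α1 ↔ γ0 := (p3 m3).symm.trans ((q3 m3').trans (p3' m3'))
  have e4 : α1 ↔ ¬ γ1 := (p4 m4).symm.trans ((q4 m4').trans (not_congr (p4' m4')))
  exact iff_not_self (e2.symm.trans (e1.trans (e3.symm.trans e4)))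

theorem nocross_approx {A A' : Set (Bd G)} {b d : ℕ → Set (Bd G)}
    (hb : ∀ k, B.Sub (b k) (b (k + 1))) (hd : ∀ k, B.Sub (d k) (d (k + 1)))
    (hA : B.Sub A (⋃ k, b k)) (hA' : B.Sub A' (⋃ k, d k)) (h : ¬ B.Null (A ∩ A')) :
    ∀ᶠ k in atTop, ¬ B.Null (b k ∩ d k) := by
  have h1 : ∀ᵐ ξ ∂B.μ 1, ∀ k, ξ ∈ b k → ξ ∈ b (k + 1) :=
    ae_all_iff.2 fun k => (B.sub_iff _ _).1 (hb k)
  have h2 : ∀ᵐ ξ ∂B.μ 1, ∀ k, ξ ∈ d k → ξ ∈ d (k + 1) :=
    ae_all_iff.2 fun k => (B.sub_iff _ _).1 (hd k)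
  have h3 : ∀ (e : ℕ → Set (Bd G)) (ξ : Bd G), (∀ k, ξ ∈ e k → ξ ∈ e (k + 1)) →
      ∀ i j, i ≤ j → ξ ∈ e i → ξ ∈ e j := by
    intro e ξ he i j hij hi
    induction hij with
    | refl => exact hi
    | step _ ih => exact he _ ih
  have h4 : ∃ k, ¬ B.Null (b k ∩ d k) := by
    by_contra h4
    push Not at h4
    have h5 : ∀ᵐ ξ ∂B.μ 1, ∀ k, ξ ∉ b k ∩ d k :=
      ae_all_iff.2 fun k => (B.null_iff_ae _).1 (h4 k)
    refine h ((B.null_iff_ae _).2 ?_)
    filter_upwards [h1, h2, h5, (B.sub_iff _ _).1 hA, (B.sub_iff _ _).1 hA'] with ξ p1 p2 p3 p4 p5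
    rintro ⟨q1, q2⟩
    obtain ⟨i, hi⟩ := mem_iUnion.1 (p4 q1)
    obtain ⟨j, hj⟩ := mem_iUnion.1 (p5 q2)
    exact p3 (max i j) ⟨h3 b ξ p1 _ _ (le_max_left _ _) hi, h3 d ξ p2 _ _ (le_max_right _ _) hj⟩
  obtain ⟨k, hk⟩ := h4
  filter_upwards [eventually_ge_atTop k] with n hn h5
  refine hk ((B.null_iff_ae _).2 ?_)
  filter_upwards [h1, h2, (B.null_iff_ae _).1 h5] with ξ p1 p2 p3
  rintro ⟨q1, q2⟩
  exact p3 ⟨h3 b ξ p1 _ _ hn q1, h3 d ξ p2 _ _ hn q2⟩

theorem Family.nested (hH : Hyp S l) (Φ : B.Family) {A A' : Set (Bd G)} (hA : A ∈ Φ.𝓗)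
    (hA' : A' ∈ Φ.𝓗) : B.Nested A A' := by
  by_contra hcon
  unfold Nested at hcon
  simp only [not_or] at hcon
  obtain ⟨n1, n2, n3, n4⟩ := hcon
  obtain ⟨b, b1, b2, b3, b4⟩ := Φ.approx A hA
  obtain ⟨b', b1', b2', b3', b4'⟩ := Φ.approx Aᶜ (Φ.compl A hA)
  obtain ⟨d, d1, d2, d3, d4⟩ := Φ.approx A' hA'
  obtain ⟨d', d1', d2', d3', d4'⟩ := Φ.approx A'ᶜ (Φ.compl A' hA')
  obtain ⟨k, ⟨k1, k2⟩, k3, k4⟩ := (((nocross_approx b2 d2 b4 d4 n1).and
    (nocross_approx b2 d2' b4 d4' n2)).and ((nocross_approx b2' d2 b4' d4 n3).and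
    (nocross_approx b2' d2' b4' d4' n4))).exists
  have s1 : B.Sep (b k) (b' k) := (b3 k).mono (Sub.refl _) (b3' k).null_inter
  have s2 : B.Sep (d k) (d' k) := (d3 k).mono (Sub.refl _) (d3' k).null_inter
  rcases no_cross hH (Φ.irr _ (b1 k)) (Φ.irr _ (b1' k)) (Φ.irr _ (d1 k)) (Φ.irr _ (d1' k)) s1 s2
    with h | h | h | h
  exacts [k1 h, k2 h, k3 h, k4 h]

end Bdry

end Vale.Agent.P239
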