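import Vale.Agent.P239.NoCross

/-! Task LimA: slabs, compactness of nested families, limit triples.
`exists_slab`: take the nontrivial `A`, sequences `b` for `A` and `b'` for `Aᶜ`, shift the index so that `b 0`, `b' 0` are nonnull; `(b n ∪ b' n)ᶜ` decreases a.e. to a null set.
`exists_subseq`: apply `exists_increasing_or_nonincreasing_subseq` to the transitive relation `Sub`; in the first case the limit is the union (`good_iUnion`). Otherwise apply it again to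
the reversed relation (limit: intersection). Otherwise all pairs `i < j` satisfy `Null (A i ∩ A j) ∨ Null ((A i)ᶜ ∩ (A j)ᶜ)`, so the measurable sets `A i ×ˢ (A i)ᶜ` are pairwise
a.e. disjoint for `(μ 1).prod (μ 1)` and have measure `≥ ε²`: impossible (`measure_iUnion₀` / finite sums bounded by `1`).
`Slab.exists_LT`: apply `exists_subseq` twice. `Vis` passes to the limit (`abs_h_sub_le`); `L ∩ R` is null since `a n ∩ c n` is (`Sep.null_inter`, `null_smul`);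
`h_compl_union`. Note `B.h ((x k)⁻¹ • A) 1 = B.h A (x k)` by `h_smul`.
`LT.smul`: use `x k * g⁻¹`, `tendsto_μ`, `μ_smul`.
-/

noncomputable section

open Classical MeasureTheory Filter Topology Set
open scoped Pointwise

namespace Vale.Agent.P239

universe u
variable {G : Type u} [Group G] {S : Finset G} {l : ℕ}

namespace Bdry
variable {B : Bdry S}

theorem limA_mono {X : Type*} [MeasurableSpace X] (μ : Measure X) [IsFiniteMeasure μ]
    {A : ℕ → Set X} (hm : ∀ k, MeasurableSet (A k)) (h : ∀ i j, i < j → μ (A i \ A j) = 0) :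
    Tendsto (fun k => μ (symmDiff (A k) (⋃ i, A i))) atTop (𝓝 0) := by
  have hE : ∀ k, MeasurableSet (⋃ i ≤ k, A i) := fun k =>
    MeasurableSet.biUnion (to_countable _) fun i _ => hm i
  have h1 := tendsto_measure_iInter_atTop (μ := μ) (s := fun k => (⋃ i, A i) \ ⋃ i ≤ k, A i)
    (fun k => ((MeasurableSet.iUnion hm).diff (hE k)).nullMeasurableSet)
    (fun i j hij => sdiff_subset_sdiff_right (biUnion_subset_biUnion_left fun k hk => le_trans hk hij))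
    ⟨0, measure_ne_top _ _⟩
  have h2 : ⋂ k, ((⋃ i, A i) \ ⋃ i ≤ k, A i) = ∅ := by
    refine eq_empty_of_forall_notMem fun x hx => ?_
    obtain ⟨i, hi⟩ := mem_iUnion.1 (mem_iInter.1 hx 0).1
    exact (mem_iInter.1 hx i).2 (mem_iUnion₂.2 ⟨i, le_rfl, hi⟩)
  rw [h2, measure_empty] at h1
  refine tendsto_of_tendsto_of_tendsto_of_le_of_le tendsto_const_nhds h1 (fun _ => zero_le)
    fun k => ?_
  have h3 : μ (⋃ i < k, A i \ A k) = 0 :=
    (measure_biUnion_null_iff (to_countable _)).2 fun i hi => h i k hi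
  have h4 : symmDiff (A k) (⋃ i, A i) ⊆ ((⋃ i, A i) \ ⋃ i ≤ k, A i) ∪ ⋃ i < k, A i \ A k := by
    rintro x (hx | hx)
    · exact absurd (mem_iUnion.2 ⟨k, hx.1⟩) hx.2
    · by_cases h5 : x ∈ ⋃ i ≤ k, A i
      · obtain ⟨i, hi, h6⟩ := mem_iUnion₂.1 h5
        refine Or.inr (mem_iUnion₂.2 ⟨i, lt_of_le_of_ne hi ?_, h6, hx.2⟩)
        rintro rfl
        exact hx.2 h6
      · exact Or.inl ⟨hx.1, h5⟩
  exact (measure_mono h4).trans ((measure_union_le _ _).trans (by rw [h3, add_zero]; rfl))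

theorem limA_disj {X : Type*} [MeasurableSpace X] (μ : Measure X) [IsProbabilityMeasure μ]
    {A : ℕ → Set X} (hm : ∀ k, MeasurableSet (A k)) {ε : ℝ} (hε : 0 < ε)
    (h : ∀ k, ε ≤ μ.real (A k) ∧ ε ≤ μ.real (A k)ᶜ)
    (hd : ∀ i j, i < j → μ (A i ∩ A j) = 0 ∨ μ ((A i)ᶜ ∩ (A j)ᶜ) = 0) : False := by
  have h1 : ∀ i j, i < j → AEDisjoint (μ.prod μ) (A i ×ˢ (A i)ᶜ) (A j ×ˢ (A j)ᶜ) := by
    intro i j hij
    rw [AEDisjoint, prod_inter_prod, Measure.prod_prod, mul_eq_zero]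
    exact hd i j hij
  have h2 := measure_iUnion₀ (μ := μ.prod μ) (f := fun i => A i ×ˢ (A i)ᶜ)
    (fun i j hij => by
      rcases lt_or_gt_of_ne hij with h3 | h3
      · exact h1 i j h3
      · exact (h1 j i h3).symm)
    (fun i => ((hm i).prod (hm i).compl).nullMeasurableSet)
  have h3 := ENNReal.tendsto_atTop_zero_of_tsum_ne_top (h2 ▸ measure_ne_top (μ.prod μ) _)
  have h4 : ENNReal.ofReal ε * ENNReal.ofReal ε ≤ 0 := by
    refine ge_of_tendsto' h3 fun k => ?_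
    rw [Measure.prod_prod]
    exact mul_le_mul' (ENNReal.ofReal_le_of_le_toReal (h k).1)
      (ENNReal.ofReal_le_of_le_toReal (h k).2)
  have h5 : ENNReal.ofReal ε ≠ 0 := by simpa using hε
  exact mul_ne_zero h5 h5 (le_zero_iff.1 h4)

theorem limA_null {X : Type*} [MeasurableSpace X] (μ : Measure X) {A C : ℕ → Set X} {L R : Set X}
    (h : ∀ k, μ (A k ∩ C k) = 0) (h1 : Tendsto (fun k => μ (symmDiff (A k) L)) atTop (𝓝 0))
    (h2 : Tendsto (fun k => μ (symmDiff (C k) R)) atTop (𝓝 0)) : μ (L ∩ R) = 0 := by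
  have h3 := h1.add h2
  rw [add_zero] at h3
  refine le_zero_iff.1 (ge_of_tendsto' h3 fun k => ?_)
  have h4 : L ∩ R ⊆ (A k ∩ C k) ∪ (symmDiff (A k) L ∪ symmDiff (C k) R) := by
    intro x hx
    by_cases h5 : x ∈ A k
    · by_cases h6 : x ∈ C k
      · exact Or.inl ⟨h5, h6⟩
      · exact Or.inr (Or.inr (Or.inr ⟨hx.2, h6⟩))
    · exact Or.inr (Or.inl (Or.inr ⟨hx.1, h5⟩))
  refine (measure_mono h4).trans ((measure_union_le _ _).trans ?_)
  rw [h k, zero_add]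
  exact measure_union_le _ _

theorem limA_chain {b : ℕ → Set (Bd G)} (h : ∀ k, B.Sub (b k) (b (k + 1))) {i j : ℕ} (hij : i ≤ j) :
    B.Sub (b i) (b j) := by
  induction j, hij using Nat.le_induction with
  | base => exact Sub.refl _
  | succ j _ ih => exact ih.trans (h j)

theorem limA_pos {A : Set (Bd G)} {b : ℕ → Set (Bd G)} (hA : ¬ B.Null A) (h : B.Sub A (⋃ k, b k)) :
    ∃ k, ¬ B.Null (b k) := by
  by_contra h1
  push Not at h1
  exact hA (Null.of_sub (A' := ⋃ k, b k) (measure_iUnion_null h1) h)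

theorem limA_h {A : ℕ → Set (Bd G)} {L : Set (Bd G)}
    (h : Tendsto (fun k => B.μ 1 (symmDiff (A k) L)) atTop (𝓝 0)) :
    Tendsto (fun k => B.h (A k) 1) atTop (𝓝 (B.h L 1)) := by
  have h1 := (ENNReal.tendsto_toReal ENNReal.zero_ne_top).comp h
  rw [tendsto_iff_norm_sub_tendsto_zero]
  exact squeeze_zero (fun _ => norm_nonneg _) (fun k => B.abs_h_sub_le (A k) L 1) h1

theorem limA_inv (x : G) (A : Set (Bd G)) : B.h (x⁻¹ • A) 1 = B.h A x := by
  rw [← B.h_smul x⁻¹ x A, inv_mul_cancel]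

theorem limA_not_null {A : Set (Bd G)} {ε : ℝ} (hε : 0 < ε) (h : ε ≤ B.h A 1) : ¬ B.Null A := by
  intro h1
  have h2 : B.h A 1 = 0 := by
    rw [Bdry.h, Measure.real, h1, ENNReal.toReal_zero]
  linarith

theorem Family.exists_slab (hH : Hyp S l) (Φ : B.Family) : Nonempty (B.Slab Φ) := by
  obtain ⟨A, hA, h0, h1⟩ := Φ.nontriv
  obtain ⟨b, hb1, hb2, hb3, hb4⟩ := Φ.approx A hA
  obtain ⟨c, hc1, hc2, hc3, hc4⟩ := Φ.approx Aᶜ (Φ.compl A hA)
  obtain ⟨i, hi⟩ := limA_pos h0 hb4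
  obtain ⟨j, hj⟩ := limA_pos h1 hc4
  have h2 := limA_mono (B.μ 1) (A := fun k => b k ∪ c k)
    (fun k => (Φ.good _ (hb1 k)).1.union (Φ.good _ (hc1 k)).1) fun i j hij => by
      refine (B.sub_iff _ _).2 ?_
      filter_upwards [(B.sub_iff _ _).1 (limA_chain hb2 hij.le),
        (B.sub_iff _ _).1 (limA_chain hc2 hij.le)] with ξ h3 h4 h5
      exact h5.imp h3 h4
  have h3 : B.Null (⋃ k, b k ∪ c k)ᶜ := by
    refine (B.null_iff_ae _).2 ?_
    filter_upwards [(B.sub_iff _ _).1 hb4, (B.sub_iff _ _).1 hc4] with ξ h3 h4 h5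
    by_cases h6 : ξ ∈ A
    · obtain ⟨k, hk⟩ := mem_iUnion.1 (h3 h6)
      exact h5 (mem_iUnion.2 ⟨k, Or.inl hk⟩)
    · obtain ⟨k, hk⟩ := mem_iUnion.1 (h4 h6)
      exact h5 (mem_iUnion.2 ⟨k, Or.inr hk⟩)
  refine ⟨⟨fun n => b (n + (i + j)), fun n => c (n + (i + j)), fun n => hb1 _, fun n => hc1 _,
    fun n => limA_chain hb2 (by omega), fun n => limA_chain hc2 (by omega),
    fun h => hi (h.of_sub (limA_chain hb2 (by omega))),
    fun h => hj (h.of_sub (limA_chain hc2 (by omega))),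
    fun n => (hb3 _).mono (Sub.refl _) (hc3 _).null_inter, ?_⟩⟩
  refine tendsto_of_tendsto_of_tendsto_of_le_of_le tendsto_const_nhds
    (h2.comp (tendsto_add_atTop_nat (i + j))) (fun _ => zero_le) fun n => ?_
  have h4 : (b (n + (i + j)) ∪ c (n + (i + j)))ᶜ ⊆
      symmDiff (b (n + (i + j)) ∪ c (n + (i + j))) (⋃ k, b k ∪ c k) ∪ (⋃ k, b k ∪ c k)ᶜ := by
    intro ξ h5
    by_cases h6 : ξ ∈ ⋃ k, b k ∪ c k
    · exact Or.inl (Or.inr ⟨h6, h5⟩)
    · exact Or.inr h6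
  refine (measure_mono h4).trans ((measure_union_le _ _).trans ?_)
  rw [h3, add_zero]
  rfl

theorem Family.exists_subseq (hH : Hyp S l) (Φ : B.Family) {A : ℕ → Set (Bd G)}
    (hA : ∀ k, A k ∈ Φ.𝓗) {ε : ℝ} (hε : 0 < ε) (h : ∀ k, ε ≤ B.h (A k) 1 ∧ ε ≤ B.h (A k)ᶜ 1) :
    ∃ (φ : ℕ → ℕ) (L : Set (Bd G)), StrictMono φ ∧ B.Good L ∧
      Tendsto (fun k => B.μ 1 (symmDiff (A (φ k)) L)) atTop (𝓝 0) := by
  have hg : ∀ k, B.Good (A k) := fun k => Φ.good _ (hA k)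
  have : IsTrans (Set (Bd G)) B.Sub := ⟨fun _ _ _ => Sub.trans⟩
  obtain ⟨g, hg1 | hg1⟩ := exists_increasing_or_nonincreasing_subseq B.Sub A
  · exact ⟨g, ⋃ k, A (g k), g.strictMono, good_iUnion hH.cay fun k => hg _,
      limA_mono (B.μ 1) (A := fun k => A (g k)) (fun k => (hg _).1) hg1⟩
  obtain ⟨g', hg2 | hg2⟩ := exists_increasing_or_nonincreasing_subseq B.Sub fun k => (A (g k))ᶜ
  · refine ⟨fun k => g (g' k), (⋃ k, (A (g (g' k)))ᶜ)ᶜ, g.strictMono.comp g'.strictMono,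
      (good_iUnion hH.cay fun k => (hg _).compl).compl, ?_⟩
    have h1 := limA_mono (B.μ 1) (A := fun k => (A (g (g' k)))ᶜ) (fun k => (hg _).1.compl) hg2
    refine h1.congr fun k => ?_
    rw [← compl_symmDiff_compl, compl_compl]
  refine (limA_disj (B.μ 1) (A := fun k => A (g (g' k))) (fun k => (hg _).1) hε (fun k => h _)
    fun i j hij => ?_).elim
  rcases Φ.nested hH (hA (g (g' i))) (hA (g (g' j))) with h1 | h1 | h1 | h1
  · exact Or.inl h1
  · exact absurd h1 (hg1 _ _ (g'.strictMono hij))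
  · refine absurd ?_ (hg2 _ _ hij)
    rw [Sub, Set.sdiff_compl]
    exact h1
  · exact Or.inr h1

variable {Φ : B.Family} {J : B.Slab Φ}

theorem Slab.exists_LT (hH : Hyp S l) (J : B.Slab Φ) {ε : ℝ} (hε : 0 < ε) (n : ℕ → ℕ) (x : ℕ → G)
    (hn : Tendsto n atTop atTop) (hv : ∀ k, Vis ε (B.h (J.a (n k))) (B.h (J.c (n k))) (x k)) :
    ∃ (φ : ℕ → ℕ) (L R : Set (Bd G)), StrictMono φ ∧ J.LT L R ∧ Vis ε (B.h L) (B.h R) 1 ∧
      Tendsto (fun k => B.μ 1 (symmDiff ((x (φ k))⁻¹ • J.a (n (φ k))) L)) atTop (𝓝 0) ∧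
      Tendsto (fun k => B.μ 1 (symmDiff ((x (φ k))⁻¹ • J.c (n (φ k))) R)) atTop (𝓝 0) := by
  obtain ⟨φ, L, hφ, hL, h1⟩ := Φ.exists_subseq hH (A := fun k => (x k)⁻¹ • J.a (n k))
    (fun k => Φ.smul _ _ (J.a_mem _)) hε fun k => by
      rw [B.h_compl (Φ.good _ (Φ.smul _ _ (J.a_mem _))).1, limA_inv]
      obtain ⟨h2, h3, h4⟩ := hv k
      exact ⟨h2, by linarith⟩
  obtain ⟨ψ, R, hψ, hR, h2⟩ := Φ.exists_subseq hH (A := fun k => (x (φ k))⁻¹ • J.c (n (φ k)))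
    (fun k => Φ.smul _ _ (J.c_mem _)) hε fun k => by
      rw [B.h_compl (Φ.good _ (Φ.smul _ _ (J.c_mem _))).1, limA_inv]
      obtain ⟨h2, h3, h4⟩ := hv (φ k)
      exact ⟨h3, by linarith⟩
  have h3 : Tendsto (fun k => B.μ 1 (symmDiff ((x (φ (ψ k)))⁻¹ • J.a (n (φ (ψ k)))) L)) atTop
      (𝓝 0) := h1.comp hψ.tendsto_atTop
  have h4 := limA_h h3
  have h5 := limA_h h2
  simp only [limA_inv] at h4 h5
  have h6 : Vis ε (B.h L) (B.h R) 1 :=
    ⟨ge_of_tendsto' h4 fun k => (hv _).1, ge_of_tendsto' h5 fun k => (hv _).2.1,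
      ge_of_tendsto' ((h4.const_sub 1).sub h5) fun k => (hv _).2.2⟩
  have h7 : B.Null (L ∩ R) := limA_null (B.μ 1) (fun k => by
    rw [← smul_set_inter]
    exact (B.null_smul hH.cay _ _).2 (J.sep _).null_inter) h3 h2
  refine ⟨fun k => φ (ψ k), L, R, hφ.comp hψ, ⟨hL, hR, limA_not_null hε h6.1,
    limA_not_null hε h6.2.1, limA_not_null hε ?_, fun k => n (φ (ψ k)), fun k => x (φ (ψ k)),
    hn.comp (hφ.comp hψ).tendsto_atTop, h3, h2⟩, h6, h3, h2⟩
  rw [B.h_compl_union hH.cay hL.1 hR.1 h7]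
  exact h6.2.2

theorem Slab.LT.null_inter (hH : Hyp S l) {L R : Set (Bd G)} (h : J.LT L R) :
    B.Null (L ∩ R) := by
  obtain ⟨n, x, -, h1, h2⟩ := h.seq
  exact limA_null (B.μ 1) (fun k => by
    rw [← smul_set_inter]
    exact (B.null_smul hH.cay _ _).2 (J.sep _).null_inter) h1 h2

theorem Slab.LT.smul (hH : Hyp S l) {L R : Set (Bd G)} (h : J.LT L R) (g : G) :
    J.LT (g • L) (g • R) := by
  obtain ⟨n, x, h0, h1, h2⟩ := h.seq
  have key : ∀ (a : ℕ → Set (Bd G)) (L : Set (Bd G)),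
      Tendsto (fun k => B.μ 1 (symmDiff ((x k)⁻¹ • a k) L)) atTop (𝓝 0) →
      Tendsto (fun k => B.μ 1 (symmDiff ((x k * g⁻¹)⁻¹ • a k) (g • L))) atTop (𝓝 0) := by
    intro a L h3
    refine (B.tendsto_μ hH.cay g⁻¹ h3).congr fun k => ?_
    rw [mul_inv_rev, inv_inv, mul_smul, ← smul_set_symmDiff, ← B.μ_smul g g⁻¹, mul_inv_cancel]
  refine ⟨h.goodL.smul hH.cay g, h.goodR.smul hH.cay g,
    fun h3 => h.posL ((B.null_smul hH.cay _ _).1 h3),
    fun h3 => h.posR ((B.null_smul hH.cay _ _).1 h3), fun h3 => h.posZ ?_,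
    n, fun k => x k * g⁻¹, h0, key _ _ h1, key _ _ h2⟩
  rw [← smul_set_union, ← smul_set_compl] at h3
  exact (B.null_smul hH.cay _ _).1 h3

theorem Slab.LT.swap {L R : Set (Bd G)} (h : J.LT L R) (hs : ∀ n, B.Sep (J.c n) (J.a n)) :
    (J.swap hs).LT R L := by
  obtain ⟨n, x, h0, h1, h2⟩ := h.seq
  exact ⟨h.goodR, h.goodL, h.posR, h.posL, by rw [union_comm]; exact h.posZ, n, x, h0, h2, h1⟩

end Bdry

end Vale.Agent.P239
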