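import Vale.Agent.P239.LimA
import Vale.Agent.P239.Visib

/-! Task LimB: limit triples cannot be cut, rigidity. Notation: `Z = (L ∪ R)ᶜ`, `L k = (x k)⁻¹ • a (n k)`, `R k = (x k)⁻¹ • c (n k)`.
General remark: if `μ (symmDiff (A k) A) → 0` and `A ∩ C` is nonnull then `A k ∩ C` is nonnull for large `k` (same for complements, and for two sequences at once).
`tendsto_cofinite`: if `x k = g` for infinitely many `k`, then along these `k`, `μ 1 (g⁻¹ • (a ∪ c)ᶜ) → 0` (`J.lim`, `tendsto_μ`, `μ_smul`), so `Z` is null.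
`not_cut`: let `E'= b j` be an approximation of `E` with `E' ∩ L`, `E' ∩ Z` nonnull; `Sep E' Eᶜ`, `Sub E' E`. For large `k`, nestedness of `(E', L k)` gives `Sub (L k) E'`
(the corners `E' ∩ L k`, `E' ∩ (L k)ᶜ`, `E'ᶜ ∩ (L k)ᶜ` are nonnull, the last contains `Eᶜ ∩ R` in the limit as `L ∩ R` is null), and nestedness of `(E, R k)` gives `Sub (R k) Eᶜ`. Then
`h E' (x k)⁻¹ ≥ h (a 0) 1 > 0` and `h Eᶜ (x k)⁻¹ ≥ h (c 0) 1 > 0` (`h_smul`, `h_mono`), so `Sep.finite_vis` puts `(x k)⁻¹` in a finite set, contradicting `tendsto_cofinite`.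
`eventually_sub`: `not_cut` with `E = L k` gives `Null (L k ∩ Z)`; nestedness of `(L k, R m)` for large `k, m` gives `Null (L k ∩ R m)`, let `m → ∞` (or use that `L k ∩ R k` is null and
nestedness is not even needed: prove `Null (L k ∩ R)` from `Nested (L k) (R m)`).
`rigid`: `not_cut` for `(L,R)` with `E = L' k` and `E = (R' k)ᶜ` gives `Null (L' ∩ Z)`, `Null (R' ∩ Z)`; symmetric; nestedness of `(L k, R' m)` gives `Null (L ∩ R')`, symmetric.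
-/

noncomputable section

open Classical MeasureTheory Filter Topology Set
open scoped Pointwise

namespace Vale.Agent.P239

universe u
variable {G : Type u} [Group G] {S : Finset G} {l : ℕ}

namespace Bdry
variable {B : Bdry S} {Φ : B.Family} {J : B.Slab Φ}

/-- Convergence in measure of a sequence of events. -/
def LbCv (B : Bdry S) (A : ℕ → Set (Bd G)) (L : Set (Bd G)) : Prop :=
  Tendsto (fun k => B.μ 1 (symmDiff (A k) L)) atTop (𝓝 0)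

theorem lbCv_const (L : Set (Bd G)) : B.LbCv (fun _ => L) L := by
  unfold LbCv
  simp only [symmDiff_self, bot_eq_empty, measure_empty]
  exact tendsto_const_nhds

theorem LbCv.compl {A : ℕ → Set (Bd G)} {L : Set (Bd G)} (h : B.LbCv A L) :
    B.LbCv (fun k => (A k)ᶜ) Lᶜ := by
  unfold LbCv
  simp only [compl_symmDiff_compl]
  exact h

theorem LbCv.inter {A C : ℕ → Set (Bd G)} {L R : Set (Bd G)} (h : B.LbCv A L) (h' : B.LbCv C R) :
    B.LbCv (fun k => A k ∩ C k) (L ∩ R) := by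
  have h1 := Tendsto.add h h'
  rw [add_zero] at h1
  refine tendsto_of_tendsto_of_tendsto_of_le_of_le tendsto_const_nhds h1 (fun _ => zero_le)
    fun k => le_trans (measure_mono fun ξ hξ => ?_) (measure_union_le _ _)
  simp only [mem_symmDiff, mem_inter_iff, mem_union] at hξ ⊢
  tauto

theorem lb_le (A L : Set (Bd G)) : B.μ 1 L ≤ B.μ 1 A + B.μ 1 (symmDiff A L) := by
  refine le_trans (measure_mono fun ξ hξ => ?_) (measure_union_le _ _)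
  simp only [mem_symmDiff, mem_union]
  tauto

theorem LbCv.pos {A : ℕ → Set (Bd G)} {L : Set (Bd G)} (h : B.LbCv A L) (hL : ¬ B.Null L) :
    ∀ᶠ k in atTop, ¬ B.Null (A k) := by
  filter_upwards [Tendsto.eventually_lt_const (pos_iff_ne_zero.2 hL) h] with k hk h0
  have h1 := lb_le (B := B) (A k) L
  rw [show B.μ 1 (A k) = 0 from h0, zero_add] at h1
  exact absurd hk (not_lt.2 h1)

theorem lb_pos {A A' : Set (Bd G)} (h : ¬ B.Null A) (h' : ∀ᵐ ξ ∂B.μ 1, ξ ∈ A → ξ ∈ A') :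
    ¬ B.Null A' := fun h0 => h (h0.of_sub ((B.sub_iff _ _).2 h'))

/-- Limits of members of the family. -/
def Family.LbLim (Φ : B.Family) (E : Set (Bd G)) : Prop :=
  ∃ A : ℕ → Set (Bd G), (∀ k, A k ∈ Φ.𝓗) ∧ B.LbCv A E

theorem Family.lbLim_of_mem {E : Set (Bd G)} (hE : E ∈ Φ.𝓗) : Φ.LbLim E :=
  ⟨fun _ => E, fun _ => hE, lbCv_const E⟩

theorem Slab.LT.lbLim {L R : Set (Bd G)} (h : J.LT L R) : Φ.LbLim L ∧ Φ.LbLim R := by
  obtain ⟨n, x, -, h1, h2⟩ := h.seq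
  exact ⟨⟨_, fun k => Φ.smul _ _ (J.a_mem _), h1⟩, ⟨_, fun k => Φ.smul _ _ (J.c_mem _), h2⟩⟩

theorem Family.LbLim.nested (hH : Hyp S l) {E E' : Set (Bd G)} (h : Φ.LbLim E)
    (h' : Φ.LbLim E') : B.Nested E E' := by
  obtain ⟨A, hA, h1⟩ := h
  obtain ⟨C, hC, h2⟩ := h'
  by_contra hn
  unfold Nested at hn
  push Not at hn
  obtain ⟨k, h3, h4, h5, h6⟩ := (((h1.inter h2).pos hn.1).and (((h1.inter h2.compl).pos hn.2.1).and
    (((h1.compl.inter h2).pos hn.2.2.1).and ((h1.compl.inter h2.compl).pos hn.2.2.2)))).exists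
  rcases Φ.nested hH (hA k) (hC k) with h | h | h | h
  exacts [h3 h, h4 h, h5 h, h6 h]

theorem Slab.LT.tendsto_cofinite (hH : Hyp S l) {L R : Set (Bd G)} (h : J.LT L R) {n : ℕ → ℕ}
    {x : ℕ → G} (hn : Tendsto n atTop atTop)
    (ha : Tendsto (fun k => B.μ 1 (symmDiff ((x k)⁻¹ • J.a (n k)) L)) atTop (𝓝 0))
    (hc : Tendsto (fun k => B.μ 1 (symmDiff ((x k)⁻¹ • J.c (n k)) R)) atTop (𝓝 0)) :
    Tendsto x atTop cofinite := by
  refine le_cofinite_iff_eventually_ne.2 fun g => ?_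
  have h1 : B.LbCv _ _ := (LbCv.compl ha).inter (LbCv.compl hc)
  have h2 := Tendsto.add ((B.tendsto_μ hH.cay g J.lim).comp hn) h1
  rw [add_zero] at h2
  have h3 : 0 < B.μ 1 (L ∪ R)ᶜ := pos_iff_ne_zero.2 h.posZ
  rw [eventually_map]
  filter_upwards [h2.eventually_lt_const h3] with k hk hg
  refine absurd hk (not_lt.2 ?_)
  have h4 := lb_le (B := B) (((x k)⁻¹ • J.a (n k))ᶜ ∩ ((x k)⁻¹ • J.c (n k))ᶜ) (Lᶜ ∩ Rᶜ)
  have h5 : B.μ 1 (((x k)⁻¹ • J.a (n k))ᶜ ∩ ((x k)⁻¹ • J.c (n k))ᶜ) =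
      B.μ g (J.a (n k) ∪ J.c (n k))ᶜ := by
    rw [← compl_union, ← smul_set_union, ← smul_set_compl, hg, ← B.μ_smul g⁻¹ g, inv_mul_cancel]
  rw [h5] at h4
  rw [compl_union L R]
  exact h4

theorem Slab.LT.not_cut (hH : Hyp S l) {L R : Set (Bd G)} (h : J.LT L R) {E : Set (Bd G)}
    (hE : E ∈ Φ.𝓗) :
    B.Null (E ∩ L) ∨ B.Null (E ∩ (L ∪ R)ᶜ) ∨ B.Null (Eᶜ ∩ (L ∪ R)ᶜ) ∨ B.Null (Eᶜ ∩ R) := by
  by_contra hn
  push Not at hn
  obtain ⟨hEL, hEZ, hEZ', hER⟩ := hn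
  obtain ⟨b, hb1, hb2, hb3, hb4⟩ := Φ.approx E hE
  have key : ∀ C : Set (Bd G), ¬ B.Null (E ∩ C) → ∀ᶠ j in atTop, ¬ B.Null (b j ∩ C) := by
    intro C hC
    obtain ⟨i, hi⟩ := limA_pos (b := fun j => b j ∩ C) hC ((B.sub_iff _ _).2 (by
      filter_upwards [(B.sub_iff _ _).1 hb4] with ξ h1 h2
      obtain ⟨j, hj⟩ := mem_iUnion.1 (h1 h2.1)
      exact mem_iUnion.2 ⟨j, hj, h2.2⟩))
    filter_upwards [eventually_ge_atTop i] with j hj
    refine lb_pos hi ?_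
    filter_upwards [(B.sub_iff _ _).1 (limA_chain hb2 hj)] with ξ h1 h2
    exact ⟨h1 h2.1, h2.2⟩
  obtain ⟨j, hjL, hjZ⟩ := ((key L hEL).and (key _ hEZ)).exists
  have hsub := (B.null_iff_ae _).1 (hb3 j).null_inter
  obtain ⟨n, x, hn, ha, hc⟩ := h.seq
  have hx := h.tendsto_cofinite hH hn ha hc
  have ha' : B.LbCv _ _ := ha
  have hc' : B.LbCv _ _ := hc
  have e1 := ((lbCv_const (b j)).inter ha').pos hjL
  have e2 := ((lbCv_const (b j)).inter ha'.compl).pos (lb_pos hjZ (Eventually.of_forall fun ξ hξ =>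
    ⟨hξ.1, fun h1 => hξ.2 (Or.inl h1)⟩))
  have e3 := ((lbCv_const (b j)ᶜ).inter ha'.compl).pos (lb_pos hEZ' (by
    filter_upwards [hsub] with ξ h1 h2
    exact ⟨fun h3 => h1 ⟨h3, h2.1⟩, fun h3 => h2.2 (Or.inl h3)⟩))
  have e4 := ((lbCv_const E).inter hc'.compl).pos (lb_pos hEZ (Eventually.of_forall fun ξ hξ =>
    ⟨hξ.1, fun h1 => hξ.2 (Or.inr h1)⟩))
  have e5 := ((lbCv_const Eᶜ).inter hc').pos hER
  have e6 := ((lbCv_const Eᶜ).inter hc'.compl).pos (lb_pos hEZ' (Eventually.of_forall fun ξ hξ =>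
    ⟨hξ.1, fun h1 => hξ.2 (Or.inr h1)⟩))
  have hε : 0 < min (B.h (J.a 0) 1) (B.h (J.c 0) 1) :=
    lt_min (B.h_pos hH.cay J.a_pos 1) (B.h_pos hH.cay J.c_pos 1)
  have hF := ((hb3 j).finite_vis hH.cay hH.gap hε).inv
  obtain ⟨k, ⟨⟨f1, f2, f3⟩, f4, f5, f6⟩, f7⟩ := (((e1.and (e2.and e3)).and (e4.and (e5.and e6))).and
    (hx.eventually hF.compl_mem_cofinite)).exists
  have g1 : B.Sub ((x k)⁻¹ • J.a (n k)) (b j) := by
    rcases Φ.nested hH (hb1 j) (Φ.smul (x k)⁻¹ _ (J.a_mem (n k))) with h1 | h1 | h1 | h1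
    · exact absurd h1 f1
    · exact absurd h1 f2
    · rw [inter_comm] at h1
      exact h1
    · exact absurd h1 f3
  have g2 : B.Sub ((x k)⁻¹ • J.c (n k)) Eᶜ := by
    rcases Φ.nested hH hE (Φ.smul (x k)⁻¹ _ (J.c_mem (n k))) with h1 | h1 | h1 | h1
    · unfold Sub
      rw [sdiff_compl, inter_comm]
      exact h1
    · exact absurd h1 f4
    · exact absurd h1 f5
    · exact absurd h1 f6
  have g3 : ∀ A : Set (Bd G), B.h ((x k)⁻¹ • A) (x k)⁻¹ = B.h A 1 := fun A => by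
    have h1 := B.h_smul (x k)⁻¹ 1 A
    rwa [mul_one] at h1
  refine f7 ⟨(min_le_left _ _).trans ?_, (min_le_right _ _).trans ?_⟩
  · exact (B.h_mono hH.cay (J.a_sub (n k)) 1).trans ((g3 _).ge.trans (B.h_mono hH.cay g1 _))
  · exact (B.h_mono hH.cay (J.c_sub (n k)) 1).trans ((g3 _).ge.trans (B.h_mono hH.cay g2 _))

theorem Slab.LT.lb_sub (hH : Hyp S l) {L R : Set (Bd G)} (h : J.LT L R) {E : Set (Bd G)}
    (hE : Φ.LbLim E) (h1 : ¬ B.Null (E ∩ L)) (h2 : ¬ B.Null (Eᶜ ∩ (L ∪ R)ᶜ))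
    (h3 : ¬ B.Null (Eᶜ ∩ R)) : B.Sub E L := by
  have hZ : B.Null (E ∩ (L ∪ R)ᶜ) := by
    by_contra h4
    obtain ⟨A, hA, hc⟩ := hE
    obtain ⟨k, f1, f2, f3, f4⟩ := (((hc.inter (lbCv_const _)).pos h1).and
      (((hc.inter (lbCv_const _)).pos h4).and (((hc.compl.inter (lbCv_const _)).pos h2).and
        ((hc.compl.inter (lbCv_const _)).pos h3)))).exists
    rcases h.not_cut hH (hA k) with h5 | h5 | h5 | h5
    exacts [f1 h5, f2 h5, f3 h5, f4 h5]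
  have hR : B.Null (E ∩ R) := by
    rcases hE.nested hH h.lbLim.2 with h5 | h5 | h5 | h5
    · exact h5
    · refine absurd h5 (lb_pos h1 ?_)
      filter_upwards [(B.null_iff_ae _).1 (h.null_inter hH)] with ξ h6 h7
      exact ⟨h7.1, fun h8 => h6 ⟨h7.2, h8⟩⟩
    · exact absurd h5 h3
    · exact absurd h5 (lb_pos h2 (Eventually.of_forall fun ξ hξ =>
        ⟨hξ.1, fun h1 => hξ.2 (Or.inr h1)⟩))
  refine (B.sub_iff _ _).2 ?_
  filter_upwards [(B.null_iff_ae _).1 hZ, (B.null_iff_ae _).1 hR] with ξ h4 h5 h6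
  by_contra h7
  exact h4 ⟨h6, fun h8 => h8.elim h7 fun h9 => h5 ⟨h6, h9⟩⟩

theorem Slab.LT.lb_eventually (hH : Hyp S l) {L R : Set (Bd G)} (h : J.LT L R)
    {A : ℕ → Set (Bd G)} (hA : ∀ k, A k ∈ Φ.𝓗) (hc : B.LbCv A L) :
    ∀ᶠ k in atTop, B.Sub (A k) L := by
  have e1 := (hc.inter (lbCv_const L)).pos (lb_pos h.posL (Eventually.of_forall fun ξ hξ =>
    ⟨hξ, hξ⟩))
  have e2 := (hc.compl.inter (lbCv_const (L ∪ R)ᶜ)).pos (lb_pos h.posZ
    (Eventually.of_forall fun ξ hξ => ⟨fun h1 => hξ (Or.inl h1), hξ⟩))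
  have e3 := (hc.compl.inter (lbCv_const R)).pos (lb_pos h.posR (by
    filter_upwards [(B.null_iff_ae _).1 (h.null_inter hH)] with ξ h1 h2
    exact ⟨fun h3 => h1 ⟨h3, h2⟩, h2⟩))
  filter_upwards [e1, e2, e3] with k f1 f2 f3
  exact h.lb_sub hH (Φ.lbLim_of_mem (hA k)) f1 f2 f3

theorem Slab.LT.lb_rigid (hH : Hyp S l) {L R L' R' : Set (Bd G)} (h : J.LT L R) (h' : J.LT L' R')
    (hL : ¬ B.Null (L ∩ L')) (hR : ¬ B.Null (R ∩ R'))
    (hZ : ¬ B.Null ((L ∪ R)ᶜ ∩ (L' ∪ R')ᶜ)) : B.Sub L L' := by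
  refine h'.lb_sub hH h.lbLim.1 hL (lb_pos hZ (Eventually.of_forall fun ξ hξ =>
    ⟨fun h1 => hξ.1 (Or.inl h1), hξ.2⟩)) (lb_pos hR ?_)
  filter_upwards [(B.null_iff_ae _).1 (h.null_inter hH)] with ξ h1 h2
  exact ⟨fun h3 => h1 ⟨h3, h2.1⟩, h2.2⟩

theorem Slab.LT.eventually_sub (hH : Hyp S l) {L R : Set (Bd G)} (h : J.LT L R) {n : ℕ → ℕ}
    {x : ℕ → G} (hn : Tendsto n atTop atTop)
    (ha : Tendsto (fun k => B.μ 1 (symmDiff ((x k)⁻¹ • J.a (n k)) L)) atTop (𝓝 0))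
    (hc : Tendsto (fun k => B.μ 1 (symmDiff ((x k)⁻¹ • J.c (n k)) R)) atTop (𝓝 0)) :
    ∀ᶠ k in atTop, B.Sub ((x k)⁻¹ • J.a (n k)) L ∧ B.Sub ((x k)⁻¹ • J.c (n k)) R :=
  (h.lb_eventually hH (fun _ => Φ.smul _ _ (J.a_mem _)) ha).and
    ((h.swap fun n => (J.sep n).symm).lb_eventually hH (fun _ => Φ.smul _ _ (J.c_mem _)) hc)

theorem Slab.LT.rigid (hH : Hyp S l) {L R L' R' : Set (Bd G)} (h : J.LT L R) (h' : J.LT L' R')
    (hL : ¬ B.Null (L ∩ L')) (hR : ¬ B.Null (R ∩ R'))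
    (hZ : ¬ B.Null ((L ∪ R)ᶜ ∩ (L' ∪ R')ᶜ)) :
    B.Sub L L' ∧ B.Sub L' L ∧ B.Sub R R' ∧ B.Sub R' R := by
  have hs : ∀ n, B.Sep (J.c n) (J.a n) := fun n => (J.sep n).symm
  refine ⟨h.lb_rigid hH h' hL hR hZ, h'.lb_rigid hH h ?_ ?_ ?_,
    (h.swap hs).lb_rigid hH (h'.swap hs) hR hL ?_, (h'.swap hs).lb_rigid hH (h.swap hs) ?_ ?_ ?_⟩
  · rwa [inter_comm]
  · rwa [inter_comm]
  · rwa [inter_comm]
  · rwa [union_comm R, union_comm R']
  · rwa [inter_comm]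
  · rwa [inter_comm]
  · rwa [inter_comm, union_comm R, union_comm R']

end Bdry

end Vale.Agent.P239
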