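import Vale.Agent.P239.L2Pull
import Vale.Agent.P239.CxDual

/-! Task L2Final: from real harmonic cochains to `ReducedL2Vanishes`.
Given `φ`, put `c (g,i) = φ (Pi.single i 1) g⁻¹ : ℂ`; by equivariance and additivity `φ x y = ∑ over the chain tr y⁻¹ (toCh x)` of `c`, i.e. `(φ x y).re = pair (re ∘ c) (tr y⁻¹ (toCh x))`, same for `im`. `re ∘ c`, `im ∘ c` are square summable cocycles for `conj d`. `HV.approx` gives `b1, b2`.
Define `ψ x y = pair b1 (tr y⁻¹ (toCh x)) + I * pair b2 (tr y⁻¹ (toCh x))`; it is in `ℓ²` (finite sum of translates of square summable functions), additive, equivariant, and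
`‖φ e_i - ψ (e e_i)‖² = ∑' y, (...)² ≤ 2 ε'` (`lp.norm_rpow_eq_tsum` or `lp.hasSum_norm`).
-/

noncomputable section

open Classical Filter Topology Set

namespace Vale.Agent.P239

universe u
variable {G : Type u} [Group G] {S : Finset G} {n0 n1 n2 n3 n4 : ℕ}

theorem l2f_eval {m : ℕ} (Λ : ℂ →+ ℝ) {φ : Free G m →+ L2G G} (hφ : IsL2Cochain φ) (x : Free G m)
    (y : G) : Λ (φ x y) =
      pair (fun p : G × Fin m => Λ (φ (Pi.single p.2 1) p.1⁻¹)) (tr y⁻¹ (toCh G m x)) := by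
  have h : (Λ.comp ((AddMonoidHom.mk' (fun f : L2G G => f y) fun _ _ => rfl).comp
      (φ.comp (toCh G m).symm.toAddMonoidHom))) =
      (pairHom fun p : G × Fin m => Λ (φ (Pi.single p.2 1) p.1⁻¹)).comp (tr y⁻¹) := by
    refine hom_ext_bs fun p => ?_
    change Λ (φ ((toCh G m).symm (bs (p.1, p.2))) y) = pair _ (tr y⁻¹ (bs (p.1, p.2)))
    rw [tr_bs, pair_single, ← cd_bs, AddEquiv.symm_apply_apply, hφ, mul_inv_rev, inv_inv]
  have h1 := DFunLike.congr_fun h (toCh G m x)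
  change Λ (φ ((toCh G m).symm (toCh G m x)) y) = _ at h1
  rw [AddEquiv.symm_apply_apply] at h1
  exact h1

theorem l2f_sq {m : ℕ} (Λ : ℂ →+ ℝ) (hΛ : ∀ w, |Λ w| ≤ ‖w‖) (f : Fin m → L2G G) :
    SqSum fun p : G × Fin m => Λ (f p.2 p.1⁻¹) := by
  refine (Equiv.prodComm (Fin m) G).summable_iff.1 ?_
  refine (summable_prod_of_nonneg fun p => sq_nonneg _).2 ⟨fun i => ?_, Summable.of_finite⟩
  have h1 := (lp.memℓp (f i)).summable (by norm_num)
  have h2 := (Equiv.inv G).summable_iff.2 h1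
  refine Summable.of_nonneg_of_le (fun g => sq_nonneg _) (fun g => ?_) h2
  change Λ (f i g⁻¹) ^ 2 ≤ ‖f i g⁻¹‖ ^ (2 : ENNReal).toReal
  rw [ENNReal.toReal_ofNat, Real.rpow_two]
  exact sq_le_sq.2 ((hΛ _).trans (le_abs_self _))

theorem l2f_orbit {κ : Type*} {b : G × κ → ℝ} (hb : SqSum b) (z : Ch G κ) :
    SqSum fun y : G => pair b (tr y⁻¹ z) := by
  obtain ⟨C, -, hC⟩ := (eqv_ofBasis fun _ : Unit => z).sqSum_pull
  have h1 := (hC b hb).1.comp_injective (i := fun y : G => (y⁻¹, ()))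
    fun a a' h => inv_injective (Prod.ext_iff.1 h).1
  refine h1.congr fun y => ?_
  change pair b (ofBasis (fun _ : Unit => z) (bs (y⁻¹, ()))) ^ 2 = _
  rw [ofBasis_bs]

theorem l2f_norm (a b : ℝ) : ‖(a : ℂ) + b * Complex.I‖ ^ (2 : ENNReal).toReal = a ^ 2 + b ^ 2 := by
  rw [ENNReal.toReal_ofNat, Real.rpow_two, Complex.sq_norm, Complex.normSq_add_mul_I]

/-- The `ℓ²` cochain with real part `b1` and imaginary part `b2`. -/
def l2fMk {k : ℕ} {b1 b2 : G × Fin k → ℝ} (h1 : SqSum b1) (h2 : SqSum b2) : Free G k →+ L2G G :=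
  AddMonoidHom.mk' (fun x => ⟨fun y => (pair b1 (tr y⁻¹ (toCh G k x)) : ℂ) +
      (pair b2 (tr y⁻¹ (toCh G k x)) : ℂ) * Complex.I, memℓp_gen (by
        simp only [l2f_norm]
        exact Summable.add (l2f_orbit h1 _) (l2f_orbit h2 _))⟩) fun x x' => by
    refine lp.ext (funext fun y => ?_)
    change ((pairHom b1 (tr y⁻¹ (toCh G k (x + x'))) : ℝ) : ℂ) +
        ((pairHom b2 (tr y⁻¹ (toCh G k (x + x'))) : ℝ) : ℂ) * Complex.I =
      (((pairHom b1 (tr y⁻¹ (toCh G k x)) : ℝ) : ℂ) +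
        ((pairHom b2 (tr y⁻¹ (toCh G k x)) : ℝ) : ℂ) * Complex.I) +
      (((pairHom b1 (tr y⁻¹ (toCh G k x')) : ℝ) : ℂ) +
        ((pairHom b2 (tr y⁻¹ (toCh G k x')) : ℝ) : ℂ) * Complex.I)
    simp only [map_add, Complex.ofReal_add]
    ring

theorem l2fMk_apply {k : ℕ} {b1 b2 : G × Fin k → ℝ} (h1 : SqSum b1) (h2 : SqSum b2) (x : Free G k)
    (y : G) : l2fMk h1 h2 x y = (pair b1 (tr y⁻¹ (toCh G k x)) : ℂ) +
      (pair b2 (tr y⁻¹ (toCh G k x)) : ℂ) * Complex.I := rfl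

theorem l2f_part {κ : Type*} {r : G × κ → ℝ} (hr : SqSum r) (i : κ) (s : Finset G) :
    ∑ y ∈ s, r (y⁻¹, i) ^ 2 ≤ ∑' p, r p ^ 2 := by
  have h := Summable.sum_le_tsum (s.map ⟨fun y : G => (y⁻¹, i),
    fun a a' h => inv_injective (Prod.ext_iff.1 h).1⟩) (fun p _ => sq_nonneg (r p)) hr
  rwa [Finset.sum_map] at h

theorem l2f_sub {α : Type*} {f g : α → ℝ} (hf : SqSum f) (hg : SqSum g) :
    SqSum fun x => f x - g x := by
  refine Summable.of_nonneg_of_le (fun x => sq_nonneg _) (fun x => ?_)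
    ((Summable.add hf hg).mul_left 2)
  nlinarith [sq_nonneg (f x + g x)]

theorem reduced_of_hv {n m k : ℕ} (d : Free G n →ₗ[ZG G] Free G m) (e : Free G m →ₗ[ZG G] Free G k)
    (hde : ∀ x, e (d x) = 0) (h : HV (conj d) (conj e)) : ReducedL2Vanishes d e := by
  intro φ hφ hz ε hε
  have hde' : ∀ z, conj e (conj d z) = 0 := fun z => by
    obtain ⟨x, rfl⟩ := (toCh G n).surjective z
    rw [cd_conj, cd_conj, hde, map_zero]
  obtain ⟨C, -, hC⟩ := (eqv_conj e).sqSum_pull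
  have key : ∀ Λ : ℂ →+ ℝ, (∀ w, |Λ w| ≤ ‖w‖) → ∃ b : G × Fin k → ℝ, SqSum b ∧
      ∀ (i : Fin m) (s : Finset G), ∑ y ∈ s, (Λ (φ (Pi.single i 1) y) -
        pair b (tr y⁻¹ (toCh G k (e (Pi.single i 1))))) ^ 2 ≤ ε ^ 2 / 8 := by
    intro Λ hΛ
    have hc := l2f_sq Λ hΛ fun i => φ (Pi.single i 1)
    have hcz : Cocyc (conj d) fun p : G × Fin m => Λ (φ (Pi.single p.2 1) p.1⁻¹) := by
      intro z
      obtain ⟨x, rfl⟩ := (toCh G n).surjective z
      have h1 := l2f_eval Λ hφ (d x) 1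
      rw [inv_one, tr_one, hz] at h1
      rw [cd_conj, ← h1]
      exact map_zero Λ
    obtain ⟨b, hb, hb'⟩ := h.approx (eqv_conj e) hde' hc hcz (ε := ε ^ 2 / 8) (by positivity)
    refine ⟨b, hb, fun i s => le_trans (le_of_eq ?_)
      ((l2f_part (l2f_sub hc (hC b hb).1) i s).trans hb'.le)⟩
    refine Finset.sum_congr rfl fun y _ => ?_
    rw [← cd_conj, ← eqv_conj e, toCh_single, tr_bs, mul_one, inv_inv]
  obtain ⟨b1, hb1, h1⟩ := key Complex.reAddGroupHom Complex.abs_re_le_norm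
  obtain ⟨b2, hb2, h2⟩ := key Complex.imAddGroupHom Complex.abs_im_le_norm
  refine ⟨l2fMk hb1 hb2, fun g x y => ?_, fun i => ?_⟩
  · rw [l2fMk_apply, l2fMk_apply, toCh_smul, ← tr_mul, mul_inv_rev, inv_inv]
  · refine lt_of_le_of_lt (lp.norm_le_of_forall_sum_le (by norm_num) (half_pos hε).le fun s => ?_)
      (half_lt_self hε)
    have h3 : ∀ y, ‖(φ (Pi.single i 1) - l2fMk hb1 hb2 (e (Pi.single i 1))) y‖ ^ (2 : ENNReal).toReal =
        ((φ (Pi.single i 1) y).re - pair b1 (tr y⁻¹ (toCh G k (e (Pi.single i 1))))) ^ 2 +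
        ((φ (Pi.single i 1) y).im - pair b2 (tr y⁻¹ (toCh G k (e (Pi.single i 1))))) ^ 2 := by
      intro y
      rw [← l2f_norm, lp.coeFn_sub, Pi.sub_apply, l2fMk_apply]
      congr 2
      apply Complex.ext <;> simp
    simp only [h3]
    rw [Finset.sum_add_distrib, ENNReal.toReal_ofNat, Real.rpow_two]
    have h4 := add_le_add (h1 i s) (h2 i s)
    simp only [Complex.coe_reAddGroupHom, Complex.coe_imAddGroupHom] at h4
    linarith

end Vale.Agent.P239
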