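import Vale.Agent.P239.CxLift

/-! Task Wenger: Euclidean isoperimetric inequality from cone inequalities (ball growing).
Let `k ≥ 1` bound `ms (d (bs p))` and `len (p.1⁻¹ * q.1)` for `q` in the support of `d (bs p)`, `d = d1, d2` (`Eqv.exists_finset`, `Eqv.ms_le`), and `len 1`. For a cycle `T`, `x` and `r`, let `T_r = T.filter (len (x⁻¹ * ·.1) ≤ r)`, `β r = ms T_r`.
Slice: `d T_r = - d (T - T_r)` is supported where `r - k < len`, while `d T_(r-2k)` is supported where `len ≤ r - k`; so `d T_r` is a restriction of `d (T_r - T_(r-2k))`: `ms (d T_r) ≤ k (β r - β (r - 2k))`, and it is within `r + k` of `x`.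
`fill_one`: strong induction on `ms z`. `x` in the support, `r j = k + 2kj`; first `j ≥ 1` with `β (r j) = β (r (j-1))`; then `j ≤ β (r j) =: m1`, `z_(r j)` is a cycle, cone it from `x`: mass `≤ C' m1²`, within `C' (m1 + 1)` of `x`. The remainder has mass `ms z - m1` and support inside that of `z`.
`fill_two`: strong induction. First `j ≥ 1` with `2 C1 s_j² ≤ β_j` (`s_j` the slice mass; exists since `β` is eventually constant). For `1 ≤ i < j`, `β_i < 2 C1 k² (β_i - β_(i-1))²`; deduce `j² ≤ C2 β_j` (induction: `c i² ≤ β_i`). Fill the slice by `Σ` (`fill_one`), `T1 = T_r - Σ` is a cycle of mass `≤ 3β/2` within `C3 (sqrt β + 1)` of `x`,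
cone it: mass `≤ C4 β^(3/2)`. The remainder `T - T1` has mass `≤ ms T - β/2 < ms T`, and `(m - β/2)^(3/2) ≤ m^(3/2) - β^(3/2)/2` for `β ≤ m`. Take `C = 2 C4`.
-/

noncomputable section

open Classical Filter Topology Set

namespace Vale.Agent.P239

universe u
variable {G : Type u} [Group G] {S : Finset G} {n0 n1 n2 n3 n4 : ℕ}

/-- Restriction of a chain. -/
def wCut {α : Type*} (P : α → Prop) (z : α →₀ ℤ) : α →₀ ℤ := z.filter P

theorem wCut_apply {α : Type*} (P : α → Prop) (z : α →₀ ℤ) (a : α) :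
    wCut P z a = if P a then z a else 0 := Finsupp.filter_apply _ _ _

theorem wCut_ms {α : Type*} (P : α → Prop) (z : α →₀ ℤ) :
    ms (wCut P z) + ms (z - wCut P z) = ms z := by
  have h : z - wCut P z = z.filter fun a => ¬ P a := by
    ext a
    by_cases h : P a <;> simp [wCut_apply, h]
  rw [h]
  exact ms_filter_add z P

theorem wCut_mem {α : Type*} {P : α → Prop} {z : α →₀ ℤ} {a : α} :
    a ∈ (wCut P z).support ↔ P a ∧ a ∈ z.support := by
  rw [Finsupp.mem_support_iff, Finsupp.mem_support_iff, wCut_apply]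
  by_cases h : P a <;> simp [h]

theorem wCut_sub_mem {α : Type*} {P : α → Prop} {z : α →₀ ℤ} {a : α} :
    a ∈ (z - wCut P z).support ↔ ¬ P a ∧ a ∈ z.support := by
  rw [Finsupp.mem_support_iff, Finsupp.mem_support_iff, Finsupp.sub_apply, wCut_apply]
  by_cases h : P a <;> simp [h]

/-- The part of a chain inside a ball. -/
def wBall {ι : Type*} (len : G → ℕ) (x : G) (r : ℕ) (z : Ch G ι) : Ch G ι :=
  wCut (fun p => len (x⁻¹ * p.1) ≤ r) z

/-- `k` controls mass and displacement of `d`. -/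
structure WCtl {ι κ : Type*} (len : G → ℕ) (d : Ch G ι →+ Ch G κ) (k : ℕ) : Prop where
  ms : ∀ z, ms (d z) ≤ k * ms z
  disp : ∀ p q, d (bs p) q ≠ 0 → len (p.1⁻¹ * q.1) ≤ k
  one : len 1 ≤ k

theorem exists_wCtl {ι κ : Type*} [Finite ι] (len : G → ℕ) {d : Ch G ι →+ Ch G κ} (hd : Eqv d) :
    ∃ k, WCtl len d k := by
  obtain ⟨C, hC⟩ := hd.ms_le
  obtain ⟨T, hT⟩ := hd.exists_finset
  refine ⟨C + T.sup len + len 1, fun z => (hC z).trans (Nat.mul_le_mul_right _ (by omega)),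
    fun p q h => (Finset.le_sup (f := len) (hT p q h)).trans (by omega), by omega⟩

theorem wTri {len : G → ℕ} (hl : IsLen len) (a b c : G) :
    len (a⁻¹ * c) ≤ len (a⁻¹ * b) + len (b⁻¹ * c) := by
  have := hl.mul (a⁻¹ * b) (b⁻¹ * c)
  rwa [mul_assoc, mul_inv_cancel_left] at this

theorem wSymm {len : G → ℕ} (hl : IsLen len) (a b : G) : len (a⁻¹ * b) = len (b⁻¹ * a) := by
  rw [← hl.inv, mul_inv_rev, inv_inv]

theorem within_wBall {ι : Type*} (len : G → ℕ) (x : G) (r : ℕ) (z : Ch G ι) :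
    Within len x r (wBall len x r z) := fun _ hp => (wCut_mem.1 hp).1

theorem Within.mono {ι : Type*} {len : G → ℕ} {x : G} {r r' : ℕ} {z : Ch G ι}
    (h : Within len x r z) (hr : r ≤ r') : Within len x r' z := fun p hp => (h p hp).trans hr

theorem Within.add {ι : Type*} {len : G → ℕ} {x : G} {r : ℕ} {z w : Ch G ι}
    (h : Within len x r z) (h' : Within len x r w) : Within len x r (z + w) := by
  intro p hp
  rcases Finset.mem_union.1 (Finsupp.support_add hp) with h1 | h1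
  · exact h p h1
  · exact h' p h1

theorem Within.sub {ι : Type*} {len : G → ℕ} {x : G} {r : ℕ} {z w : Ch G ι}
    (h : Within len x r z) (h' : Within len x r w) : Within len x r (z - w) := by
  intro p hp
  rcases Finset.mem_union.1 (Finsupp.support_sub hp) with h1 | h1
  · exact h p h1
  · exact h' p h1

theorem WCtl.within {ι κ : Type*} {len : G → ℕ} (hl : IsLen len) {d : Ch G ι →+ Ch G κ} {k : ℕ}
    (hk : WCtl len d k) {x : G} {r : ℕ} {z : Ch G ι} (hz : Within len x r z) :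
    Within len x (r + k) (d z) := by
  intro q hq
  obtain ⟨p, hp, hq'⟩ := support_hom_subset d z hq
  exact (wTri hl x p.1 q.1).trans
    (Nat.add_le_add (hz p hp) (hk.disp p q (Finsupp.mem_support_iff.1 hq')))

theorem WCtl.slice {ι κ : Type*} {len : G → ℕ} (hl : IsLen len) {d : Ch G ι →+ Ch G κ} {k : ℕ}
    (hk : WCtl len d k) (x : G) (r : ℕ) {T : Ch G ι} (hT : d T = 0) :
    ∃ δ, Vale.Agent.P239.ms (wBall len x (r + 2 * k) T) =
        Vale.Agent.P239.ms (wBall len x r T) + δ ∧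
      Vale.Agent.P239.ms (d (wBall len x (r + 2 * k) T)) ≤ k * δ := by
  have e1 : wBall len x r T = wBall len x r (wBall len x (r + 2 * k) T) := by
    ext p
    simp only [wBall, wCut_apply]
    by_cases h : len (x⁻¹ * p.1) ≤ r
    · rw [if_pos h, if_pos h, if_pos (h.trans (Nat.le_add_right _ _))]
    · rw [if_neg h, if_neg h]
  refine ⟨Vale.Agent.P239.ms (wBall len x (r + 2 * k) T - wBall len x r T), ?_, ?_⟩
  · have := wCut_ms (fun p : G × ι => len (x⁻¹ * p.1) ≤ r) (wBall len x (r + 2 * k) T)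
    rw [← this]
    change _ = Vale.Agent.P239.ms (wBall len x r T) + _
    rw [e1, ← e1]
    change Vale.Agent.P239.ms (wBall len x r (wBall len x (r + 2 * k) T)) +
      Vale.Agent.P239.ms (_ - wBall len x r (wBall len x (r + 2 * k) T)) = _
    rw [← e1]
  · refine le_trans ?_ (hk.ms _)
    have e2 : d (wBall len x (r + 2 * k) T) = wCut (fun q : G × κ => r + k < len (x⁻¹ * q.1))
        (d (wBall len x (r + 2 * k) T - wBall len x r T)) := by
      ext q
      rw [wCut_apply]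
      by_cases h : r + k < len (x⁻¹ * q.1)
      · rw [if_pos h, map_sub, Finsupp.sub_apply]
        have h1 : d (wBall len x r T) q = 0 := by
          by_contra h1
          exact absurd (hk.within hl (within_wBall len x r T) q (Finsupp.mem_support_iff.2 h1))
            (not_le.2 h)
        rw [h1, sub_zero]
      · rw [if_neg h]
        by_contra h1
        have h2 : d (T - wBall len x (r + 2 * k) T) q ≠ 0 := by
          rw [map_sub, hT, zero_sub, Finsupp.neg_apply]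
          exact neg_ne_zero.2 h1
        obtain ⟨p, hp, hq'⟩ := support_hom_subset d _ (Finsupp.mem_support_iff.2 h2)
        have h3 := (wCut_sub_mem.1 hp).1
        have h4 := hk.disp p q (Finsupp.mem_support_iff.1 hq')
        have h5 := wTri hl x q.1 p.1
        rw [wSymm hl q.1 p.1] at h5
        omega
    rw [e2]
    exact ms_filter_le _ _

theorem wBall_pos {ι : Type*} {len : G → ℕ} {k : ℕ} (hk : len 1 ≤ k) {z : Ch G ι} {p : G × ι}
    (hp : p ∈ z.support) : 1 ≤ ms (wBall len p.1 k z) := by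
  rw [Nat.one_le_iff_ne_zero]
  intro h
  have h1 : p ∈ (wBall len p.1 k z).support :=
    wCut_mem.2 ⟨by simpa using hk, hp⟩
  rw [ms_eq_zero.1 h] at h1
  simp at h1

theorem wBall_le {ι : Type*} (len : G → ℕ) (x : G) (r : ℕ) (z : Ch G ι) :
    ms (wBall len x r z) ≤ ms z := ms_filter_le _ _

theorem wStop_one {β δ : ℕ → ℕ} {M : ℕ} (h0 : 1 ≤ β 0) (hM : ∀ j, β j ≤ M)
    (hδ : ∀ j, β (j + 1) = β j + δ j) : ∃ j, δ j = 0 ∧ j + 1 ≤ β j := by
  by_contra hcon
  push Not at hcon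
  have key : ∀ j, j + 1 ≤ β j := by
    intro j
    induction j with
    | zero => exact h0
    | succ j ih =>
      have h1 : δ j ≠ 0 := fun h => absurd ih (not_le.2 (hcon j h))
      have h2 := hδ j
      omega
  have h1 := key M
  have h2 := hM M
  omega

theorem wStop_two {β δ : ℕ → ℕ} {M A : ℕ} (hA : 1 ≤ A) (h0 : 1 ≤ β 0) (hM : ∀ j, β j ≤ M)
    (hδ : ∀ j, β (j + 1) = β j + δ j) :
    ∃ j, A * δ j ^ 2 ≤ β (j + 1) ∧ (j + 1) ^ 2 ≤ 9 * A * β j := by
  by_contra hcon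
  push Not at hcon
  have key : ∀ j, (j + 1) ^ 2 ≤ 9 * A * β j := by
    intro j
    induction j with
    | zero => nlinarith
    | succ j ih =>
      have h1 : β (j + 1) < A * δ j ^ 2 := not_le.1 fun h => absurd ih (not_le.2 (hcon j h))
      have h2 := hδ j
      have h3 : (j + 1) ^ 2 ≤ (3 * A * δ j) ^ 2 := by
        have h4 : 9 * A * β j ≤ 9 * A * (A * δ j ^ 2) := Nat.mul_le_mul_left _ (by omega)
        calc (j + 1) ^ 2 ≤ 9 * A * (A * δ j ^ 2) := ih.trans h4
          _ = (3 * A * δ j) ^ 2 := by ring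
      have h5 : j + 1 ≤ 3 * A * δ j := (Nat.pow_le_pow_iff_left (by norm_num)).1 h3
      rw [h2]
      nlinarith
  have h1 := key (9 * A * M)
  have h2 : 9 * A * β (9 * A * M) ≤ 9 * A * M := Nat.mul_le_mul_left _ (hM _)
  nlinarith

theorem Cx.Cone.fill_one {F : Cx G n0 n1 n2 n3 n4} {len : G → ℕ} {C : ℕ} (hl : IsLen len)
    (h : F.Cone len C) : ∃ C1 : ℕ, ∀ z, F.d1 z = 0 → ∃ y, F.d2 y = z ∧ ms y ≤ C1 * ms z ^ 2 ∧
      ∀ x r, Within len x r z → Within len x (r + C1 * (ms z + 1)) y := by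
  obtain ⟨k, hk⟩ := exists_wCtl len F.e1
  refine ⟨C * (3 * k + 1), fun z => ?_⟩
  induction hm : ms z using Nat.strong_induction_on generalizing z with
  | _ m ih =>
  intro hz
  by_cases h0 : z = 0
  · refine ⟨0, by rw [h0, map_zero], by rw [ms_eq_zero.2 rfl]; exact Nat.zero_le _, ?_⟩
    intro x r _ p hp
    simp at hp
  obtain ⟨p0, hp0⟩ := Finsupp.support_nonempty_iff.2 h0
  choose δ hδ1 hδ2 using fun j : ℕ => hk.slice hl p0.1 (k + 2 * k * j) hz
  obtain ⟨j, hj1, hj2⟩ := wStop_one (β := fun j => ms (wBall len p0.1 (k + 2 * k * j) z))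
    (δ := δ) (M := ms z) (by simpa using wBall_pos hk.one hp0) (fun j => wBall_le _ _ _ _)
    (fun j => by rw [← hδ1 j, mul_add, mul_one, add_assoc])
  have a1 := hδ1 j
  have a2 := hδ2 j
  rw [hj1] at a1 a2
  set z1 := wBall len p0.1 (k + 2 * k * j + 2 * k) z with hz1
  have c1 : F.d1 z1 = 0 := ms_eq_zero.1 (by omega)
  have a3 : ms z1 + ms (z - z1) = ms z := wCut_ms _ z
  have a4 : j + 1 ≤ ms z1 := by omega
  obtain ⟨y1, hy1, hy2, hy3⟩ := h.one p0.1 _ z1 c1 (within_wBall _ _ _ _)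
  obtain ⟨y2, hy4, hy5, hy6⟩ := ih (ms (z - z1)) (by omega) (z - z1) rfl
    (by rw [map_sub, hz, c1, sub_zero])
  have a5 : k + 2 * k * j + 2 * k + 1 ≤ (3 * k + 1) * ms z1 := by nlinarith
  have a6 : C * (k + 2 * k * j + 2 * k + 1) ≤ C * (3 * k + 1) * ms z1 := by
    rw [mul_assoc C]
    exact Nat.mul_le_mul_left _ a5
  refine ⟨y1 + y2, by rw [map_add, hy1, hy4, add_sub_cancel], ?_, ?_⟩
  · have a7 : ms y1 ≤ C * (3 * k + 1) * ms z1 ^ 2 := by
      refine hy2.trans ?_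
      rw [pow_two, ← mul_assoc]
      exact Nat.mul_le_mul_right _ a6
    have a8 : ms z1 ^ 2 + ms (z - z1) ^ 2 ≤ m ^ 2 := by
      rw [← hm, ← a3]
      nlinarith
    calc ms (y1 + y2) ≤ ms y1 + ms y2 := ms_add_le _ _
      _ ≤ C * (3 * k + 1) * (ms z1 ^ 2 + ms (z - z1) ^ 2) := by
        rw [mul_add]
        exact Nat.add_le_add a7 hy5
      _ ≤ _ := Nat.mul_le_mul_left _ a8
  · intro x r hx
    refine Within.add ?_ ((hy6 x r fun p hp => hx p (wCut_sub_mem.1 hp).2).mono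
      (Nat.add_le_add_left (Nat.mul_le_mul_left _ (by omega)) _))
    intro q hq
    refine (wTri hl x p0.1 q.1).trans (Nat.add_le_add (hx p0 hp0) ((hy3 q hq).trans
      (a6.trans (Nat.mul_le_mul_left _ (by omega)))))

theorem wArith {k A C C1 j b s m m1 m2 y1 y2 y : ℕ} (hA : 1 ≤ A) (a5 : 1 ≤ b)
    (a4 : (j + 1) ^ 2 ≤ 9 * A * b) (a6 : C1 * s ^ 2 ≤ b)
    (hy2 : y1 ≤ C * (k + 2 * k * j + 2 * k + k + C1 * (s + 1) + 1) * m1) (h5 : m1 ≤ 2 * b)
    (h7 : 2 * m2 + b ≤ 2 * m ∧ b ≤ m)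
    (hy5 : (y2 : ℝ) ≤ 4 * C * (2 * k + 2 * k * (9 * A) + 2 * C1 + 1 : ℝ) * (m2 * Real.sqrt m2))
    (hy : y ≤ y1 + y2) :
    (y : ℝ) ≤ 4 * C * (2 * k + 2 * k * (9 * A) + 2 * C1 + 1 : ℝ) * (m * Real.sqrt m) := by
  set C3 : ℝ := 2 * k + 2 * k * (9 * A) + 2 * C1 + 1 with hC3
  have hC30 : 0 ≤ C3 := by positivity
  have b1 : (1 : ℝ) ≤ Real.sqrt b := Real.one_le_sqrt.2 (by exact_mod_cast a5)
  have b2 : ((j : ℝ) + 1) ≤ 9 * A * Real.sqrt b := by
    have h1 : (j + 1) ^ 2 ≤ (9 * A) ^ 2 * b :=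
      a4.trans (Nat.mul_le_mul_right _ (Nat.le_self_pow (by norm_num) _))
    refine le_of_sq_le_sq ?_ (by positivity)
    rw [mul_pow, Real.sq_sqrt (Nat.cast_nonneg _)]
    exact_mod_cast h1
  have b3 : (C1 : ℝ) * s ≤ C1 * Real.sqrt b := by
    rcases Nat.eq_zero_or_pos C1 with h1 | h1
    · rw [h1]; simp
    · refine mul_le_mul_of_nonneg_left (Real.le_sqrt_of_sq_le ?_) (Nat.cast_nonneg _)
      have h2 : s ^ 2 ≤ C1 * s ^ 2 := Nat.le_mul_of_pos_left _ h1
      have h3 : s ^ 2 ≤ b := by omega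
      exact_mod_cast h3
  have b4 : ((k + 2 * k * j + 2 * k + k + C1 * (s + 1) + 1 : ℕ) : ℝ) ≤ C3 * Real.sqrt b := by
    have h1 : (2 * k : ℝ) * ((j : ℝ) + 1) ≤ 2 * k * (9 * A * Real.sqrt b) :=
      mul_le_mul_of_nonneg_left b2 (by positivity)
    have h2 : (2 * k + C1 + 1 : ℝ) * 1 ≤ (2 * k + C1 + 1) * Real.sqrt b :=
      mul_le_mul_of_nonneg_left b1 (by positivity)
    rw [hC3]
    push_cast
    linarith
  have b5 : (m1 : ℝ) ≤ 2 * b := by exact_mod_cast h5
  have b6 : (y1 : ℝ) ≤ 2 * C * C3 * (b * Real.sqrt b) := by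
    have h1 : (y1 : ℝ) ≤ C * ((k + 2 * k * j + 2 * k + k + C1 * (s + 1) + 1 : ℕ) : ℝ) * m1 := by
      exact_mod_cast hy2
    calc (y1 : ℝ) ≤ _ := h1
      _ ≤ C * (C3 * Real.sqrt b) * (2 * b) := by gcongr
      _ = _ := by ring
  have b7 : 2 * (m2 : ℝ) + b ≤ 2 * m := by exact_mod_cast h7.1
  have b8 : Real.sqrt m2 ≤ Real.sqrt m :=
    Real.sqrt_le_sqrt (by exact_mod_cast (by omega : m2 ≤ m))
  have b9 : Real.sqrt b ≤ Real.sqrt m := Real.sqrt_le_sqrt (by exact_mod_cast h7.2)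
  have b10 : (b : ℝ) * Real.sqrt b + 2 * (m2 * Real.sqrt m2) ≤ 2 * (m * Real.sqrt m) := by
    have h1 : (b : ℝ) * Real.sqrt b ≤ b * Real.sqrt m := by gcongr
    have h2 : (m2 : ℝ) * Real.sqrt m2 ≤ m2 * Real.sqrt m := by gcongr
    have h3 := mul_le_mul_of_nonneg_right b7 (Real.sqrt_nonneg m)
    linarith
  have b11 : (y : ℝ) ≤ y1 + y2 := by exact_mod_cast hy
  have b12 := mul_le_mul_of_nonneg_left b10 (by positivity : (0 : ℝ) ≤ 2 * C * C3)
  linarith

theorem Cx.Cone.fill_two {F : Cx G n0 n1 n2 n3 n4} {len : G → ℕ} {C : ℕ} (hl : IsLen len)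
    (h : F.Cone len C) : F.Fill (3 / 2) := by
  obtain ⟨k, hk⟩ := exists_wCtl len F.e2
  obtain ⟨C1, hC1⟩ := h.fill_one hl
  set A : ℕ := 2 * C1 * k ^ 2 + 1 with hA
  set C3 : ℝ := 2 * k + 2 * k * (9 * A) + 2 * C1 + 1 with hC3
  have hC30 : 0 ≤ C3 := by positivity
  have key : ∀ z, F.d2 z = 0 → ∃ y, F.d3 y = z ∧
      (ms y : ℝ) ≤ 4 * C * C3 * (ms z * Real.sqrt (ms z)) := by
    intro z
    induction hm : ms z using Nat.strong_induction_on generalizing z with
    | _ m ih =>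
    intro hz
    by_cases h0 : z = 0
    · refine ⟨0, by rw [h0, map_zero], ?_⟩
      rw [ms_eq_zero.2 rfl, Nat.cast_zero]
      positivity
    obtain ⟨p0, hp0⟩ := Finsupp.support_nonempty_iff.2 h0
    choose δ hδ1 hδ2 using fun j : ℕ => hk.slice hl p0.1 (k + 2 * k * j) hz
    obtain ⟨j, hj1, hj2⟩ := wStop_two (β := fun j => ms (wBall len p0.1 (k + 2 * k * j) z))
      (δ := δ) (M := ms z) (A := A) (by omega) (by simpa using wBall_pos hk.one hp0)
      (fun j => wBall_le _ _ _ _) (fun j => by rw [← hδ1 j, mul_add, mul_one, add_assoc])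
    have a1 := hδ1 j
    have a2 := hδ2 j
    simp only [mul_add, mul_one, ← add_assoc] at hj1
    set z1 := wBall len p0.1 (k + 2 * k * j + 2 * k) z with hz1
    have a3 : ms z1 + ms (z - z1) = ms z := wCut_ms _ z
    have a4 : (j + 1) ^ 2 ≤ 9 * A * ms z1 := hj2.trans (Nat.mul_le_mul_left _ (by omega))
    have a5 : 1 ≤ ms z1 := by
      by_contra h1
      have h2 : ms z1 = 0 := by omega
      rw [h2, mul_zero] at a4
      exact absurd a4 (not_le.2 (by positivity))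
    have a6 : 2 * (C1 * ms (F.d2 z1) ^ 2) ≤ ms z1 := by
      have h1 : ms (F.d2 z1) ^ 2 ≤ (k * δ j) ^ 2 := Nat.pow_le_pow_left a2 2
      have h2 : C1 * ms (F.d2 z1) ^ 2 ≤ C1 * (k * δ j) ^ 2 := Nat.mul_le_mul_left _ h1
      have h3 : A * δ j ^ 2 = 2 * (C1 * (k * δ j) ^ 2) + δ j ^ 2 := by rw [hA]; ring
      omega
    obtain ⟨w, hw1, hw2, hw3⟩ := hC1 (F.d2 z1) (F.exact1.apply_apply_eq_zero z1)
    have hw4 := hw3 p0.1 _ (hk.within hl (within_wBall len p0.1 (k + 2 * k * j + 2 * k) z))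
    have c1 : F.d2 (z1 - w) = 0 := by rw [map_sub, hw1, sub_self]
    obtain ⟨y1, hy1, hy2⟩ := h.two p0.1 _ (z1 - w) c1
      (((within_wBall len p0.1 (k + 2 * k * j + 2 * k) z).mono (by omega)).sub hw4)
    have a7 : ms (z - (z1 - w)) ≤ ms (z - z1) + ms w := by
      rw [show z - (z1 - w) = (z - z1) + w by abel]
      exact ms_add_le _ _
    have a8 : ms (z1 - w) ≤ ms z1 + ms w := ms_sub_le _ _
    obtain ⟨y2, hy4, hy5⟩ := ih (ms (z - (z1 - w))) (by omega) (z - (z1 - w)) rfl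
      (by rw [map_sub, hz, c1, sub_zero])
    refine ⟨y1 + y2, by rw [map_add, hy1, hy4, add_sub_cancel], ?_⟩
    exact wArith (b := ms z1) (s := ms (F.d2 z1)) (by omega) a5 a4 (by omega) hy2 (by omega)
      (by omega) hy5 (ms_add_le y1 y2)
  refine ⟨4 * C * C3, by positivity, fun z hz => ?_⟩
  obtain ⟨y, hy1, hy2⟩ := key z hz
  refine ⟨y, hy1, ?_⟩
  rwa [show (3 / 2 : ℝ) = 1 + 1 / 2 by norm_num,
    Real.rpow_one_add' (Nat.cast_nonneg _) (by norm_num), ← Real.sqrt_eq_rpow]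

end Vale.Agent.P239
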