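import Vale.Agent.P239.CoreMain
import Vale.Agent.P239.CxDual
import Vale.Agent.P239.CxGen
import Vale.Agent.P239.CxCay
import Vale.Agent.P239.CxL2
import Vale.Agent.P239.L2Final
import Vale.Agent.P239.Cone
import Vale.Agent.P239.Wenger
import Vale.Agent.P239.Cat0

/-! Assembly.
-/

noncomputable section

open Classical Filter Topology Set

namespace Vale.Agent.P239

universe u v
variable {G : Type u} [Group G]

theorem main_coord (R : FreeRes4 G) (hR : R.IsPD4) {F : Cx G R.n0 R.n1 R.n2 R.n3 R.n4}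
    (hF : Coord R F) {α : ℝ} (h1 : 1 ≤ α) (h2 : α < 2) (hf : F.Fill α) : R.SingerVanishing := by
  obtain ⟨D, χ, hD⟩ := hF.exists_dual hR
  obtain ⟨S, hs, hg⟩ := F.exists_gen
  have : Infinite G := hD.infinite
  have hS : Cay S := ⟨hs, hg, inferInstance⟩
  obtain ⟨l, hl⟩ := hD.cofill hS h1 h2 (hf.transfer h1 D)
  have hv : HarmVanish S := core hS (hD.oneEnded hS) hl F.torsionFree
  refine ⟨reduced_of_hv _ _ (fun x => by simp) ?_, reduced_of_hv _ _
    (fun x => R.exact1.apply_apply_eq_zero x) ?_, reduced_of_hv _ _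
    (fun x => R.exact3.apply_apply_eq_zero x) ?_, reduced_of_hv _ _ (fun x => by simp) ?_⟩
  · intro c hc hz _
    rw [← hF.c1] at hz
    exact F.hv0 hc hz
  · rw [← hF.c1, ← hF.c2]
    exact F.hv1 hS hv
  · rw [← hF.c3, ← hF.c4]
    exact hD.hv3 (D.hv1 hS hv)
  · intro c hc _ hz
    rw [← hF.c4] at hz
    exact hD.hv4 hc hz

theorem main_fill (R : FreeRes4 G) (hR : R.IsPD4) (h : R.SubquadraticFilling) :
    R.SingerVanishing := by
  obtain ⟨F, hF⟩ := R.exists_coord
  obtain ⟨α, h1, h2, hf⟩ := hF.fill h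
  exact main_coord R hR hF h1 h2 hf

theorem main_comb (R : FreeRes4 G) (hR : R.IsPD4) (h : LinearlyCombable G) :
    R.SingerVanishing := by
  obtain ⟨F, hF⟩ := R.exists_coord
  obtain ⟨len, C, hl, hc⟩ := F.cone_of_combable h
  exact main_coord R hR hF (by norm_num) (by norm_num) (hc.fill_two hl)

theorem main_cat0 (R : FreeRes4 G) (hR : R.IsPD4) {X : Type v} [MetricSpace X] [MulAction G X]
    [IsIsometricSMul G X] (hX : IsCAT0 X) (h : ProperCobounded G X) : R.SingerVanishing :=
  main_comb R hR (combable_of_cat0 hX h)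

end Vale.Agent.P239
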