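import Vale.Agent.P239.CxLift
import Vale.Agent.P239.Ball
import Vale.Agent.P239.Royden

/-! Task L2Pull: `ℓ²` estimates for pullbacks of cochains, and the Hodge decomposition argument.
`sqSum_pull`: `pair c (f (bs (g,i))) = ∑ over the support of f (bs (1,i)) of a * c (g q.1, q.2)`; Cauchy-Schwarz on the finite support and translation invariance of sums.
`coclosed_orth`: `b ↦ ∑' p, c p * pair b (e (bs p))` is continuous on `ℓ²` (previous bound) and vanishes on indicator functions of points by `Coclosed`; or: approximate `b` by finitely supported truncations.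
`HV.approx`: in the Hilbert space `lp (fun _ : G × κ => ℝ) 2` let `K` be the closure of the subspace of pullbacks `p ↦ pair b (e (bs p))`, `b` square summable. Write `c = k + h`, `h ∈ Kᗮ`. Elements of `K` are cocycles (`e ∘ d = 0`, evaluation on a chain is continuous), so `h` is a cocycle, and it is coclosed
(test against `b = ` indicator of `q`). So `h = 0`.
`HarmVanish.approx`: same in `ℓ²(G × S)` with gradients of square summable functions; the limit `k` is the gradient of some function (pointwise limit after normalising at `1`, `Cay.exists_ball`), the residual is the gradient of a harmonic function of finite energy (orthogonality to the gradient of the indicator of `y` is `2 * card S * (w y - avg S w y) = 0`, using `S = S⁻¹`).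
-/

noncomputable section

open Classical Filter Topology Set

namespace Vale.Agent.P239

universe u
variable {G : Type u} [Group G] {S : Finset G} {n0 n1 n2 n3 n4 : ℕ}

section
variable {ι κ μ : Type*}

theorem l2_pair_sq {α : Type*} (c : α → ℝ) (z : α →₀ ℤ) :
    pair c z ^ 2 ≤ (ms z : ℝ) ^ 2 * ∑ q ∈ z.support, c q ^ 2 := by
  have h1 : pair c z ^ 2 ≤ (∑ q ∈ z.support, (z q : ℝ) ^ 2) * ∑ q ∈ z.support, c q ^ 2 :=
    Finset.sum_mul_sq_le_sq_mul_sq z.support (fun q => (z q : ℝ)) c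
  refine h1.trans (mul_le_mul_of_nonneg_right ?_ (Finset.sum_nonneg fun _ _ => sq_nonneg _))
  have h2 : (ms z : ℝ) = ∑ q ∈ z.support, |(z q : ℝ)| := by
    rw [cl_ms z (Finset.Subset.refl _), Nat.cast_sum]
    exact Finset.sum_congr rfl fun q _ => by rw [Nat.cast_natAbs, Int.cast_abs]
  rw [h2]
  refine le_trans (le_of_eq ?_) (Finset.sum_sq_le_sq_sum_of_nonneg fun q _ => abs_nonneg _)
  exact Finset.sum_congr rfl fun q _ => (sq_abs _).symm

theorem Eqv.sqSum_pull [Finite ι] {f : Ch G ι →+ Ch G κ} (hf : Eqv f) :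
    ∃ C : ℝ, 0 ≤ C ∧ ∀ c : G × κ → ℝ, SqSum c → SqSum (fun p => pair c (f (bs p))) ∧
      ∑' p, pair c (f (bs p)) ^ 2 ≤ C * ∑' q, c q ^ 2 := by
  obtain ⟨C1, hC1⟩ := hf.ms_le
  obtain ⟨C2, hC2⟩ := hf.finite_rev
  refine ⟨(C1 : ℝ) ^ 2 * C2, by positivity, fun c hc => ?_⟩
  have key : ∀ W : Finset (G × ι), ∑ p ∈ W, pair c (f (bs p)) ^ 2 ≤
      (C1 : ℝ) ^ 2 * C2 * ∑' q, c q ^ 2 := by
    intro W
    obtain ⟨V, hV⟩ : ∃ V : Finset (G × κ), ∀ p ∈ W, (f (bs p)).support ⊆ V :=
      ⟨W.biUnion fun p => (f (bs p)).support, fun p hp =>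
        Finset.subset_biUnion_of_mem (fun p => (f (bs p)).support) hp⟩
    have h1 : ∀ p ∈ W, pair c (f (bs p)) ^ 2 ≤
        (C1 : ℝ) ^ 2 * ∑ q ∈ V, if f (bs p) q ≠ 0 then c q ^ 2 else 0 := by
      intro p hp
      have h2 : (ms (f (bs p)) : ℝ) ≤ C1 := by
        have h3 := hC1 (bs p)
        rw [ms_single, Int.natAbs_one, mul_one] at h3
        exact_mod_cast h3
      have h3 : (f (bs p)).support = V.filter fun q => f (bs p) q ≠ 0 := by
        ext q
        rw [Finset.mem_filter, ← Finsupp.mem_support_iff]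
        exact ⟨fun h => ⟨hV p hp h, h⟩, fun h => h.2⟩
      rw [← Finset.sum_filter, ← h3]
      exact (l2_pair_sq _ _).trans (mul_le_mul_of_nonneg_right
        (pow_le_pow_left₀ (Nat.cast_nonneg _) h2 2) (Finset.sum_nonneg fun _ _ => sq_nonneg _))
    refine (Finset.sum_le_sum h1).trans ?_
    rw [← Finset.mul_sum, Finset.sum_comm, mul_assoc]
    refine mul_le_mul_of_nonneg_left ?_ (sq_nonneg _)
    refine le_trans ?_ (mul_le_mul_of_nonneg_left
      (Summable.sum_le_tsum V (fun _ _ => sq_nonneg _) hc) (Nat.cast_nonneg _))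
    rw [Finset.mul_sum]
    refine Finset.sum_le_sum fun q _ => ?_
    rw [← Finset.sum_filter, Finset.sum_const, nsmul_eq_mul]
    refine mul_le_mul_of_nonneg_right ?_ (sq_nonneg _)
    have h4 : (W.filter fun p => f (bs p) q ≠ 0).card ≤ C2 := by
      rw [← ncard_coe_finset]
      exact (ncard_le_ncard (fun p hp => (Finset.mem_filter.1 (Finset.mem_coe.1 hp)).2)
        (hC2 q).1).trans (hC2 q).2
    exact_mod_cast h4
  have h1 : SqSum fun p => pair c (f (bs p)) := summable_of_sum_le (fun _ => sq_nonneg _) key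
  exact ⟨h1, Summable.tsum_le_of_sum_le h1 key⟩

theorem l2_pair_add {α : Type*} (c c' : α → ℝ) (z : α →₀ ℤ) :
    pair (c + c') z = pair c z + pair c' z := by
  unfold pair Finsupp.sum
  rw [← Finset.sum_add_distrib]
  exact Finset.sum_congr rfl fun _ _ => mul_add _ _ _

theorem l2_pair_smul {α : Type*} (a : ℝ) (c : α → ℝ) (z : α →₀ ℤ) :
    pair (a • c) z = a * pair c z := by
  unfold pair Finsupp.sum
  rw [Finset.mul_sum]
  exact Finset.sum_congr rfl fun _ _ => mul_left_comm _ _ _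

theorem l2_pair_zero {α : Type*} (c : α → ℝ) : pair c 0 = 0 := (pairHom c).map_zero

theorem l2_pair_point {α : Type*} [DecidableEq α] (q : α) (a : ℝ) (z : α →₀ ℤ) :
    pair (Pi.single q a) z = z q * a := by
  change ∑ p ∈ z.support, (z p : ℝ) * (Pi.single q a : α → ℝ) p = _
  rw [Finset.sum_eq_single q]
  · rw [Pi.single_eq_same]
  · intro p _ hp
    rw [Pi.single_eq_of_ne hp, mul_zero]
  · intro hq
    rw [Finsupp.notMem_support_iff.1 hq, Int.cast_zero, zero_mul]

theorem l2_continuous {α : Type*} (z : α →₀ ℤ) :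
    Continuous fun k : lp (fun _ : α => ℝ) 2 => pair k z :=
  continuous_finsetSum _ fun q _ => continuous_const.mul
    ((continuous_apply q).comp lp.uniformContinuous_coe.continuous)

theorem l2_exists_pull [Finite ι] {f : Ch G ι →+ Ch G κ} (hf : Eqv f) :
    ∃ T : lp (fun _ : G × κ => ℝ) 2 →L[ℝ] lp (fun _ : G × ι => ℝ) 2,
      ∀ b p, T b p = pair b (f (bs p)) := by
  obtain ⟨C, hC0, hC⟩ := hf.sqSum_pull
  refine ⟨LinearMap.mkContinuous
    { toFun := fun b => ⟨fun p => pair b (f (bs p)), ry_mem.2 (hC b (ry_mem.1 (lp.memℓp b))).1⟩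
      map_add' := fun b b' => lp.ext (funext fun p => l2_pair_add b b' _)
      map_smul' := fun a b => lp.ext (funext fun p => l2_pair_smul a b _) } (Real.sqrt C)
    fun b => ?_, fun _ _ => rfl⟩
  refine (sq_le_sq₀ (norm_nonneg _) (by positivity)).1 ?_
  rw [mul_pow, Real.sq_sqrt hC0, ry_norm, ry_norm]
  exact (hC b (ry_mem.1 (lp.memℓp b))).2

theorem l2_hodge {E F : Type*} [NormedAddCommGroup E] [NormedSpace ℝ E] [NormedAddCommGroup F]
    [InnerProductSpace ℝ F] [CompleteSpace F] (T : E →L[ℝ] F) (c : F)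
    (h : ∀ k, k ∈ closure (range T) → (∀ b, inner ℝ (T b) (c - k) = 0) → c - k = 0)
    {ε : ℝ} (hε : 0 < ε) : ∃ b, ‖c - T b‖ ^ 2 < ε := by
  obtain ⟨k, hk, w, hw, hc⟩ := Submodule.exists_add_mem_mem_orthogonal
    (K := (LinearMap.range (T : E →ₗ[ℝ] F)).topologicalClosure) c
  have hk' : k ∈ closure (range T) := hk
  have h1 : c - k = 0 := h k hk' fun b => by
    rw [hc, add_sub_cancel_left]
    exact hw _ (Submodule.le_topologicalClosure _ ⟨b, rfl⟩)
  rw [← sub_eq_zero.1 h1] at hk'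
  obtain ⟨_, ⟨b, rfl⟩, hb⟩ := Metric.mem_closure_iff.1 hk' _ (Real.sqrt_pos.2 hε)
  rw [dist_eq_norm] at hb
  exact ⟨b, (Real.lt_sqrt (norm_nonneg _)).1 hb⟩

theorem l2_closure {α E : Type*} (T : E → lp (fun _ : α => ℝ) 2) {z : α →₀ ℤ}
    (h : ∀ b, pair (T b) z = 0) {k : lp (fun _ : α => ℝ) 2} (hk : k ∈ closure (range T)) :
    pair k z = 0 := by
  refine closure_minimal (t := {k : lp (fun _ : α => ℝ) 2 | pair k z = 0}) ?_
    (isClosed_eq (l2_continuous z) continuous_const) hk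
  rintro _ ⟨b, rfl⟩
  exact h b

theorem l2_pair_sub {α : Type*} (c k : lp (fun _ : α => ℝ) 2) (z : α →₀ ℤ) :
    pair (c - k : lp (fun _ : α => ℝ) 2) z = pair c z - pair k z := by
  unfold pair Finsupp.sum
  rw [← Finset.sum_sub_distrib]
  exact Finset.sum_congr rfl fun _ _ => mul_sub _ _ _

theorem coclosed_orth [Finite κ] {e : Ch G κ →+ Ch G μ} (he : Eqv e) {c : G × κ → ℝ}
    (hc : SqSum c) (h : Coclosed e c) {b : G × μ → ℝ} (hb : SqSum b) :
    ∑' p, c p * pair b (e (bs p)) = 0 := by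
  obtain ⟨T, hT⟩ := l2_exists_pull he
  obtain ⟨c', hc'⟩ : ∃ c' : lp (fun _ : G × κ => ℝ) 2, ∀ p, c' p = c p :=
    ⟨⟨c, ry_mem.2 hc⟩, fun _ => rfl⟩
  have h1 := ((innerSL ℝ c').comp T).hasSum
    (lp.hasSum_single ENNReal.ofNat_ne_top (⟨b, ry_mem.2 hb⟩ : lp (fun _ : G × μ => ℝ) 2))
  have h2 : ∀ q a, ((innerSL ℝ c').comp T) (lp.single 2 q a) = 0 := fun q a => by
    change inner ℝ c' (T (lp.single 2 q a)) = 0
    rw [ry_inner]
    simp only [hT, hc', lp.coeFn_single, l2_pair_point, ← mul_assoc]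
    rw [tsum_mul_right, h q, zero_mul]
  simp only [h2] at h1
  have h3 : inner ℝ c' (T ⟨b, ry_mem.2 hb⟩) = 0 := h1.unique hasSum_zero
  rw [ry_inner] at h3
  simp only [hT, hc'] at h3
  exact h3

theorem HV.approx [Finite κ] {d : Ch G ι →+ Ch G κ} {e : Ch G κ →+ Ch G μ} (h : HV d e)
    (he : Eqv e) (hde : ∀ z, e (d z) = 0) {c : G × κ → ℝ} (hc : SqSum c) (hz : Cocyc d c)
    {ε : ℝ} (hε : 0 < ε) :
    ∃ b : G × μ → ℝ, SqSum b ∧ ∑' p, (c p - pair b (e (bs p))) ^ 2 < ε := by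
  obtain ⟨T, hT⟩ := l2_exists_pull he
  obtain ⟨c', hc'⟩ : ∃ c' : lp (fun _ : G × κ => ℝ) 2, (c' : G × κ → ℝ) = c :=
    ⟨⟨c, ry_mem.2 hc⟩, rfl⟩
  obtain ⟨b, hb⟩ := l2_hodge T c' (fun k hk ho => by
    refine lp.ext (h _ (ry_mem.1 (lp.memℓp _)) (fun z => ?_) fun q => ?_)
    · rw [l2_pair_sub, hc', hz, l2_closure T (fun b => ?_) hk, sub_zero]
      rw [show (T b : G × κ → ℝ) = fun p => pair b (e (bs p)) from funext (hT b), pair_comp, hde,
        l2_pair_zero]
    · have h1 := ho (lp.single 2 q 1)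
      rw [real_inner_comm, ry_inner] at h1
      simpa only [hT, lp.coeFn_single, l2_pair_point, mul_one] using h1) hε
  refine ⟨b, ry_mem.1 (lp.memℓp b), ?_⟩
  rw [ry_norm] at hb
  simpa only [lp.coeFn_sub, Pi.sub_apply, hT, hc'] using hb

end

theorem l2_grad (P : G × Unit → ℝ) (e : G × S) :
    pair P (cayD S (bs e)) = P (e.1 * e.2, ()) - P (e.1, ()) := by
  rw [cayD_bs, ← pairHom_apply, map_sub, pairHom_apply, pairHom_apply, pair_single, pair_single]

theorem l2_path (hS : Cay S) (g : G) : ∃ γ : Ch G S, cayD S γ = bs (g, ()) - bs (1, ()) := by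
  obtain ⟨r, hr⟩ := hS.exists_ball g
  induction r generalizing g with
  | zero => exact ⟨0, by rw [mem_ball_zero.1 hr, map_zero, sub_self]⟩
  | succ r ih =>
    rcases mem_ball_succ.1 hr with h | ⟨b, hb, s, hs, rfl⟩
    · exact ih g h
    · obtain ⟨γ, hγ⟩ := ih b hb
      exact ⟨bs (b, ⟨s, hs⟩) + γ, by rw [map_add, cayD_bs, hγ, sub_add_sub_cancel]⟩

theorem l2_exists_grad (hS : Cay S) {c : G × S → ℝ} (h : ∀ z, cayD S z = 0 → pair c z = 0) :
    ∃ w : G → ℝ, ∀ e : G × S, c e = w (e.1 * e.2) - w e.1 := by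
  choose γ hγ using l2_path hS
  refine ⟨fun g => pair c (γ g), fun e => ?_⟩
  have h1 := h (bs e - (γ (e.1 * e.2) - γ e.1)) (by
    rw [map_sub, map_sub, cayD_bs, hγ, hγ, sub_sub_sub_cancel_right, sub_self])
  rw [← pairHom_apply, map_sub, map_sub, sub_eq_zero, pairHom_apply, pair_single] at h1
  exact h1

omit [Group G] in
theorem l2_summable {φ : G → G → ℝ} (h0 : ∀ x s, 0 ≤ φ x s) :
    (Summable fun e : G × S => φ e.1 e.2) ↔ Summable fun x => ∑ s ∈ S, φ x s := by
  rw [summable_prod_of_nonneg fun e => h0 _ _]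
  simp only [tsum_fintype, Finset.sum_coe_sort S (φ _)]
  exact and_iff_right fun _ => Summable.of_finite

omit [Group G] in
theorem l2_tsum {φ : G → G → ℝ} (h : Summable fun e : G × S => φ e.1 e.2) :
    ∑' e : G × S, φ e.1 e.2 = ∑' x, ∑ s ∈ S, φ x s := by
  rw [h.tsum_prod]
  simp only [tsum_fintype, Finset.sum_coe_sort S (φ _)]

theorem l2_finEn {u : G → ℝ} :
    (SqSum fun e : G × S => u (e.1 * e.2) - u e.1) ↔ FinEn S u :=
  l2_summable (φ := fun x s => (u (x * s) - u x) ^ 2) fun _ _ => sq_nonneg _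

theorem l2_energy {u : G → ℝ} (hu : FinEn S u) :
    ∑' e : G × S, (u (e.1 * e.2) - u e.1) ^ 2 = energy S u :=
  l2_tsum (φ := fun x s => (u (x * s) - u x) ^ 2) (l2_finEn.2 hu)

theorem l2_harm (hS : Cay S) {w : G → ℝ} (hw : FinEn S w) (y : G)
    (h : ∑' e : G × S, (w (e.1 * e.2) - w e.1) *
      ((Pi.single y 1 : G → ℝ) (e.1 * e.2) - (Pi.single y 1 : G → ℝ) e.1) = 0) :
    avg S w y = w y := by
  have h6 : SqSum (Pi.single y 1 : G → ℝ) :=
    summable_of_ne_finset_zero (s := {y}) fun x hx => by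
      rw [Pi.single_eq_of_ne (Finset.notMem_singleton.1 hx), zero_pow two_ne_zero]
  have h1 := l2_tsum (S := S) (φ := fun x s => (w (x * s) - w x) *
    ((Pi.single y 1 : G → ℝ) (x * s) - (Pi.single y 1 : G → ℝ) x))
    (ry_mul (l2_finEn.2 hw) (l2_finEn.2 h6.finEn))
  have h4 := (h1.symm.trans h).symm.trans (ry_parts hS hw h6)
  rw [tsum_eq_single y fun x hx => by rw [Pi.single_eq_of_ne hx, mul_zero],
    Pi.single_eq_same, mul_one, ry_sum hS] at h4
  have hc : (0 : ℝ) < S.card := by exact_mod_cast hS.card_pos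
  have h7 := (mul_eq_zero.1 ((mul_eq_zero.1 h4.symm).resolve_left (by norm_num))).resolve_left
    (neg_ne_zero.2 hc.ne')
  exact (sub_eq_zero.1 h7).symm

theorem l2_vanish (h : HarmVanish S) (hS : Cay S) {c : G × S → ℝ} (hc : SqSum c)
    (h1 : ∀ z, cayD S z = 0 → pair c z = 0)
    (h2 : ∀ y : G, ∑' e : G × S, c e *
      ((Pi.single y 1 : G → ℝ) (e.1 * e.2) - (Pi.single y 1 : G → ℝ) e.1) = 0) : c = 0 := by
  obtain ⟨w, hw⟩ := l2_exists_grad hS h1
  obtain rfl : c = fun e : G × S => w (e.1 * e.2) - w e.1 := funext hw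
  have h3 : FinEn S w := l2_finEn.1 hc
  funext e
  exact sub_eq_zero.2 (h w h3 (fun y => l2_harm hS h3 y (h2 y)) _ _ e.2.2)

theorem HarmVanish.approx (h : HarmVanish S) (hS : Cay S) {u : G → ℝ} (hu : FinEn S u) {ε : ℝ}
    (hε : 0 < ε) : ∃ φ : G → ℝ, SqSum φ ∧ energy S (fun x => u x - φ x) < ε := by
  obtain ⟨T, hT⟩ := l2_exists_pull (eqv_cayD (S := S))
  obtain ⟨c, hc⟩ : ∃ c : lp (fun _ : G × S => ℝ) 2,
      (c : G × S → ℝ) = fun e => u (e.1 * e.2) - u e.1 := ⟨⟨_, ry_mem.2 (l2_finEn.2 hu)⟩, rfl⟩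
  obtain ⟨b, hb⟩ := l2_hodge T c (fun k hk ho => by
    refine lp.ext (l2_vanish h hS (ry_mem.1 (lp.memℓp _)) (fun z hz => ?_) fun y => ?_)
    · have h1 := pair_comp (fun p : G × Unit => u p.1) (cayD S) z
      simp only [l2_grad] at h1
      rw [l2_pair_sub, hc, h1, hz, l2_pair_zero, l2_closure T (fun b => ?_) hk, sub_zero]
      rw [show (T b : G × S → ℝ) = fun p => pair b (cayD S (bs p)) from funext (hT b), pair_comp,
        hz, l2_pair_zero]
    · have h4 := ho (lp.single 2 (y, ()) 1)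
      have h5 : ∀ x : G, (Pi.single (y, ()) 1 : G × Unit → ℝ) (x, ()) =
          (Pi.single y 1 : G → ℝ) x := fun x => by
        simp only [Pi.single_apply, Prod.mk.injEq, and_true]
      rw [real_inner_comm, ry_inner] at h4
      simpa only [hT, l2_grad, lp.coeFn_single, h5] using h4) hε
  have h1 : SqSum fun x : G => b (x, ()) :=
    Summable.comp_injective (f := fun p : G × Unit => b p ^ 2) (i := fun x : G => (x, ()))
      (ry_mem.1 (lp.memℓp b)) fun _ _ h => (Prod.ext_iff.1 h).1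
  refine ⟨fun x => b (x, ()), h1, lt_of_eq_of_lt ?_ hb⟩
  rw [ry_norm, ← l2_energy (hu.sub h1.finEn)]
  refine tsum_congr fun e => ?_
  rw [lp.coeFn_sub, Pi.sub_apply, hT, hc, l2_grad]
  ring

end Vale.Agent.P239
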